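import Vale.Agent.P325.Alg

/-!
# The algorithm for small soundness, on lists of natural numbers

Pieces are lists of constraints. The walk is not lazy.
-/

namespace Vale.Agent.P325.V3.Alg3

open Vale.Agent.P325.Alg

/-! ### Walks -/

/-- contribution of an edge to the matrix vector product at `x` -/
def mvE3 (h : List ℕ) (x : ℕ) (e : ℕ × ℕ) : ℕ :=
  (if x = e.1 then gt h e.2 else 0) + (if x = e.2 then gt h e.1 else 0)

/-- matrix times vector -/
def mv3 (N : ℕ) (E : List (ℕ × ℕ)) (h : List ℕ) : List ℕ := tab N fun x => (E.map (mvE3 h x)).sum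

/-- degrees -/
def deg3 (N : ℕ) (E : List (ℕ × ℕ)) : List ℕ := mv3 N E (tab N fun _ => 1)

/-- scaled walk -/
def step3 (N : ℕ) (E : List (ℕ × ℕ)) (D : List ℕ) (Q : ℕ) (h : List ℕ) : List ℕ :=
  scaleL N D Q (mv3 N E h)

/-- scaled walk, `t` steps -/
def iter3 (N : ℕ) (E : List (ℕ × ℕ)) (D : List ℕ) (Q t : ℕ) (h : List ℕ) : List ℕ :=
  (step3 N E D Q)^[t] h

/-! ### Candidate sets -/

/-- the function whose level sets are candidates, from the function `X` -/
def levOf (N : ℕ) (E : List (ℕ × ℕ)) (D : List ℕ) (Q : ℕ) (X : List ℕ) : List ℕ :=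
  tab N fun x => max (Q * gt X x) (gt (step3 N E D Q X) x)

/-- the function whose level sets are candidates, walk from `v` after `t` steps -/
def lev3 (N : ℕ) (E : List (ℕ × ℕ)) (D : List ℕ) (Q v t : ℕ) : List ℕ :=
  levOf N E D Q (iter3 N E D Q t (tab N fun x => if x = v then 1 else 0))

/-- a level set -/
def setL (N : ℕ) (Y : List ℕ) (y : ℕ) : List ℕ := tab N fun x => if gt Y y ≤ gt Y x then 1 else 0

/-- constraints inside the set `S` -/
def insL (S : List ℕ) (C : Cons) : Cons :=
  C.filter fun c => decide (gt S c.1 = 1) && decide (gt S c.2.1 = 1)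

/-- constraints outside the set `S` -/
def outL (S : List ℕ) (C : Cons) : Cons :=
  C.filter fun c => decide (gt S c.1 = 0) && decide (gt S c.2.1 = 0)

/-- constraints cut by the set `S` -/
def cutL (S : List ℕ) (C : Cons) : Cons :=
  C.filter fun c => !decide (gt S c.1 = gt S c.2.1)

/-- volume of the set `S` -/
def volL (S : List ℕ) (C : Cons) : ℕ := (C.map fun c => gt S c.1 + gt S c.2.1).sum

/-- the numbers used in a run -/
structure Num3 where
  n : ℕ
  L : ℕ
  r : ℕ
  Bc : ℕ
  T2 : ℕ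
  S' : ℕ
  S : ℕ
  B : ℕ
  s : ℕ

/-- the exponent of the loss allowed for sets of relative volume `2 ^ (-y)` -/
def exP (L Bc y : ℕ) : ℕ := min (Bc * y / L) y

/-- the test for a set of volume `vol` with `i` of the `m` constraints inside -/
def goodN (L r Bc m vol i : ℕ) : Bool :=
  (decide (0 < vol) && decide (lg (4 * r) ≤ lg (2 * m / vol))) &&
    decide (vol ≤ (2 ^ exP L Bc (lg (2 * m / vol)) + 1) * i)

/-- the test for the set `S` -/
def goodS (L r Bc : ℕ) (C : Cons) (S : List ℕ) : Bool :=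
  goodN L r Bc C.length (volL S C) (insL S C).length

/-- all triples `(v, t, y)` -/
def tripL (N T : ℕ) : List (ℕ × ℕ × ℕ) :=
  (List.range N).flatMap fun v => (List.range T).flatMap fun t =>
    (List.range N).map fun y => (v, t, y)

/-- the candidate `(v, t, y)`; here `t < T` in all uses -/
def candL (N : ℕ) (E : List (ℕ × ℕ)) (D : List ℕ) (Q T : ℕ) (p : ℕ × ℕ × ℕ) : List ℕ :=
  setL N (lev3 N E D Q p.1 (min p.2.1 T)) p.2.2

/-- search for a good set; `E, D, Q` belong to `C` -/
def find3 (N : ℕ) (E : List (ℕ × ℕ)) (D : List ℕ) (Q L r Bc T : ℕ) (C : Cons) :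
    Option (ℕ × ℕ × ℕ) :=
  (tripL N T).find? fun p => goodS L r Bc C (candL N E D Q T p)

/-! ### Lists of labels from seeds -/

/-- one step of the filter, on pairs (positive part, negative part) -/
def filtStep3 (M : ℕ) (E : List (ℕ × ℕ)) (D : List ℕ) (Q T : ℕ) (p : List ℕ × List ℕ) :
    List ℕ × List ℕ :=
  (addL M (Q ^ T) p.1 (iter3 M E D Q T p.2), addL M (Q ^ T) p.2 (iter3 M E D Q T p.1))

/-- `(Q^T - walk^T)^S' psi`, as a pair -/
def filt3 (M : ℕ) (E : List (ℕ × ℕ)) (D : List ℕ) (Q T S' : ℕ) (psi : List ℕ) :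
    List ℕ × List ℕ :=
  (filtStep3 M E D Q T)^[S'] (psi, tab M fun _ => 0)

/-- one more step of the walk -/
def stepP3 (M : ℕ) (E : List (ℕ × ℕ)) (D : List ℕ) (Q : ℕ) (p : List ℕ × List ℕ) :
    List ℕ × List ℕ :=
  (step3 M E D Q p.1, step3 M E D Q p.2)

/-- scores of the certificate `c`, `M` vertices of the label extended graph -/
def scores3 (M : ℕ) (E : List (ℕ × ℕ)) (D : List ℕ) (Q T S' S c : ℕ) : List ℕ × List ℕ :=
  stepP3 M E D Q (scoreL M Q T S' (psiL M D Q S c) (filt3 M E D Q T S' (psiL M D Q S c)))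

/-- total mass of the heavy vertices, `w` the total mass -/
def heavy3 (N : ℕ) (D : List ℕ) (w n : ℕ) : ℕ :=
  sumR N fun v => if 0 < gt D v ∧ w ≤ n ^ 2 * gt D v then gt D v else 0

/-- characteristic vector of the lists of labels, from the scores `p`;
`a` = denominator of the score, `b` = numerator -/
def memL (M a b : ℕ) (p : List ℕ × List ℕ) : List ℕ :=
  tab M fun y => if a + b * gt p.2 y ≤ b * gt p.1 y then 1 else 0

/-- sizes of the lists -/
def cntL (k N : ℕ) (m : List ℕ) : List ℕ := tab N fun u => sumR k fun i => gt m (i + k * u)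

/-- number of labels of the constraint `c` consistent with the lists `m` -/
def pairN (k l : ℕ) (m cnt : List ℕ) (c : ℕ × ℕ × List ℕ) : ℕ :=
  if gt cnt c.1 ≤ l ∧ gt cnt c.2.1 ≤ l then
    sumR k fun i => if gt m (i + k * c.1) = 1 ∧ gt m (gt c.2.2 i + k * c.2.1) = 1 ∧
      (c.1 = c.2.1 → gt c.2.2 i = i) then 1 else 0
  else 0

/-- value of the lists `m` -/
def valM (k N l : ℕ) (C : Cons) (m : List ℕ) : ℕ :=
  (C.map (pairN k l m (cntL k N m))).sum

/-- denominator of the scores times `S` -/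
def den3 (Q T S' S : ℕ) : ℕ := S * Q ^ (T * S' + 2)

/-- value of the certificate `c`; `Eh, Dh, Q` belong to the label extended graph -/
def valC (k N l w0 s : ℕ) (C : Cons) (Eh : List (ℕ × ℕ)) (Dh : List ℕ) (Q T S' S c : ℕ) : ℕ :=
  valM k N l C (memL (N * k) (den3 Q T S' S) (w0 * 2 ^ (s + 5))
    (scores3 (N * k) Eh Dh Q T S' S c))

/-- best value -/
def bestV (k N l w0 s : ℕ) (C : Cons) (Eh : List (ℕ × ℕ)) (Dh : List ℕ) (Q T S' S B : ℕ) : ℕ :=
  ((List.range B).map fun c => valC k N l w0 s C Eh Dh Q T S' S c).foldl max 0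

/-- value of a leaf, `D` = degrees of the base graph, `Eh, Dh` belong to the lift -/
def leafD (k N : ℕ) (P : Num3) (C : Cons) (D : List ℕ) (Eh : List (ℕ × ℕ)) (Dh : List ℕ) : ℕ :=
  bestV k N (2 ^ (3 * P.s + 18)) (heavy3 N D D.sum P.n) P.s C Eh Dh (QpL Dh) (2 * P.T2)
    P.S' P.S P.B

/-- value of a leaf -/
def leaf3 (k N : ℕ) (P : Num3) (C : Cons) : ℕ :=
  leafD k N P C (deg3 N (baseL C)) (liftL k C) (deg3 (N * k) (liftL k C))

/-! ### A layer -/

/-- states: pieces, constraints left, accumulated value -/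
abbrev St3 := List Cons × Cons × ℕ

/-- split the piece `C` by `S` -/
def split3 (C : Cons) (S : List ℕ) (st : List Cons) (rest : Cons) (acc : ℕ) : St3 :=
  (insL S C :: outL S C :: st, cutL S C ++ rest, acc)

/-- treatment of a piece -/
def treat3 (k N : ℕ) (P : Num3) (C : Cons) (st : List Cons) (rest : Cons) (acc : ℕ)
    (D : List ℕ) : St3 :=
  match find3 N (baseL C) D (QpL D) P.L P.r P.Bc (2 * P.T2) C with
  | none => (st, rest, acc + leaf3 k N P C)
  | some p => split3 C (candL N (baseL C) D (QpL D) (2 * P.T2) p) st rest acc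

/-- one step of the loop of a layer -/
def loop3 (k N : ℕ) (P : Num3) (z : St3) : St3 :=
  match z.1 with
  | [] => z
  | C :: st => treat3 k N P C st z.2.1 z.2.2 (deg3 N (baseL C))

/-- a layer: constraints left and value -/
def layer3 (k N : ℕ) (P : Num3) (C : Cons) : Cons × ℕ :=
  ((loop3 k N P)^[P.B] ([C], [], 0)).2

/-- the threshold `2 ^ (3 s + 7 + 2 Bc)` -/
def thr3 (P : Num3) : ℕ := 2 ^ (3 * P.s + 7 + 2 * P.Bc)

/-- one layer, with the test; `m` = number of constraints of the instance -/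
def layT (m D : ℕ) (b : Bool) (z : Cons × ℕ) : Cons × Bool := (z.1, b || decide (m ≤ D * z.2))

/-- all layers -/
def run3 (k N : ℕ) (P : Num3) (T0 : ℕ) (C : Cons) : Bool :=
  ((fun z : Cons × Bool => layT C.length (thr3 P) z.2 (layer3 k N P z.1))^[T0] (C, false)).2

/-! ### The choice of the numbers -/

/-- the constants of the algorithm -/
structure Cst3 where
  k : ℕ
  q : ℕ
  s : ℕ
  u : ℕ
  Bc : ℕ
  n0 : ℕ
  L0 : ℕ
  CS : ℕ
  T0 : ℕ
  C : ℕ

/-- the numbers of a run, `B` the length of the padding -/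
def nums3 (c : Cst3) (n ρ B : ℕ) : Num3 where
  n := n
  L := Nat.size n
  r := Nat.sqrt ρ + 1
  Bc := c.Bc
  T2 := Nat.size n / c.u + 1
  S' := c.L0 * (Nat.sqrt ρ + 1)
  S := c.CS * (Nat.sqrt ρ + 1) ^ 4
  B := B
  s := c.s

/-- size of the instance plus `n0` -/
def sizeL3 (c : Cst3) (l : List ℕ) : ℕ := l.headD 0 + parseM c.k l + c.n0

/-- the answer with a padding of length `B`; `none` if the padding is too short -/
def main3 (c : Cst3) (l : List ℕ) (B : ℕ) : Option Bool :=
  match (List.range B).find? (fun ρ => decide (sizeL3 c l ≤ ρ ^ (4 * c.q))) with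
  | none => none
  | some ρ => if c.C * ρ ^ 4 < Nat.size B then
      some (run3 c.k (min (l.headD 0) B) (nums3 c (sizeL3 c l) (min ρ B) B) c.T0
        (parseC c.k l))
    else none

end Vale.Agent.P325.V3.Alg3
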