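import Vale.Agent.P325.V3.AlgPTb

/-!
# The algorithm for small soundness runs in polynomial time: the loop and the main program
-/

namespace Vale.Agent.P325.V3.AlgPT

open Vale.Agent.Lib.PolyTime Vale.Agent.P325.Alg Vale.Agent.P325.AlgPT Vale.Agent.P325.AlgPT3
  Vale.Agent.P325.V3.Alg3 Function

variable {A : Set Word} {α : Type*} [Enc α]

/-! ### Bounds -/

theorem pairN_le (k l : ℕ) (m cnt : List ℕ) (c : ℕ × ℕ × List ℕ) : pairN k l m cnt c ≤ k := by
  unfold pairN
  split_ifs
  · unfold sumR
    refine (sum_le_of_le (β := 1) fun y hy => ?_).trans (by simp)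
    obtain ⟨i, -, rfl⟩ := List.mem_map.1 hy
    split_ifs <;> omega
  · exact Nat.zero_le _

theorem valM_le (k N l : ℕ) (C : Cons) (m : List ℕ) : valM k N l C m ≤ C.length * k := by
  unfold valM
  refine (sum_le_of_le (β := k) fun y hy => ?_).trans (by rw [List.length_map])
  obtain ⟨c, -, rfl⟩ := List.mem_map.1 hy
  exact pairN_le _ _ _ _ _

theorem leaf3_le (k N : ℕ) (P : Num3) (C : Cons) : leaf3 k N P C ≤ C.length * k := by
  unfold leaf3 leafD bestV
  refine foldl_max_le (Nat.zero_le _) fun x hx => ?_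
  obtain ⟨c, -, rfl⟩ := List.mem_map.1 hx
  exact valM_le _ _ _ _ _

/-- the size invariant of the loop of a layer -/
def Inv3 (C : Cons) (W i : ℕ) (z : St3) : Prop :=
  z.1.length ≤ i + 1 ∧ (∀ D ∈ z.1, List.Sublist D C) ∧
    (z.2.1.length ≤ i * C.length ∧ ∀ c ∈ z.2.1, c ∈ C) ∧ z.2.2 ≤ i * W

theorem Inv3.loop {k N : ℕ} {P : Num3} {C : Cons} {i : ℕ} {z : St3}
    (h : Inv3 C (C.length * k) i z) : Inv3 C (C.length * k) (i + 1) (loop3 k N P z) := by
  obtain ⟨st, rest, acc⟩ := z
  obtain ⟨h1, h2, ⟨h3, h4⟩, h5⟩ := h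
  dsimp only at h1 h2 h3 h4 h5
  unfold loop3
  rcases st with _ | ⟨D, st⟩
  · refine ⟨by simp, by simp, ⟨?_, h4⟩, ?_⟩
    · dsimp only
      rw [add_mul]; omega
    · dsimp only
      rw [add_mul]; omega
  · rw [List.length_cons] at h1
    have hD := h2 D List.mem_cons_self
    have hst : ∀ D' ∈ st, List.Sublist D' C := fun D' hD' => h2 D' (List.mem_cons_of_mem _ hD')
    unfold treat3
    dsimp only
    rcases find3 N (baseL D) (deg3 N (baseL D)) (QpL (deg3 N (baseL D))) P.L P.r P.Bc (2 * P.T2) D
      with _ | p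
    · refine ⟨by dsimp only; omega, hst, ⟨?_, h4⟩, ?_⟩
      · dsimp only
        rw [add_mul]; omega
      · dsimp only
        have h6 := (leaf3_le k N P D).trans (Nat.mul_le_mul_right k hD.length_le)
        rw [add_mul, one_mul]
        omega
    · refine ⟨?_, ?_, ⟨?_, ?_⟩, ?_⟩
      · simp only [split3, List.length_cons]
        omega
      · intro D' hD'
        simp only [split3, List.mem_cons] at hD'
        rcases hD' with rfl | rfl | hD'
        · exact List.filter_sublist.trans hD
        · exact List.filter_sublist.trans hD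
        · exact hst D' hD'
      · simp only [split3, List.length_append]
        have h6 : (cutL (candL N (baseL D) (deg3 N (baseL D)) (QpL (deg3 N (baseL D)))
          (2 * P.T2) p) D).length ≤ C.length := (List.length_filter_le _ _).trans hD.length_le
        rw [add_mul, one_mul]
        omega
      · intro c hc
        simp only [split3, List.mem_append] at hc
        rcases hc with hc | hc
        · exact hD.subset (List.filter_sublist.subset hc)
        · exact h4 c hc
      · simp only [split3]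
        rw [add_mul, one_mul]
        omega

theorem Inv3.iter {k N : ℕ} {P : Num3} {C : Cons} (i : ℕ) :
    Inv3 C (C.length * k) i ((loop3 k N P)^[i] ([C], [], 0)) := by
  induction i with
  | zero => exact ⟨by simp, by simp, ⟨by simp, by simp⟩, by simp⟩
  | succ i ih =>
    rw [iterate_succ_apply']
    exact ih.loop

/-- bound for the size of a state -/
theorem Inv3.esize_le {C : Cons} {W i : ℕ} {z : St3} (h : Inv3 C W i z) :
    esize z ≤ 2 * ((i + 1) * (2 * (C.length * (2 * esize C + 1)) + 1)) +
      (2 * (i * C.length * (2 * esize C + 1)) + i * W + 1) + 1 := by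
  obtain ⟨st, rest, acc⟩ := z
  obtain ⟨h1, h2, ⟨h3, h4⟩, h5⟩ := h
  dsimp only at h1 h2 h3 h4 h5
  rw [esize_pair, esize_pair]
  have e1 : esize st ≤ st.length * (2 * (C.length * (2 * esize C + 1)) + 1) := by
    refine esize_list_le fun D hD => ?_
    have hs := h2 D hD
    refine (esize_list_le fun c hc => esize_le_of_mem (hs.subset hc)).trans ?_
    exact Nat.mul_le_mul_right _ hs.length_le
  have e2 : esize rest ≤ rest.length * (2 * esize C + 1) :=
    esize_list_le fun c hc => esize_le_of_mem (h4 c hc)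
  have e3 : esize acc ≤ i * W := (esize_nat_le_self acc).trans h5
  have e4 := e1.trans (Nat.mul_le_mul_right _ h1)
  have e5 := e2.trans (Nat.mul_le_mul_right _ h3)
  omega

section Layer

variable {k N : α → ℕ} {P : α → Num3} {C : α → Cons}

theorem pt_layer3 (hk : PT A k) (hkb : PBd k) (hN : PT A N) (hNb : PBd N)
    (hP : PTNum3 A P) (hC : PT A C) : PT A fun a => layer3 (k a) (N a) (P a) (C a) := by
  unfold layer3
  have hCl := PBd.length hC
  have hCb := hC.pbd
  have hBb := hP.Bb
  have hc := PT.fst' (A := A) (α := α) (β := St3)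
  refine PT.snd (PT.iterate' (step := fun a z => loop3 (k a) (N a) (P a) z) hP.B hP.Bb
    (PT.pair (PT.cons hC PT.nil) (PT.pair PT.nil (PT.const 0)))
    (pt_loop3 (hk.comp hc) (hkb.comp hc) (hN.comp hc) (hNb.comp hc) (hP.comp hc) PT.snd')
    (b := fun a => 2 * (((P a).B + 1) * (2 * ((C a).length * (2 * esize (C a) + 1)) + 1)) +
      (2 * ((P a).B * (C a).length * (2 * esize (C a) + 1)) +
        (P a).B * ((C a).length * k a) + 1) + 1) (by fun_prop) fun a j hj => ?_)
  refine (Inv3.iter (k := k a) (N := N a) (P := P a) (C := C a) j).esize_le.trans ?_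
  gcongr

theorem pt_iter_const {β : Type*} [Enc β] (T : ℕ) {init : α → β} {f : α → β → β}
    (hi : PT A init) (hf : PT A (fun p : α × β => f p.1 p.2)) :
    PT A (fun a => (f a)^[T] (init a)) := by
  induction T with
  | zero => exact hi
  | succ T ih => exact (hf.comp (PT.id.pair ih)).congr fun a => by rw [iterate_succ_apply']

theorem pt_run3 (T0 : ℕ) (hk : PT A k) (hkb : PBd k) (hN : PT A N) (hNb : PBd N)
    (hP : PTNum3 A P) (hC : PT A C) : PT A fun a => run3 (k a) (N a) (P a) T0 (C a) := by
  unfold run3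
  have hc := PT.fst' (A := A) (α := α) (β := Cons × Bool)
  refine PT.snd (pt_iter_const T0 (f := fun a (z : Cons × Bool) => layT (C a).length
    (thr3 (P a)) z.2 (layer3 (k a) (N a) (P a) z.1)) (PT.pair hC (PT.const false)) ?_)
  have hl : PT A fun p : α × (Cons × Bool) => layer3 (k p.1) (N p.1) (P p.1) p.2.1 :=
    pt_layer3 (hk.comp hc) (hkb.comp hc) (hN.comp hc) (hNb.comp hc) (hP.comp hc) PT.snd'.fst
  have hth : PT A fun a => thr3 (P a) := by
    unfold thr3
    exact PT.pow (PT.const 2) (PT.add (PT.add (PT.mul (PT.const 3) hP.s) (PT.const 7))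
      (PT.mul (PT.const 2) hP.Bc))
      ((((PBd.const 3).mul hP.sb).add (PBd.const 7)).add ((PBd.const 2).mul hP.Bcb))
  unfold layT
  exact PT.pair hl.fst (PT.or PT.snd'.snd (PT.le (hC.length.comp hc)
    (PT.mul (hth.comp hc) hl.snd)))

end Layer

/-! ### The main program -/

theorem PTNum3_nums3 (c : Cst3) {n r B : α → ℕ} (hn : PT A n) (hr : PT A r)
    (hrb : PBd r) (hB : PT A B) (hBb : PBd B) :
    PTNum3 A fun a => nums3 c (n a) (r a) (B a) := by
  have hs : PT A fun a => Nat.size (n a) := hn.natSize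
  have hsb := PBd_size hn
  have hq : PT A fun a => Nat.sqrt (r a) + 1 := PT.add (PT.sqrt hr) (PT.const 1)
  have hqb : PBd fun a => Nat.sqrt (r a) + 1 :=
    (hrb.mono fun _ => Nat.sqrt_le_self _).add (PBd.const 1)
  exact {
    n := hn
    L := hs
    r := hq
    Bc := PT.const _
    T2 := PT.add (PT.div hs (PT.const c.u)) (PT.const 1)
    S' := PT.mul (PT.const c.L0) hq
    S := PT.mul (PT.const c.CS) (PT.powConst hq 4)
    B := hB
    s := PT.const _
    Bcb := PBd.const _
    T2b := (hsb.mono fun _ => Nat.div_le_self _ _).add (PBd.const 1)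
    S'b := (PBd.const c.L0).mul hqb
    Sb := (PBd.const c.CS).mul (hqb.pow 4)
    Bb := hBb
    sb := PBd.const _ }

theorem PT_sizeL3 (c : Cst3) {l : α → List ℕ} (hl : PT A l) : PT A fun a => sizeL3 c (l a) :=
  PT.add (PT.add (hl.headD (PT.const 0)) (PT_parseM (PT.const c.k) hl)) (PT.const c.n0)

/-- **The algorithm is computable in polynomial time**, the padding counted in the input. -/
theorem PT_main3 (c : Cst3) : PT A fun s : List ℕ × Raw => main3 c s.1 s.2.w.length := by
  have hl : PT A fun s : List ℕ × Raw => s.1 := PT.fst'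
  have hB : PT A fun s : List ℕ × Raw => s.2.w.length := PT.rawLength PT.snd'
  have hBb : PBd fun s : List ℕ × Raw => s.2.w.length :=
    (PT.snd' (A := A) (α := List ℕ) (β := Raw)).pbd.mono fun s => (esize_raw s.2).ge
  have hfind : PT A fun s : List ℕ × Raw => (List.range s.2.w.length).find?
      fun r => decide (sizeL3 c s.1 ≤ r ^ (4 * c.q)) :=
    PT.find? (f := fun (s : List ℕ × Raw) r => decide (sizeL3 c s.1 ≤ r ^ (4 * c.q)))
      (PT.range hB hBb) (PT.le (PT_sizeL3 c PT.fst'.fst) (PT.powConst PT.snd' _))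
  have hc := PT.fst' (A := A) (α := List ℕ × Raw) (β := ℕ)
  have hl' : PT A fun p : (List ℕ × Raw) × ℕ => p.1.1 := hl.comp hc
  have hB' : PT A fun p : (List ℕ × Raw) × ℕ => p.1.2.w.length := hB.comp hc
  have hBb' : PBd fun p : (List ℕ × Raw) × ℕ => p.1.2.w.length := hBb.comp hc
  have hN : PT A fun p : (List ℕ × Raw) × ℕ => min (p.1.1.headD 0) p.1.2.w.length :=
    PT.min (hl'.headD (PT.const 0)) hB'
  have hNb : PBd fun p : (List ℕ × Raw) × ℕ => min (p.1.1.headD 0) p.1.2.w.length :=
    hBb'.mono fun _ => min_le_right _ _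
  have hr : PT A fun p : (List ℕ × Raw) × ℕ => min p.2 p.1.2.w.length := PT.min PT.snd' hB'
  have hrb : PBd fun p : (List ℕ × Raw) × ℕ => min p.2 p.1.2.w.length :=
    hBb'.mono fun _ => min_le_right _ _
  have hrun := pt_run3 c.T0 (PT.const c.k) (PBd.const c.k) hN hNb
    (PTNum3_nums3 c (PT_sizeL3 c hl') hr hrb hB' hBb') (PT_parseC (PT.const c.k) hl')
  refine (PT.optCase (g := fun (s : List ℕ × Raw) r => if c.C * r ^ 4 < Nat.size s.2.w.length then
      some (run3 c.k (min (s.1.headD 0) s.2.w.length) (nums3 c (sizeL3 c s.1)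
        (min r s.2.w.length) s.2.w.length) c.T0 (parseC c.k s.1)) else none)
    hfind (PT.const none) (PT.ite (PT.lt (PT.mul (PT.const c.C) (PT.powConst PT.snd' 4))
      hB'.natSize) (PT.some hrun) (PT.const none))).congr fun s => ?_
  unfold main3
  rcases (List.range s.2.w.length).find? fun r => decide (sizeL3 c s.1 ≤ r ^ (4 * c.q))
    with _ | r <;> rfl

end Vale.Agent.P325.V3.AlgPT
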