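import Vale.Agent.P325.V3.Alg3
import Vale.Agent.P325.AlgPT3

/-!
# The algorithm for small soundness runs in polynomial time: walks and candidate sets
-/

namespace Vale.Agent.P325.V3.AlgPT

open Vale.Agent.Lib.PolyTime Vale.Agent.P325.Alg Vale.Agent.P325.AlgPT Vale.Agent.P325.AlgPT3
  Vale.Agent.P325.V3.Alg3 Function

variable {A : Set Word} {α : Type*} [Enc α]

/-! ### Walks -/

section Walk

variable {N Q T v t : α → ℕ} {E : α → List (ℕ × ℕ)} {D h : α → List ℕ}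

theorem pt_mvE3 {x : α → ℕ} {e : α → ℕ × ℕ} (hh : PT A h) (hx : PT A x) (he : PT A e) :
    PT A (fun a => mvE3 (h a) (x a) (e a)) := by
  unfold mvE3
  exact PT.add (PT.ite (PT.eqNat hx he.fst) (pt_gt hh he.snd) (PT.const 0))
    (PT.ite (PT.eqNat hx he.snd) (pt_gt hh he.fst) (PT.const 0))

theorem pt_mv3 (hN : PT A N) (hNb : PBd N) (hE : PT A E) (hh : PT A h) :
    PT A (fun a => mv3 (N a) (E a) (h a)) := by
  unfold mv3
  refine pt_tab (f := fun a x => ((E a).map (mvE3 (h a) x)).sum) hN hNb ?_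
  refine PT.sum ?_
  exact PT.map (f := fun (p : α × ℕ) e => mvE3 (h p.1) p.2 e) (ptl hE)
    (pt_mvE3 (ptl (ptl hh)) PT.fst'.snd PT.snd')

theorem pt_deg3 (hN : PT A N) (hNb : PBd N) (hE : PT A E) :
    PT A (fun a => deg3 (N a) (E a)) :=
  pt_mv3 hN hNb hE (pt_tab (f := fun _ _ => 1) hN hNb (PT.const 1))

theorem pt_step3 (hN : PT A N) (hNb : PBd N) (hE : PT A E) (hD : PT A D)
    (hQ : PT A Q) (hh : PT A h) :
    PT A (fun a => step3 (N a) (E a) (D a) (Q a) (h a)) :=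
  pt_scaleL hN hNb hD hQ (pt_mv3 hN hNb hE hh)

theorem length_step3 (N : ℕ) (E : List (ℕ × ℕ)) (D : List ℕ) (Q : ℕ) (h : List ℕ) :
    (step3 N E D Q h).length = N := length_tab _ _

theorem length_iter3 (N : ℕ) (E : List (ℕ × ℕ)) (D : List ℕ) (Q t : ℕ) (h : List ℕ) :
    (iter3 N E D Q t h).length ≤ h.length + N := by
  unfold iter3
  rcases t with _ | t
  · simp
  · rw [iterate_succ_apply', length_step3]
    omega

theorem mvE3_le {h : List ℕ} {x : ℕ} {e : ℕ × ℕ} {k : ℕ} (hh : ∀ x, gt h x < 2 ^ k) :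
    mvE3 h x e ≤ 2 ^ (k + 1) := by
  unfold mvE3
  have h1 := (hh e.1).le
  have h2 := (hh e.2).le
  rw [pow_succ]
  split_ifs <;> omega

theorem step3_lt {N : ℕ} {E : List (ℕ × ℕ)} {D : List ℕ} {Q : ℕ} {h : List ℕ} {k q e : ℕ}
    (hh : ∀ x, gt h x < 2 ^ k) (hQ : Q < 2 ^ q) (hE : E.length < 2 ^ e) (x : ℕ) :
    gt (step3 N E D Q h) x < 2 ^ (k + (q + e + 1)) := by
  have h1 : ∀ x, gt (mv3 N E h) x ≤ E.length * 2 ^ (k + 1) := by
    intro x
    unfold mv3
    rw [gt_tab]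
    split_ifs
    · exact sum_map_le fun e _ => mvE3_le hh
    · exact Nat.zero_le _
  unfold step3 scaleL
  rw [gt_tab]
  split_ifs
  · calc Q / gt D x * gt (mv3 N E h) x ≤ Q * (E.length * 2 ^ (k + 1)) :=
        Nat.mul_le_mul (Nat.div_le_self _ _) (h1 x)
      _ = (Q * E.length) * 2 ^ (k + 1) := by ring
      _ < (2 ^ q * 2 ^ e) * 2 ^ (k + 1) :=
        Nat.mul_lt_mul_of_pos_right (Nat.mul_lt_mul'' hQ hE) (by positivity)
      _ = 2 ^ (k + (q + e + 1)) := by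
        rw [← pow_add, ← pow_add]; congr 1; ring
  · positivity

/-- crude number of bits gained in a step -/
def gain3 (E : List (ℕ × ℕ)) (Q : ℕ) : ℕ := esize Q + esize E + 1

theorem iter3_lt (N : ℕ) (E : List (ℕ × ℕ)) (D : List ℕ) (Q : ℕ) {h : List ℕ} {k : ℕ}
    (hh : ∀ x, gt h x < 2 ^ k) (t x : ℕ) :
    gt (iter3 N E D Q t h) x < 2 ^ (k + t * gain3 E Q) := by
  have hE : E.length < 2 ^ esize E :=
    Nat.lt_two_pow_self.trans_le (Nat.pow_le_pow_right (by norm_num) (length_le_esize E))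
  unfold iter3
  induction t generalizing x with
  | zero => simpa using hh x
  | succ t ih =>
    rw [iterate_succ_apply']
    refine (step3_lt ih (lt_two_pow_esize Q) hE x).trans_le (le_of_eq ?_)
    unfold gain3
    congr 1
    ring

theorem pbd_gain3 (hE : PT A E) (hQ : PT A Q) : PBd (fun a => gain3 (E a) (Q a)) := by
  have h1 := hE.pbd
  have h3 := hQ.pbd
  unfold gain3
  fun_prop

theorem esize_iter3 (N : ℕ) (E : List (ℕ × ℕ)) (D : List ℕ) (Q t : ℕ) (h : List ℕ) :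
    esize (iter3 N E D Q t h) ≤
      (h.length + N) * (2 * (esize h + t * gain3 E Q) + 1) :=
  (esize_le_of_gt (iter3_lt N E D Q (gt_lt h) t)).trans
    (Nat.mul_le_mul_right _ (length_iter3 ..))

theorem pt_iter3 (hN : PT A N) (hNb : PBd N) (hE : PT A E) (hD : PT A D)
    (hQ : PT A Q) (ht : PT A t) (htb : PBd t) (hh : PT A h) :
    PT A (fun a => iter3 (N a) (E a) (D a) (Q a) (t a) (h a)) := by
  have hg := pbd_gain3 hE hQ
  have h1 := PBd.length hh
  have h2 := hh.pbd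
  have hB : PBd (fun a => ((h a).length + N a) *
      (2 * (esize (h a) + t a * gain3 (E a) (Q a)) + 1)) := by
    fun_prop
  refine PT.iterate' (step := fun a h => step3 (N a) (E a) (D a) (Q a) h) ht htb hh
    (pt_step3 (ptl hN) (pbl hNb) (ptl hE) (ptl hD) (ptl hQ) PT.snd') hB
    fun a j hj => ?_
  refine (esize_iter3 (N a) (E a) (D a) (Q a) j (h a)).trans ?_
  gcongr

/-! ### Candidate sets -/

theorem pt_levOf {X : α → List ℕ} (hN : PT A N) (hNb : PBd N) (hE : PT A E) (hD : PT A D)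
    (hQ : PT A Q) (hX : PT A X) : PT A (fun a => levOf (N a) (E a) (D a) (Q a) (X a)) := by
  unfold levOf
  exact pt_tab (f := fun a x => max (Q a * gt (X a) x) (gt (step3 (N a) (E a) (D a) (Q a) (X a)) x))
    hN hNb (PT.max (PT.mul (ptl hQ) (pt_gt (ptl hX) PT.snd'))
      (pt_gt (ptl (pt_step3 hN hNb hE hD hQ hX)) PT.snd'))

theorem pt_lev3 (hN : PT A N) (hNb : PBd N) (hE : PT A E) (hD : PT A D)
    (hQ : PT A Q) (hv : PT A v) (ht : PT A t) (htb : PBd t) :
    PT A (fun a => lev3 (N a) (E a) (D a) (Q a) (v a) (t a)) :=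
  pt_levOf hN hNb hE hD hQ (pt_iter3 hN hNb hE hD hQ ht htb
    (pt_tab (f := fun a x => if x = v a then 1 else 0) hN hNb
      (PT.ite (PT.eqNat PT.snd' (ptl hv)) (PT.const 1) (PT.const 0))))

theorem pt_setL {Y : α → List ℕ} {y : α → ℕ} (hN : PT A N) (hNb : PBd N) (hY : PT A Y)
    (hy : PT A y) : PT A (fun a => setL (N a) (Y a) (y a)) :=
  pt_tab (f := fun a x => if gt (Y a) (y a) ≤ gt (Y a) x then 1 else 0) hN hNb
    (PT.ite (PT.le (ptl (pt_gt hY hy)) (pt_gt (ptl hY) PT.snd')) (PT.const 1) (PT.const 0))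

theorem pt_insL {S : α → List ℕ} {C : α → Cons} (hS : PT A S) (hC : PT A C) :
    PT A (fun a => insL (S a) (C a)) :=
  PT.filter (f := fun a (c : ℕ × ℕ × List ℕ) => decide (gt (S a) c.1 = 1) &&
    decide (gt (S a) c.2.1 = 1)) hC (PT.and (PT.eqNat (pt_gt (ptl hS) PT.snd'.fst) (PT.const 1))
      (PT.eqNat (pt_gt (ptl hS) PT.snd'.snd.fst) (PT.const 1)))

theorem pt_outL {S : α → List ℕ} {C : α → Cons} (hS : PT A S) (hC : PT A C) :
    PT A (fun a => outL (S a) (C a)) :=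
  PT.filter (f := fun a (c : ℕ × ℕ × List ℕ) => decide (gt (S a) c.1 = 0) &&
    decide (gt (S a) c.2.1 = 0)) hC (PT.and (PT.eqNat (pt_gt (ptl hS) PT.snd'.fst) (PT.const 0))
      (PT.eqNat (pt_gt (ptl hS) PT.snd'.snd.fst) (PT.const 0)))

theorem pt_cutL {S : α → List ℕ} {C : α → Cons} (hS : PT A S) (hC : PT A C) :
    PT A (fun a => cutL (S a) (C a)) :=
  PT.filter (f := fun a (c : ℕ × ℕ × List ℕ) => !decide (gt (S a) c.1 = gt (S a) c.2.1)) hC
    (PT.not (PT.eqNat (pt_gt (ptl hS) PT.snd'.fst) (pt_gt (ptl hS) PT.snd'.snd.fst)))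

theorem pt_volL {S : α → List ℕ} {C : α → Cons} (hS : PT A S) (hC : PT A C) :
    PT A (fun a => volL (S a) (C a)) :=
  PT.sum (PT.map (f := fun a (c : ℕ × ℕ × List ℕ) => gt (S a) c.1 + gt (S a) c.2.1) hC
    (PT.add (pt_gt (ptl hS) PT.snd'.fst) (pt_gt (ptl hS) PT.snd'.snd.fst)))

theorem PBd_lg {f : α → ℕ} (hf : PT A f) : PBd fun a => lg (f a) :=
  (PBd_size hf).mono fun _ => Nat.sub_le _ _

theorem pt_goodN {L r Bc m vol i : α → ℕ} (hL : PT A L) (hr : PT A r) (hBc : PT A Bc)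
    (hm : PT A m) (hvol : PT A vol) (hi : PT A i) :
    PT A (fun a => goodN (L a) (r a) (Bc a) (m a) (vol a) (i a)) := by
  have hq : PT A (fun a => 2 * m a / vol a) := PT.div (PT.mul (PT.const 2) hm) hvol
  have hlg : PT A (fun a => lg (2 * m a / vol a)) := pt_lg hq
  have hlgb : PBd (fun a => lg (2 * m a / vol a)) := PBd_lg hq
  unfold goodN exP
  refine PT.and (PT.and (PT.lt (PT.const 0) hvol) (PT.le (pt_lg (PT.mul (PT.const 4) hr)) hlg)) ?_
  refine PT.le hvol (PT.mul (PT.add (PT.pow (PT.const 2) (PT.min (PT.div (PT.mul hBc hlg) hL) hlg)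
    (hlgb.mono fun a => min_le_right _ _)) (PT.const 1)) hi)

theorem pt_goodS {L r Bc : α → ℕ} {C : α → Cons} {S : α → List ℕ} (hL : PT A L) (hr : PT A r)
    (hBc : PT A Bc) (hC : PT A C) (hS : PT A S) :
    PT A (fun a => goodS (L a) (r a) (Bc a) (C a) (S a)) :=
  pt_goodN hL hr hBc hC.length (pt_volL hS hC) (pt_insL hS hC).length

theorem pt_tripL (hN : PT A N) (hNb : PBd N) (hT : PT A T) (hTb : PBd T) :
    PT A (fun a => tripL (N a) (T a)) := by
  unfold tripL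
  refine PT.flatMap (f := fun a v => (List.range (T a)).flatMap fun t =>
    (List.range (N a)).map fun y => (v, t, y)) (PT.range hN hNb) ?_
  refine PT.flatMap (f := fun (p : α × ℕ) t => (List.range (N p.1)).map fun y => (p.2, t, y))
    (ptl (PT.range hT hTb)) ?_
  exact PT.map (f := fun (p : (α × ℕ) × ℕ) y => (p.1.2, p.2, y))
    (ptl (ptl (PT.range hN hNb))) (PT.pair PT.fst'.fst.snd (PT.pair PT.fst'.snd PT.snd'))

theorem pt_candL {p : α → ℕ × ℕ × ℕ} (hN : PT A N) (hNb : PBd N) (hE : PT A E) (hD : PT A D)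
    (hQ : PT A Q) (hT : PT A T) (hTb : PBd T) (hp : PT A p) :
    PT A (fun a => candL (N a) (E a) (D a) (Q a) (T a) (p a)) :=
  pt_setL hN hNb (pt_lev3 hN hNb hE hD hQ hp.fst (PT.min hp.snd.fst hT)
    (hTb.mono fun _ => min_le_right _ _)) hp.snd.snd

theorem pt_find3 {L r Bc : α → ℕ} {C : α → Cons} (hN : PT A N) (hNb : PBd N) (hE : PT A E)
    (hD : PT A D) (hQ : PT A Q) (hL : PT A L) (hr : PT A r) (hBc : PT A Bc) (hT : PT A T)
    (hTb : PBd T) (hC : PT A C) :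
    PT A (fun a => find3 (N a) (E a) (D a) (Q a) (L a) (r a) (Bc a) (T a) (C a)) :=
  PT.find? (f := fun a (p : ℕ × ℕ × ℕ) => goodS (L a) (r a) (Bc a) (C a)
    (candL (N a) (E a) (D a) (Q a) (T a) p)) (pt_tripL hN hNb hT hTb)
    (pt_goodS (ptl hL) (ptl hr) (ptl hBc) (ptl hC)
      (pt_candL (ptl hN) (pbl hNb) (ptl hE) (ptl hD) (ptl hQ) (ptl hT) (pbl hTb) PT.snd'))

end Walk

end Vale.Agent.P325.V3.AlgPT
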