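import Vale.Agent.P325.V3.AlgPTa
import Vale.Agent.Lib.PCP.PT.Arith

/-!
# The algorithm for small soundness runs in polynomial time: leaves, layers, the main program
-/

namespace Vale.Agent.P325.V3.AlgPT

open Vale.Agent.Lib.PolyTime Vale.Agent.P325.Alg Vale.Agent.P325.AlgPT Vale.Agent.P325.AlgPT3
  Vale.Agent.P325.V3.Alg3 Function

variable {A : Set Word} {α : Type*} [Enc α]

section Leaf

variable {k N M Q T S' S B c s l w0 n w x y i G : α → ℕ} {E Eh : α → List (ℕ × ℕ)}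
variable {C : α → Cons} {D Dh h psi m cnt : α → List ℕ} {p : α → List ℕ × List ℕ}

theorem pt_filtStep3 (hM : PT A M) (hMb : PBd M) (hE : PT A E) (hD : PT A D)
    (hQ : PT A Q) (hT : PT A T) (hTb : PBd T) (hp : PT A p) :
    PT A (fun a => filtStep3 (M a) (E a) (D a) (Q a) (T a) (p a)) := by
  unfold filtStep3
  exact PT.pair
    (pt_addL hM hMb (PT.pow hQ hT hTb) hp.fst (pt_iter3 hM hMb hE hD hQ hT hTb hp.snd))
    (pt_addL hM hMb (PT.pow hQ hT hTb) hp.snd (pt_iter3 hM hMb hE hD hQ hT hTb hp.fst))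

theorem filtStep3_lt (M : ℕ) (E : List (ℕ × ℕ)) (D : List ℕ) (Q T : ℕ) {p : List ℕ × List ℕ}
    {k : ℕ} (h1 : ∀ x, gt p.1 x < 2 ^ k) (h2 : ∀ x, gt p.2 x < 2 ^ k) :
    (∀ x, gt (filtStep3 M E D Q T p).1 x < 2 ^ (k + (T * gain3 E Q + 1))) ∧
    ∀ x, gt (filtStep3 M E D Q T p).2 x < 2 ^ (k + (T * gain3 E Q + 1)) := by
  have hQ : Q ^ T ≤ 2 ^ (T * gain3 E Q) := by
    calc Q ^ T ≤ (2 ^ esize Q) ^ T := Nat.pow_le_pow_left (lt_two_pow_esize Q).le T
      _ = 2 ^ (T * esize Q) := by rw [← pow_mul, mul_comm]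
      _ ≤ _ := Nat.pow_le_pow_right (by norm_num) (Nat.mul_le_mul_left _ (by unfold gain3; omega))
  have key : ∀ {h : List ℕ}, (∀ x, gt h x < 2 ^ k) →
      ∀ x, gt (iter3 M E D Q T h) x < 2 ^ (T * gain3 E Q + k) := fun hh x => by
    rw [add_comm]
    exact iter3_lt M E D Q hh T x
  exact ⟨addL_lt hQ h1 (key h2), addL_lt hQ h2 (key h1)⟩

theorem filt3_lt (M : ℕ) (E : List (ℕ × ℕ)) (D : List ℕ) (Q T : ℕ) {p : List ℕ × List ℕ}
    {k : ℕ} (h1 : ∀ x, gt p.1 x < 2 ^ k) (h2 : ∀ x, gt p.2 x < 2 ^ k) (j : ℕ) :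
    (∀ x, gt ((filtStep3 M E D Q T)^[j] p).1 x < 2 ^ (k + j * (T * gain3 E Q + 1))) ∧
    ∀ x, gt ((filtStep3 M E D Q T)^[j] p).2 x < 2 ^ (k + j * (T * gain3 E Q + 1)) := by
  induction j with
  | zero => simpa using ⟨h1, h2⟩
  | succ j ih =>
    rw [iterate_succ_apply']
    have := filtStep3_lt M E D Q T ih.1 ih.2
    rwa [show k + (j + 1) * (T * gain3 E Q + 1) =
      k + j * (T * gain3 E Q + 1) + (T * gain3 E Q + 1) by ring]

theorem length_filt3 (M : ℕ) (E : List (ℕ × ℕ)) (D : List ℕ) (Q T : ℕ) (p : List ℕ × List ℕ)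
    (j : ℕ) : ((filtStep3 M E D Q T)^[j] p).1.length ≤ p.1.length + M ∧
      ((filtStep3 M E D Q T)^[j] p).2.length ≤ p.2.length + M := by
  rcases j with _ | j
  · simp
  · rw [iterate_succ_apply']
    unfold filtStep3 addL
    simp only [length_tab]
    omega

theorem esize_filt3 (M : ℕ) (E : List (ℕ × ℕ)) (D : List ℕ) (Q T j : ℕ) (psi : List ℕ) :
    esize ((filtStep3 M E D Q T)^[j] (psi, tab M fun _ => 0)) ≤
      2 * ((psi.length + M) * (2 * (esize psi + j * (T * gain3 E Q + 1)) + 1)) +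
      ((M + M) * (2 * (esize psi + j * (T * gain3 E Q + 1)) + 1)) + 1 := by
  have h1 := filt3_lt M E D Q T (p := (psi, tab M fun _ => 0)) (k := esize psi) (gt_lt psi)
    (gt_tab_lt fun _ => by positivity) j
  have h2 := length_filt3 M E D Q T (psi, tab M fun _ => 0) j
  simp only [length_tab] at h2
  have h3 := esize_le_of_gt h1.1
  have h4 := esize_le_of_gt h1.2
  rw [← Prod.mk.eta (p := (filtStep3 M E D Q T)^[j] (psi, tab M fun _ => 0)), esize_pair]
  have h5 := h3.trans (Nat.mul_le_mul_right _ h2.1)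
  have h6 := h4.trans (Nat.mul_le_mul_right _ h2.2)
  omega

theorem pt_filt3 (hM : PT A M) (hMb : PBd M) (hE : PT A E) (hD : PT A D)
    (hQ : PT A Q) (hT : PT A T) (hTb : PBd T) (hS : PT A S') (hSb : PBd S') (hp : PT A psi) :
    PT A (fun a => filt3 (M a) (E a) (D a) (Q a) (T a) (S' a) (psi a)) := by
  have hg := pbd_gain3 hE hQ
  have h1 := PBd.length hp
  have h2 := hp.pbd
  have hB : PBd (fun a => 2 * (((psi a).length + M a) * (2 * (esize (psi a) +
      S' a * (T a * gain3 (E a) (Q a) + 1)) + 1)) + ((M a + M a) * (2 * (esize (psi a) +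
      S' a * (T a * gain3 (E a) (Q a) + 1)) + 1)) + 1) := by
    fun_prop
  unfold filt3
  refine PT.iterate' (step := fun a p => filtStep3 (M a) (E a) (D a) (Q a) (T a) p) hS hSb
    (PT.pair hp (pt_tab (f := fun _ _ => 0) hM hMb (PT.const 0)))
    (pt_filtStep3 (ptl hM) (pbl hMb) (ptl hE) (ptl hD) (ptl hQ) (ptl hT) (pbl hTb)
      PT.snd') hB fun a j hj => ?_
  refine (esize_filt3 (M a) (E a) (D a) (Q a) (T a) j (psi a)).trans ?_
  gcongr

theorem pt_scores3 (hM : PT A M) (hMb : PBd M) (hE : PT A E) (hD : PT A D)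
    (hQ : PT A Q) (hT : PT A T) (hTb : PBd T) (hS1 : PT A S') (hS1b : PBd S') (hS : PT A S)
    (hSb : PBd S) (hc : PT A c) :
    PT A (fun a => scores3 (M a) (E a) (D a) (Q a) (T a) (S' a) (S a) (c a)) := by
  unfold scores3 stepP3
  have hpsi := pt_psiL hM hMb hD hQ hS hSb hc
  have hsc := pt_scoreL hM hMb hQ hT hTb hS1 hS1b hpsi
    (pt_filt3 hM hMb hE hD hQ hT hTb hS1 hS1b hpsi)
  exact PT.pair (pt_step3 hM hMb hE hD hQ hsc.fst) (pt_step3 hM hMb hE hD hQ hsc.snd)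

theorem pt_heavy3 (hN : PT A N) (hNb : PBd N) (hD : PT A D) (hw : PT A w) (hn : PT A n) :
    PT A (fun a => heavy3 (N a) (D a) (w a) (n a)) := by
  unfold heavy3
  refine pt_sumR (f := fun a v => if 0 < gt (D a) v ∧ w a ≤ n a ^ 2 * gt (D a) v then gt (D a) v
    else 0) hN hNb ?_
  have h1 : PT A (fun q : α × ℕ => gt (D q.1) q.2) := pt_gt (ptl hD) PT.snd'
  exact PT.ite (PT.decide_and (PT.lt (PT.const 0) h1)
    (PT.le (ptl hw) (PT.mul (PT.powConst (ptl hn) 2) h1))) h1 (PT.const 0)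

theorem pt_memL {b : α → ℕ} (hM : PT A M) (hMb : PBd M) (hG : PT A G) (hb : PT A b)
    (hp : PT A p) : PT A (fun a => memL (M a) (G a) (b a) (p a)) :=
  pt_tab (f := fun a y => if G a + b a * gt (p a).2 y ≤ b a * gt (p a).1 y then 1 else 0) hM hMb
    (PT.ite (PT.le (PT.add (ptl hG) (PT.mul (ptl hb) (pt_gt (ptl hp.snd) PT.snd')))
      (PT.mul (ptl hb) (pt_gt (ptl hp.fst) PT.snd'))) (PT.const 1) (PT.const 0))

theorem pt_cntL (hk : PT A k) (hkb : PBd k) (hN : PT A N) (hNb : PBd N) (hm : PT A m) :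
    PT A (fun a => cntL (k a) (N a) (m a)) := by
  unfold cntL
  refine pt_tab (f := fun a u => sumR (k a) fun i => gt (m a) (i + k a * u)) hN hNb ?_
  exact pt_sumR (f := fun (q : α × ℕ) i => gt (m q.1) (i + k q.1 * q.2)) (ptl hk) (pbl hkb)
    (pt_gt (ptl (ptl hm)) (PT.add PT.snd' (PT.mul (ptl (ptl hk)) PT.fst'.snd)))

theorem pt_pairN {e : α → ℕ × ℕ × List ℕ} (hk : PT A k) (hkb : PBd k) (hl : PT A l)
    (hm : PT A m) (hcnt : PT A cnt) (he : PT A e) :
    PT A (fun a => pairN (k a) (l a) (m a) (cnt a) (e a)) := by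
  unfold pairN
  refine PT.ite (PT.decide_and (PT.le (pt_gt hcnt he.fst) hl) (PT.le (pt_gt hcnt he.snd.fst) hl))
    ?_ (PT.const 0)
  refine pt_sumR (f := fun a i => if gt (m a) (i + k a * (e a).1) = 1 ∧
    gt (m a) (gt (e a).2.2 i + k a * (e a).2.1) = 1 ∧
      ((e a).1 = (e a).2.1 → gt (e a).2.2 i = i) then 1 else 0) hk hkb ?_
  have hi : PT A (fun q : α × ℕ => q.2) := PT.snd'
  have hpi : PT A (fun q : α × ℕ => gt (e q.1).2.2 q.2) := pt_gt (ptl he.snd.snd) hi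
  have h1 : PT A (fun q : α × ℕ => decide (gt (m q.1) (q.2 + k q.1 * (e q.1).1) = 1)) :=
    PT.eqNat (pt_gt (ptl hm) (PT.add hi (PT.mul (ptl hk) (ptl he.fst)))) (PT.const 1)
  have h2 : PT A (fun q : α × ℕ =>
      decide (gt (m q.1) (gt (e q.1).2.2 q.2 + k q.1 * (e q.1).2.1) = 1)) :=
    PT.eqNat (pt_gt (ptl hm) (PT.add hpi (PT.mul (ptl hk) (ptl he.snd.fst)))) (PT.const 1)
  have h3 : PT A (fun q : α × ℕ => decide ((e q.1).1 = (e q.1).2.1 →
      gt (e q.1).2.2 q.2 = q.2)) := by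
    have h4 := PT.or (PT.not (PT.eqNat (ptl (β := ℕ) he.fst) (ptl he.snd.fst)))
      (PT.eqNat hpi hi)
    refine h4.congr fun q => ?_
    by_cases h5 : (e q.1).1 = (e q.1).2.1 <;> simp [h5]
  exact PT.ite (PT.decide_and h1 (PT.decide_and h2 h3)) (PT.const 1) (PT.const 0)

theorem pt_valM (hk : PT A k) (hkb : PBd k) (hN : PT A N) (hNb : PBd N) (hl : PT A l)
    (hC : PT A C) (hm : PT A m) :
    PT A (fun a => valM (k a) (N a) (l a) (C a) (m a)) := by
  unfold valM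
  exact PT.sum (PT.map (f := fun a c => pairN (k a) (l a) (m a) (cntL (k a) (N a) (m a)) c) hC
    (pt_pairN (ptl hk) (pbl hkb) (ptl hl) (ptl hm) (ptl (pt_cntL hk hkb hN hNb hm)) PT.snd'))

theorem pt_den3 (hQ : PT A Q) (hT : PT A T) (hTb : PBd T) (hS1 : PT A S') (hS1b : PBd S')
    (hS : PT A S) : PT A (fun a => den3 (Q a) (T a) (S' a) (S a)) := by
  unfold den3
  exact PT.mul hS (PT.pow hQ (PT.add (PT.mul hT hS1) (PT.const 2))
    ((hTb.mul hS1b).add (PBd.const 2)))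

theorem pt_valC (hk : PT A k) (hkb : PBd k) (hN : PT A N) (hNb : PBd N) (hl : PT A l)
    (hw : PT A w0) (hs : PT A s) (hsb : PBd s) (hC : PT A C) (hE : PT A Eh) (hD : PT A Dh)
    (hQ : PT A Q) (hT : PT A T) (hTb : PBd T) (hS1 : PT A S') (hS1b : PBd S') (hS : PT A S)
    (hSb : PBd S) (hc : PT A c) :
    PT A (fun a => valC (k a) (N a) (l a) (w0 a) (s a) (C a) (Eh a) (Dh a) (Q a) (T a) (S' a)
      (S a) (c a)) :=
  pt_valM hk hkb hN hNb hl hC (pt_memL (PT.mul hN hk) (PBd.mul hNb hkb)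
    (pt_den3 hQ hT hTb hS1 hS1b hS)
    (PT.mul hw (PT.pow (PT.const 2) (PT.add hs (PT.const 5)) (hsb.add (PBd.const 5))))
    (pt_scores3 (PT.mul hN hk) (PBd.mul hNb hkb) hE hD hQ hT hTb hS1 hS1b hS hSb hc))

theorem pt_bestV (hk : PT A k) (hkb : PBd k) (hN : PT A N) (hNb : PBd N) (hl : PT A l)
    (hw : PT A w0) (hs : PT A s) (hsb : PBd s) (hC : PT A C) (hE : PT A Eh) (hD : PT A Dh)
    (hQ : PT A Q) (hT : PT A T) (hTb : PBd T) (hS1 : PT A S') (hS1b : PBd S') (hS : PT A S)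
    (hSb : PBd S) (hB : PT A B) (hBb : PBd B) :
    PT A (fun a => bestV (k a) (N a) (l a) (w0 a) (s a) (C a) (Eh a) (Dh a) (Q a) (T a) (S' a)
      (S a) (B a)) :=
  pt_maxL (Y := fun a => (List.range (B a)).map fun c => valC (k a) (N a) (l a) (w0 a) (s a)
      (C a) (Eh a) (Dh a) (Q a) (T a) (S' a) (S a) c)
    (PT.map (f := fun a c => valC (k a) (N a) (l a) (w0 a) (s a) (C a) (Eh a) (Dh a) (Q a) (T a)
      (S' a) (S a) c) (PT.range hB hBb)
    (pt_valC (ptl hk) (pbl hkb) (ptl hN) (pbl hNb) (ptl hl) (ptl hw) (ptl hs) (pbl hsb) (ptl hC)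
      (ptl hE) (ptl hD) (ptl hQ) (ptl hT) (pbl hTb) (ptl hS1) (pbl hS1b) (ptl hS) (pbl hSb)
      PT.snd'))

end Leaf

/-! ### The numbers of a run -/

/-- the numbers of the run are computable in polynomial time and (all but `n`) polynomially
bounded -/
structure PTNum3 (A : Set Word) (P : α → Num3) : Prop where
  n : PT A fun a => (P a).n
  L : PT A fun a => (P a).L
  r : PT A fun a => (P a).r
  Bc : PT A fun a => (P a).Bc
  T2 : PT A fun a => (P a).T2
  S' : PT A fun a => (P a).S'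
  S : PT A fun a => (P a).S
  B : PT A fun a => (P a).B
  s : PT A fun a => (P a).s
  Bcb : PBd fun a => (P a).Bc
  T2b : PBd fun a => (P a).T2
  S'b : PBd fun a => (P a).S'
  Sb : PBd fun a => (P a).S
  Bb : PBd fun a => (P a).B
  sb : PBd fun a => (P a).s

theorem PTNum3.comp {β : Type*} [Enc β] {P : α → Num3} (h : PTNum3 A P) {f : β → α}
    (hf : PT A f) : PTNum3 A fun b => P (f b) :=
  ⟨h.n.comp hf, h.L.comp hf, h.r.comp hf, h.Bc.comp hf, h.T2.comp hf, h.S'.comp hf, h.S.comp hf,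
    h.B.comp hf, h.s.comp hf, h.Bcb.comp hf, h.T2b.comp hf, h.S'b.comp hf, h.Sb.comp hf,
    h.Bb.comp hf, h.sb.comp hf⟩

section Loop

variable {k N : α → ℕ} {P : α → Num3} {C rest : α → Cons} {st : α → List Cons} {acc : α → ℕ}
  {D : α → List ℕ}

theorem pt_leaf3 (hk : PT A k) (hkb : PBd k) (hN : PT A N) (hNb : PBd N) (hP : PTNum3 A P)
    (hC : PT A C) : PT A (fun a => leaf3 (k a) (N a) (P a) (C a)) := by
  unfold leaf3 leafD
  have hD := pt_deg3 hN hNb (pt_baseL hC)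
  have hE := pt_liftL hk hkb hC
  have hDh := pt_deg3 (PT.mul hN hk) (PBd.mul hNb hkb) hE
  refine pt_bestV hk hkb hN hNb (PT.pow (PT.const 2) (PT.add (PT.mul (PT.const 3) hP.s)
    (PT.const 18)) (((PBd.const 3).mul hP.sb).add (PBd.const 18)))
    (pt_heavy3 hN hNb hD (PT.sum hD) hP.n) hP.s hP.sb hC hE hDh (pt_QpL hDh)
    (PT.mul (PT.const 2) hP.T2) ((PBd.const 2).mul hP.T2b) hP.S' hP.S'b hP.S hP.Sb hP.B hP.Bb

theorem pt_split3 {S : α → List ℕ} (hC : PT A C) (hS : PT A S) (hst : PT A st)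
    (hrest : PT A rest) (hacc : PT A acc) :
    PT A (fun a => split3 (C a) (S a) (st a) (rest a) (acc a)) := by
  unfold split3
  exact PT.pair (PT.cons (pt_insL hS hC) (PT.cons (pt_outL hS hC) hst))
    (PT.pair (PT.append (pt_cutL hS hC) hrest) hacc)

theorem pt_treat3 (hk : PT A k) (hkb : PBd k) (hN : PT A N) (hNb : PBd N) (hP : PTNum3 A P)
    (hC : PT A C) (hst : PT A st) (hrest : PT A rest) (hacc : PT A acc) (hD : PT A D) :
    PT A (fun a => treat3 (k a) (N a) (P a) (C a) (st a) (rest a) (acc a) (D a)) := by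
  have hE := pt_baseL hC
  have hQ := pt_QpL hD
  have hT : PT A (fun a => 2 * (P a).T2) := PT.mul (PT.const 2) hP.T2
  have hTb : PBd (fun a => 2 * (P a).T2) := (PBd.const 2).mul hP.T2b
  have hfind := pt_find3 hN hNb hE hD hQ hP.L hP.r hP.Bc hT hTb hC
  unfold treat3
  refine (PT.optCase (g := fun a p => split3 (C a) (candL (N a) (baseL (C a)) (D a) (QpL (D a))
    (2 * (P a).T2) p) (st a) (rest a) (acc a)) hfind
    (hst.pair (hrest.pair (PT.add hacc (pt_leaf3 hk hkb hN hNb hP hC)))) ?_).congr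
    fun a => ?_
  rotate_left
  · rcases find3 (N a) (baseL (C a)) (D a) (QpL (D a)) (P a).L (P a).r (P a).Bc
      (2 * (P a).T2) (C a) with _ | p <;> rfl
  exact pt_split3 (ptl hC) (pt_candL (ptl hN) (pbl hNb) (ptl hE) (ptl hD) (ptl hQ) (ptl hT)
    (pbl hTb) PT.snd') (ptl hst) (ptl hrest) (ptl hacc)

theorem pt_loop3 {z : α → St3} (hk : PT A k) (hkb : PBd k) (hN : PT A N) (hNb : PBd N)
    (hP : PTNum3 A P) (hz : PT A z) : PT A fun a => loop3 (k a) (N a) (P a) (z a) := by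
  have hc := PT.fst' (A := A) (α := α) (β := Cons × List Cons)
  have hN' : PBd fun p : α × Cons × List Cons => N p.1 := hNb.comp hc
  refine (PT.listCase (g := fun a C st => treat3 (k a) (N a) (P a) C st (z a).2.1 (z a).2.2
    (deg3 (N a) (baseL C))) hz.fst hz
    (pt_treat3 (hk.comp hc) (hkb.comp hc) (hN.comp hc) hN' (hP.comp hc) PT.snd'.fst PT.snd'.snd
      (hz.snd.fst.comp hc) (hz.snd.snd.comp hc)
      (pt_deg3 (hN.comp hc) hN' (pt_baseL PT.snd'.fst)))).congr fun a => ?_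
  unfold loop3
  rcases (z a).1 with _ | ⟨C, st⟩ <;> rfl

end Loop

end Vale.Agent.P325.V3.AlgPT
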