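import Vale.Agent.P325.V2.Both2

/-!
# From an algorithm with padding to the final statement, for small soundness
-/

namespace Vale.Agent.P325.V3

open Vale.Agent.Lib.PolyTime Vale.Agent.P325.Alg Vale.Agent.P325.V2

theorem Gap.mono {k q C n0 : ℕ} {κ ε κ' ε' : ℝ} {main : List ℕ → ℕ → Option Bool}
    (h : Gap k q C n0 κ ε main) (hκ : κ ≤ κ') (hε : ε' ≤ ε) : Gap k q C n0 κ' ε' main where
  hq := h.hq
  hn0 := h.hn0
  pt := h.pt
  some := h.some
  spec := fun G B ans hm => ⟨fun h1 => (h.spec G B ans hm).1 (by linarith),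
    fun h1 => (h.spec G B ans hm).2 (by linarith)⟩

/-- The final statement, from algorithms with completeness `c` and soundness `g c α`. -/
theorem both3_of_gap {g : ℝ → ℝ → ℝ}
    (h : ∀ (k : ℕ) (α c : ℝ), 2 ≤ k → 0 < α → α ≤ 1 → 0 < c → c ≤ 1 →
      ∃ (q C n0 : ℕ) (main : List ℕ → ℕ → Option Bool), 1 / (q : ℝ) ≤ α ∧
        Gap k q C n0 (1 - g c α) (1 - c) main) (k : ℕ) (α c δ : ℝ) (hk : 2 ≤ k) (hα : 0 < α)
    (hα1 : α ≤ 1) (hc : 0 < c) (hc1 : c ≤ 1) (hδ : δ ≤ g c α) :
    SolvedIn (Inst.code : Inst k → List Bool) (fun G => G.size)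
      (fun G => c ≤ G.val) (fun G => G.val ≤ δ) α ∧
    ∀ (L : Set (List Bool)) (f : List Bool → Inst k) (A b : ℝ), 0 < b →
      Nonempty (Turing.TM2ComputableInPolyTime (fun x : List Bool => x)
        (Inst.code : Inst k → List Bool) f) →
      (∀ x, ((f x).size : ℝ) ≤ A * ((x.length : ℝ) + 1) ^ b) →
      (∀ x ∈ L, c ≤ (f x).val) → (∀ x ∉ L, (f x).val ≤ δ) →
      SolvedIn (fun x : List Bool => x) (fun x => (x.length : ℝ) + 1)
        (fun x => x ∈ L) (fun x => x ∉ L) (b * α) := by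
  obtain ⟨q, C, n0, main, hq, hgap⟩ := h k α c hk hα hα1 hc hc1
  refine ⟨?_, ?_⟩
  · refine SolvedIn.mono (fun G => ?_) hq (fun G hG => ?_) (fun G hG => ?_) hgap.machine
    · have := List.length_pos_of_ne_nil G.ne
      have h1 : 1 ≤ G.size := by unfold Inst.size; omega
      exact_mod_cast h1
    · rw [sub_sub_cancel]; exact hG
    · rw [sub_sub_cancel]; exact hG.trans hδ
  · intro L f A b hb hf hsize hyes hno
    refine SolvedIn.mono (fun x => ?_) (mul_le_mul_of_nonneg_left hq hb.le) (fun x hx => hx)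
      (fun x hx => hx) (hgap.reduction L f hb hf hsize
        (fun x hx => by rw [sub_sub_cancel]; exact hyes x hx)
        (fun x hx => by rw [sub_sub_cancel]; exact (hno x hx).trans hδ))
    have : (0 : ℝ) ≤ x.length := Nat.cast_nonneg _
    linarith

end Vale.Agent.P325.V3
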