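import Vale.Agent.P325.V3.Two

/-!
# The natural valued walk
-/

namespace Vale.Agent.P325.V3

open Finset Vale.Agent.P325

variable {X : Type*} [Fintype X] [DecidableEq X]

theorem mvN3_cast (E : List (X × X)) (h : X → ℕ) (x : X) :
    (mvN3 E h x : ℝ) = ∑ y, form3 E x y * h y := by
  rw [sum_form3_mul E (fun y => (h y : ℝ))]
  unfold mvN3
  rw [Nat.cast_list_sum, List.map_map]
  congr 1
  refine List.map_congr_left fun e _ => ?_
  simp only [Function.comp]
  push_cast
  rfl

theorem QN3_pos (E : List (X × X)) : 0 < QN3 E :=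
  prod_pos fun _ _ => lt_of_lt_of_le one_pos (le_max_right _ _)

theorem degN3_dvd (E : List (X × X)) {x : X} (hx : 0 < degN3 E x) : degN3 E x ∣ QN3 E := by
  have h1 : max (degN3 E x) 1 ∣ QN3 E :=
    dvd_prod_of_mem (fun x => max (degN3 E x) 1) (mem_univ x)
  rwa [max_eq_left (by omega)] at h1

theorem stepN3_cast (E : List (X × X)) (h : X → ℕ) (x : X) :
    (stepN3 E h x : ℝ) = QN3 E * walk (form3 E) (fun y => (h y : ℝ)) x := by
  unfold stepN3 walk
  rw [Nat.cast_mul, mvN3_cast, ← degN3_cast]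
  rcases Nat.eq_zero_or_pos (degN3 E x) with h0 | h0
  · rw [h0]; simp
  · have h1 : (degN3 E x : ℝ) ≠ 0 := by exact_mod_cast h0.ne'
    rw [Nat.cast_div (degN3_dvd E h0) h1]
    field_simp

omit [DecidableEq X] in
theorem walk_const_mul (M : X → X → ℝ) (c : ℝ) (h : X → ℝ) (x : X) :
    walk M (fun y => c * h y) x = c * walk M h x := by
  unfold walk
  rw [mul_div_assoc', mul_sum]
  congr 1
  exact sum_congr rfl fun y _ => by ring

theorem iter_stepN3_cast (E : List (X × X)) (t : ℕ) (h : X → ℕ) (x : X) :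
    (((stepN3 E)^[t] h) x : ℝ) =
      (QN3 E : ℝ) ^ t * ((walk (form3 E))^[t] (fun y => (h y : ℝ))) x := by
  induction t generalizing x with
  | zero => simp
  | succ t ih =>
    rw [Function.iterate_succ_apply', stepN3_cast, Function.iterate_succ_apply']
    have h1 : (fun y => (((stepN3 E)^[t] h) y : ℝ)) =
        fun y => (QN3 E : ℝ) ^ t * ((walk (form3 E))^[t] (fun y => (h y : ℝ))) y := funext ih
    rw [h1, walk_const_mul]
    ring

theorem heatN3_cast (E : List (X × X)) (v : X) (t : ℕ) (x : X) :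
    (heatN3 E v t x : ℝ) = (QN3 E : ℝ) ^ t * heat (form3 E) v t x := by
  unfold heatN3 heat
  rw [iter_stepN3_cast]
  have h1 : (fun y => (((if y = v then 1 else 0 : ℕ)) : ℝ)) = fun u => if u = v then 1 else 0 := by
    funext y
    push_cast
    rfl
  rw [h1]

/-- the levels of the candidates are the levels of the larger of two consecutive steps -/
theorem levN3_cast (E : List (X × X)) (v : X) (t : ℕ) (x : X) :
    (levN3 E v t x : ℝ) =
      (QN3 E : ℝ) ^ (t + 1) * max (heat (form3 E) v t x) (heat (form3 E) v (t + 1) x) := by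
  unfold levN3
  have h0 : (0 : ℝ) ≤ (QN3 E : ℝ) ^ (t + 1) := by positivity
  rw [Nat.cast_max, Nat.cast_mul, heatN3_cast, heatN3_cast, mul_max_of_nonneg _ _ h0]
  congr 1
  ring

theorem levN3_le_iff (E : List (X × X)) (v : X) (t : ℕ) (x y : X) :
    levN3 E v t y ≤ levN3 E v t x ↔
      max (heat (form3 E) v t y) (heat (form3 E) v (t + 1) y) ≤
        max (heat (form3 E) v t x) (heat (form3 E) v (t + 1) x) := by
  have h0 : (0 : ℝ) < (QN3 E : ℝ) ^ (t + 1) := by
    have := QN3_pos E
    positivity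
  rw [← Nat.cast_le (α := ℝ), levN3_cast, levN3_cast]
  exact mul_le_mul_iff_right₀ h0

/-- the volume of a set -/
theorem volE_cast (E : List (X × X)) (S : Finset X) :
    (volE S E : ℝ) = ∑ x ∈ S, deg (form3 E) x := by
  have h1 := sum_deg_form3 E (fun x => if x ∈ S then 1 else 0)
  have h2 : ∑ x, deg (form3 E) x * (if x ∈ S then 1 else 0) = ∑ x ∈ S, deg (form3 E) x := by
    rw [← sum_filter_add_sum_filter_not univ (· ∈ S)]
    have e1 : ∑ x ∈ univ.filter (· ∈ S), deg (form3 E) x * (if x ∈ S then 1 else 0) =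
        ∑ x ∈ S, deg (form3 E) x := by
      rw [filter_mem_eq_inter, univ_inter]
      exact sum_congr rfl fun x hx => by rw [if_pos hx, mul_one]
    have e2 : ∑ x ∈ univ.filter (¬ · ∈ S), deg (form3 E) x * (if x ∈ S then 1 else 0) = 0 :=
      sum_eq_zero fun x hx => by rw [if_neg (mem_filter.1 hx).2, mul_zero]
    rw [e1, e2, add_zero]
  rw [← h2, h1]
  unfold volE
  rw [Nat.cast_list_sum, List.map_map]
  congr 1
  refine List.map_congr_left fun e _ => ?_
  simp only [Function.comp]
  push_cast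
  rfl

end Vale.Agent.P325.V3
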