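import Vale.Agent.P325.V3.Spec3
import Vale.Agent.P325.V3.Form3
import Vale.Agent.P325.Filt

/-!
# The list functions compute the right things: lists of labels
-/

namespace Vale.Agent.P325.V3

open Finset Vale.Agent.P325 Vale.Agent.P325.Alg Alg3

section Cast

variable {X : Type*} [Fintype X] [DecidableEq X]

theorem stepR_cast (E : List (X × X)) (h : X → ℕ) (x : X) :
    (stepN3 E h x : ℝ) = QN3 E * walk (form3 E) (toR h) x := stepN3_cast E h x

theorem stepR_iter_cast (E : List (X × X)) (T : ℕ) (h : X → ℕ) (x : X) :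
    (((stepN3 E)^[T] h) x : ℝ) = (QN3 E : ℝ) ^ T * ((walk (form3 E))^[T] (toR h)) x :=
  iter_stepN3_cast E T h x

end Cast

section Filter

variable {X : Type*} [Fintype X] [DecidableEq X] {M : ℕ} (d : X ≃ Fin M)

/-- one step of the filter -/
def filtStepN3 (E : List (X × X)) (T : ℕ) (p : (X → ℕ) × (X → ℕ)) : (X → ℕ) × (X → ℕ) :=
  (fun x => QN3 E ^ T * p.1 x + ((stepN3 E)^[T] p.2) x,
    fun x => QN3 E ^ T * p.2 x + ((stepN3 E)^[T] p.1) x)

theorem filtStep3_eq (E : List (X × X)) (T : ℕ) (p : (X → ℕ) × (X → ℕ)) :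
    filtStep3 M (edg d E) (enl d (degN3 E)) (QN3 E) T (enl d p.1, enl d p.2) =
      (enl d (filtStepN3 E T p).1, enl d (filtStepN3 E T p).2) := by
  unfold filtStep3 addL
  simp only [iter3_eq]
  rw [tab_eq d, tab_eq d]
  simp only [gt_enl]
  rfl

theorem filt3_eq (E : List (X × X)) (T S' : ℕ) (psi : X → ℕ) :
    filt3 M (edg d E) (enl d (degN3 E)) (QN3 E) T S' (enl d psi) =
      (enl d ((filtStepN3 E T)^[S'] (psi, fun _ => 0)).1,
        enl d ((filtStepN3 E T)^[S'] (psi, fun _ => 0)).2) := by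
  unfold filt3
  induction S' with
  | zero =>
    rw [Function.iterate_zero, Function.iterate_zero, id, id, tab_eq d]
  | succ S' ih =>
    rw [Function.iterate_succ_apply', Function.iterate_succ_apply', ih, filtStep3_eq]

theorem filtStepN3_cast (E : List (X × X)) (T : ℕ) (p : (X → ℕ) × (X → ℕ)) (x : X) :
    ((filtStepN3 E T p).1 x : ℝ) - (filtStepN3 E T p).2 x =
      (QN3 E : ℝ) ^ T * hp (form3 E) T (fun y => (p.1 y : ℝ) - p.2 y) x := by
  unfold filtStepN3 hp
  push_cast
  rw [stepR_iter_cast, stepR_iter_cast, walk_iter_sub]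
  ring

theorem filtN3_cast (E : List (X × X)) (T S' : ℕ) (psi : X → ℕ) (x : X) :
    (((filtStepN3 E T)^[S'] (psi, fun _ => 0)).1 x : ℝ) -
      ((filtStepN3 E T)^[S'] (psi, fun _ => 0)).2 x =
      (QN3 E : ℝ) ^ (T * S') * ((hp (form3 E) T)^[S'] (toR psi)) x := by
  induction S' generalizing x with
  | zero => simp
  | succ S' ih =>
    rw [Function.iterate_succ_apply', Function.iterate_succ_apply', filtStepN3_cast]
    have h2 : (fun y => (((filtStepN3 E T)^[S'] (psi, fun _ => 0)).1 y : ℝ) -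
      ((filtStepN3 E T)^[S'] (psi, fun _ => 0)).2 y) =
      fun y => (QN3 E : ℝ) ^ (T * S') * ((hp (form3 E) T)^[S'] (toR psi)) y := funext ih
    rw [h2, hp_smul, Nat.mul_succ, pow_add]
    ring

theorem psi_cast3 (E : List (X × X)) {S : ℕ} (x : Fin S → X) :
    toR (fun y => ∑ s, if y = x s then QN3 E / degN3 E y else 0) =
      fun y => QN3 E * seedSum (form3 E) x y := by
  funext y
  unfold seedSum toR
  rw [Nat.cast_sum, mul_sum]
  refine sum_congr rfl fun s _ => ?_
  by_cases h : y = x s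
  · rw [if_pos h, if_pos h, ← h, ← degN3_cast]
    rcases Nat.eq_zero_or_pos (degN3 E y) with h0 | h0
    · rw [h0]; simp
    · rw [Nat.cast_div (degN3_dvd E h0) (by positivity)]
      ring
  · rw [if_neg h, if_neg h]
    simp

/-- the score of the seeds `x`, normalised -/
noncomputable def score3 (E : List (X × X)) (T S' : ℕ) {S : ℕ} (x : Fin S → X) : X → ℝ :=
  walk (form3 E) (filt (form3 E) T S' (seedSum (form3 E) x))

/-- the scores computed from the seeds -/
theorem scores3_eq (E : List (X × X)) (T S' S : ℕ) (x : Fin S → X) :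
    ∃ A B : X → ℕ,
      scores3 M (edg d E) (enl d (degN3 E)) (QN3 E) T S' S
        (finFunctionFinEquiv (fun s => d (x s)) : Fin (M ^ S)) = (enl d A, enl d B) ∧
      ∀ y, (A y : ℝ) - B y = (QN3 E : ℝ) ^ (T * S' + 2) * score3 E T S' x y := by
  unfold scores3 stepP3
  rw [psiL_eq, filt3_eq]
  unfold scoreL addL
  rw [tab_eq d]
  simp only [gt_enl]
  set Q := QN3 E with hQ
  set psi : X → ℕ := fun y => ∑ s, if y = x s then Q / degN3 E y else 0 with hpsi
  set p := (filtStepN3 E T)^[S'] (psi, fun _ => 0) with hp'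
  rw [step3_eq, step3_eq]
  refine ⟨_, _, rfl, fun y => ?_⟩
  rw [stepR_cast, stepR_cast]
  have h1 : ∀ y, ((Q ^ (T * S') * psi y + p.2 y : ℕ) : ℝ) - p.1 y =
      (Q : ℝ) ^ (T * S' + 1) * filt (form3 E) T S' (seedSum (form3 E) x) y := by
    intro y
    have h3 := filtN3_cast E T S' psi y
    rw [← hp', psi_cast3 E x, hp_iter_smul] at h3
    have h4 : (psi y : ℝ) = Q * seedSum (form3 E) x y := congrFun (psi_cast3 E x) y
    push_cast
    rw [h4]
    have h5 : (p.2 y : ℝ) - p.1 y = - ((Q : ℝ) ^ (T * S') *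
      (Q * ((hp (form3 E) T)^[S'] (seedSum (form3 E) x)) y)) := by
      rw [← h3]; ring
    have h6 : filt (form3 E) T S' (seedSum (form3 E) x) y =
        seedSum (form3 E) x y - ((hp (form3 E) T)^[S'] (seedSum (form3 E) x)) y := rfl
    rw [pow_succ, h6]
    linear_combination h5
  have h2 : walk (form3 E) (fun y => ((Q ^ (T * S') * psi y + p.2 y : ℕ) : ℝ) - p.1 y) =
      fun y => (Q : ℝ) ^ (T * S' + 1) * score3 E T S' x y := by
    have h3 : (fun y => ((Q ^ (T * S') * psi y + p.2 y : ℕ) : ℝ) - p.1 y) =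
      fun y => (Q : ℝ) ^ (T * S' + 1) * filt (form3 E) T S' (seedSum (form3 E) x) y := funext h1
    rw [h3, walk_smul]
    rfl
  have h4 := congrFun h2 y
  rw [walk_sub] at h4
  have h5 : walk (form3 E) (toR fun x => Q ^ (T * S') * psi x + p.2 x) y -
      walk (form3 E) (toR p.1) y = (Q : ℝ) ^ (T * S' + 1) * score3 E T S' x y := h4
  rw [← mul_sub, h5, ← mul_assoc, ← pow_succ']

end Filter

/-! ### Lists of labels -/

section Labels

variable {V : Type*} {k N : ℕ} (e : V ≃ Fin N)

/-- the list of labels of `u` -/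
def listOf (m : V × Fin k → Prop) [DecidablePred m] (u : V) : Finset (Fin k) :=
  univ.filter fun i => m (u, i)

theorem cntL_eq [Fintype V] (m : V × Fin k → Prop) [DecidablePred m] :
    cntL k N (enl (eh e k) fun y => if m y then 1 else 0) =
      enl e fun u => (listOf m u).card := by
  unfold cntL
  rw [tab_eq e]
  refine enl_congr e fun u => ?_
  unfold sumR
  rw [range_map_eq, ← List.ofFn_eq_map, List.sum_ofFn]
  unfold listOf
  rw [card_filter]
  refine sum_congr rfl fun i _ => ?_
  rw [← idx_eh, gt_enl]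

variable [DecidableEq V]

theorem valM_eq [Fintype V] (l : ℕ) (C : List (Con V k)) (m : V × Fin k → Prop)
    [DecidablePred m] :
    valM k N l (conL e C) (enl (eh e k) fun y => if m y then 1 else 0) =
      val3 l C (listOf m) := by
  unfold valM val3 conL
  rw [cntL_eq, List.map_map]
  congr 1
  refine List.map_congr_left fun c _ => ?_
  simp only [Function.comp]
  unfold pairN pair3
  rw [gt_enl, gt_enl]
  simp only
  by_cases h : (listOf m c.1).card ≤ l ∧ (listOf m c.2.1).card ≤ l
  · rw [if_pos h, if_pos h]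
    unfold sumR
    rw [range_map_eq, ← List.ofFn_eq_map, List.sum_ofFn, card_filter]
    refine sum_congr rfl fun i _ => ?_
    rw [gt_ofFn, ← idx_eh, ← idx_eh, gt_enl, gt_enl]
    simp only [idx_inj]
    refine if_congr ?_ rfl rfl
    unfold listOf
    simp only [mem_filter, mem_univ, true_and, Fin.ext_iff]
    by_cases h1 : m (c.1, i) <;> by_cases h2 : m (c.2.1, c.2.2 i) <;> simp [h1, h2]
  · rw [if_neg h, if_neg h]

omit [DecidableEq V] in
/-- the lists of labels of the scores `A - B` -/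
theorem memL_eq [Fintype V] (a b : ℕ) (A B : V × Fin k → ℕ) :
    memL (N * k) a b (enl (eh e k) A, enl (eh e k) B) =
      enl (eh e k) fun y => if a + b * B y ≤ b * A y then 1 else 0 := by
  unfold memL
  rw [tab_eq (eh e k)]
  exact enl_congr _ fun y => by rw [gt_enl, gt_enl]

omit [DecidableEq V] in
/-- the lists of labels of arbitrary scores -/
theorem memL_val [Fintype V] (a b : ℕ) (p : List ℕ × List ℕ) :
    memL (N * k) a b p = enl (eh e k) fun y =>
      if a + b * gt p.2 (idx (eh e k) y) ≤ b * gt p.1 (idx (eh e k) y) then 1 else 0 := by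
  unfold memL
  rw [tab_eq (eh e k)]

theorem foldl_max_spec (l : List ℕ) (a : ℕ) :
    (l.foldl max a = a ∨ l.foldl max a ∈ l) ∧ ∀ x ∈ l, x ≤ l.foldl max a := by
  have key : ∀ (l : List ℕ) (a : ℕ), (l.foldl max a = a ∨ l.foldl max a ∈ l) ∧
      a ≤ l.foldl max a ∧ ∀ x ∈ l, x ≤ l.foldl max a := by
    intro l
    induction l with
    | nil => intro a; simp
    | cons y l ih =>
      intro a
      rw [List.foldl_cons]
      obtain ⟨h1, h2, h3⟩ := ih (max a y)
      refine ⟨?_, (le_max_left _ _).trans h2, ?_⟩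
      · rcases h1 with h1 | h1
        · rcases max_choice a y with h | h
          · left; rw [h1, h]
          · right; rw [h1, h]; exact List.mem_cons_self
        · right; exact List.mem_cons_of_mem _ h1
      · intro x hx
        rcases List.mem_cons.1 hx with rfl | hx
        · exact (le_max_right _ _).trans h2
        · exact h3 x hx
  exact ⟨(key l a).1, (key l a).2.2⟩

theorem val3_empty (l : ℕ) (C : List (Con V k)) : val3 l C (fun _ => ∅) = 0 := by
  unfold val3 pair3
  simp

variable [Fintype V]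

/-- the value of a leaf is the value of some lists -/
theorem leafV_val (P : Num3) (C : List (Con V k)) :
    ∃ A : V → Finset (Fin k), leafV e P C = val3 (2 ^ (3 * P.s + 18)) C A := by
  unfold leafV leaf3 leafD bestV
  rcases (foldl_max_spec ((List.range P.B).map fun c => valC k N (2 ^ (3 * P.s + 18))
    (heavy3 N (deg3 N (baseL (conL e C))) (deg3 N (baseL (conL e C))).sum P.n) P.s (conL e C)
    (liftL k (conL e C)) (deg3 (N * k) (liftL k (conL e C)))
    (QpL (deg3 (N * k) (liftL k (conL e C)))) (2 * P.T2) P.S' P.S c) 0).1 with h | h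
  · rw [h]
    exact ⟨fun _ => ∅, (val3_empty _ _).symm⟩
  · rw [List.mem_map] at h
    obtain ⟨c, _, h⟩ := h
    rw [← h]
    unfold valC
    rw [memL_val e, valM_eq]
    exact ⟨_, rfl⟩

/-- mass of the heavy vertices -/
def mass3 (E : List (V × V)) (n : ℕ) : ℕ :=
  ∑ v, if 0 < degN3 E v ∧ 2 * E.length ≤ n ^ 2 * degN3 E v then degN3 E v else 0

theorem sum_degN3 (E : List (V × V)) : ∑ v, degN3 E v = 2 * E.length := by
  have h1 := tot_form3 E
  have h2 : ((∑ v, degN3 E v : ℕ) : ℝ) = tot (form3 E) := by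
    push_cast
    unfold tot
    exact sum_congr rfl fun v _ => degN3_cast E v
  rw [h1] at h2
  exact_mod_cast h2

/-- the value of a leaf is at least the value of the lists obtained from any seeds -/
theorem le_leafV (P : Num3) (C : List (Con V k)) (hS : 0 < P.S) (hcert : (N * k) ^ P.S ≤ P.B)
    (x : Fin P.S → V × Fin k) :
    val3 (2 ^ (3 * P.s + 18)) C (fun u => univ.filter fun i => 1 / 2 ^ (P.s + 5) ≤
      (mass3 (base C) P.n : ℝ) / P.S * score3 (lift C) (2 * P.T2) P.S' x (u, i)) ≤
      leafV e P C := by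
  unfold leafV leaf3 leafD
  rw [baseL_eq, deg3_eq, liftL_eq, deg3_eq, QpL3_eq, enl_sum, sum_degN3]
  have hw : heavy3 N (enl e (degN3 (base C))) (2 * (base C).length) P.n = mass3 (base C) P.n := by
    unfold heavy3 mass3
    rw [sumR_eq e]
    exact sum_congr rfl fun v _ => by rw [gt_enl]
  rw [hw]
  set w0 := mass3 (base C) P.n with hw0
  set Q := QN3 (lift C) with hQ
  obtain ⟨A, B, h1, h2⟩ := scores3_eq (eh e k) (lift C) (2 * P.T2) P.S' P.S x
  have hQ0 : (0 : ℝ) < Q := by exact_mod_cast QN3_pos (lift C)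
  have hSR : (0 : ℝ) < P.S := by exact_mod_cast hS
  have h3 : valC k N (2 ^ (3 * P.s + 18)) w0 P.s (conL e C) (edg (eh e k) (lift C))
      (enl (eh e k) (degN3 (lift C))) Q (2 * P.T2) P.S' P.S
      (finFunctionFinEquiv (fun s => eh e k (x s)) : Fin ((N * k) ^ P.S)) =
      val3 (2 ^ (3 * P.s + 18)) C (fun u => univ.filter fun i => 1 / 2 ^ (P.s + 5) ≤
        (w0 : ℝ) / P.S * score3 (lift C) (2 * P.T2) P.S' x (u, i)) := by
    unfold valC
    rw [h1, memL_eq, valM_eq]
    congr 1
    funext u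
    unfold listOf
    refine filter_congr fun i _ => ?_
    have h4 := h2 (u, i)
    set sc := score3 (lift C) (2 * P.T2) P.S' x (u, i) with hsc
    have h5 : (den3 Q (2 * P.T2) P.S' P.S + w0 * 2 ^ (P.s + 5) * B (u, i) ≤
        w0 * 2 ^ (P.s + 5) * A (u, i)) ↔
        ((den3 Q (2 * P.T2) P.S' P.S : ℕ) : ℝ) ≤
          w0 * 2 ^ (P.s + 5) * ((A (u, i) : ℝ) - B (u, i)) := by
      have h6 : (den3 Q (2 * P.T2) P.S' P.S + w0 * 2 ^ (P.s + 5) * B (u, i) ≤
        w0 * 2 ^ (P.s + 5) * A (u, i)) ↔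
        (((den3 Q (2 * P.T2) P.S' P.S + w0 * 2 ^ (P.s + 5) * B (u, i) : ℕ) : ℝ) ≤
        ((w0 * 2 ^ (P.s + 5) * A (u, i) : ℕ) : ℝ)) := by
        exact_mod_cast Iff.rfl
      rw [h6]
      push_cast
      constructor <;> intro h <;> linarith
    beta_reduce
    rw [h5, h4]
    unfold den3
    push_cast
    rw [div_mul_eq_mul_div, div_le_div_iff₀ (by positivity) hSR]
    have h7 : (0 : ℝ) < (Q : ℝ) ^ (2 * P.T2 * P.S' + 2) := by positivity
    constructor
    · intro h
      have h8 : (Q : ℝ) ^ (2 * P.T2 * P.S' + 2) * (1 * P.S) ≤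
          (Q : ℝ) ^ (2 * P.T2 * P.S' + 2) * (w0 * sc * 2 ^ (P.s + 5)) := by linarith
      exact le_of_mul_le_mul_left h8 h7
    · intro h
      have h8 := mul_le_mul_of_nonneg_left h h7.le
      linarith
  rw [← h3]
  unfold bestV
  refine (foldl_max_spec _ _).2 _ (List.mem_map.2 ⟨_, List.mem_range.2 ?_, rfl⟩)
  exact (Fin.is_lt _).trans_le hcert

end Labels

end Vale.Agent.P325.V3
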