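import Vale.Agent.P325.V3.Layers3
import Vale.Agent.P325.V3.Lab3

/-!
# The algorithm for small soundness is correct, given the analysis of the leaves
-/

namespace Vale.Agent.P325.V3

open Finset Vale.Agent.P325 Vale.Agent.P325.Alg Alg3

variable {V : Type*} {k N : ℕ} (e : V ≃ Fin N) [Fintype V] [DecidableEq V]

/-- leaves on which the labeling is good have a good value -/
def LeafOK (P : Num3) : Prop :=
  ∀ (C : List (Con V k)) (a : V → Fin k), Leaf3 P C → C.length ≤ 2 ^ (P.s + 2) * sat3 C a →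
    C.length ≤ 2 ^ (P.s + 4) * leafV e P C

/-- completeness -/
theorem run3_complete (P : Num3) (hr : 1 ≤ P.r) (hL : 0 < P.L) (hBc : P.Bc < P.L)
    (C0 : List (Con V k)) (hne : C0 ≠ []) (hB : 2 * C0.length < P.B) (hB1 : 1 < P.B)
    (hCL : C0.length ≤ 2 ^ P.L) {T0 : ℕ} (hT0 : 2 ^ P.Bc * (P.s + 1) ≤ T0)
    (hleaf : LeafOK (k := k) e P) (a : V → Fin k) (ha : C0.length ≤ 2 ^ P.s * sat3 C0 a) :
    run3 k N P T0 (conL e C0) = true := by
  obtain ⟨E, lv, h0, h1, h2⟩ := run3_eq e P hr C0 hB hB1 T0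
  subst h0
  have hlay : LaySeq (par P) (Leaf3 P) E lv T0 := ⟨h1⟩
  rw [h2]
  obtain ⟨t, ht, h3⟩ := hlay.complete (s := P.s) hr hL hBc hT0 hCL (List.length_pos_of_ne_nil hne)
    a ha (leafV e P) fun C hC hs => hleaf C a hC hs
  refine ⟨t, ht, h3.trans (Nat.mul_le_mul_right _ ?_)⟩
  unfold thr3
  refine Nat.pow_le_pow_right (by norm_num) ?_
  show 3 * P.s + 7 + P.Bc ≤ 3 * P.s + 7 + 2 * P.Bc
  omega

/-- soundness -/
theorem run3_sound [NeZero k] (P : Num3) (hr : 1 ≤ P.r) (C0 : List (Con V k))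
    (hB : 2 * C0.length < P.B) (hB1 : 1 < P.B) {T0 : ℕ}
    (h : run3 k N P T0 (conL e C0) = true) :
    ∃ a : V → Fin k, C0.length ≤ 2 ^ (9 * P.s + 43 + 2 * P.Bc) * sat3 C0 a := by
  obtain ⟨E, lv, h0, h1, h2⟩ := run3_eq e P hr C0 hB hB1 T0
  rw [h2] at h
  obtain ⟨t, ht, h3⟩ := h
  obtain ⟨i, hi⟩ := h1 t ht
  obtain ⟨a, ha⟩ := hi.sound (l := 2 ^ (3 * P.s + 18)) (by positivity) (leafV e P)
    fun C _ => leafV_val e P C
  -- constraints satisfied in layer `t` are constraints of the instance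
  have hsub : ∀ t ≤ T0, sat3 (E t) a ≤ sat3 C0 a := by
    intro t ht
    induction t with
    | zero => rw [h0]
    | succ t ih =>
      obtain ⟨i, hi⟩ := h1 t (by omega)
      have h4 := hi.perm
      simp only [List.flatten_nil, List.nil_append] at h4
      have h5 := sat3_perm h4 a
      rw [sat3_append] at h5
      exact (Nat.le_add_right _ _).trans (h5.le.trans (ih (by omega)))
  refine ⟨a, h3.trans ?_⟩
  calc thr3 P * ((lv t).map (leafV e P)).sum ≤
      thr3 P * ((2 ^ (3 * P.s + 18)) ^ 2 * sat3 (E t) a) := Nat.mul_le_mul_left _ ha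
    _ ≤ thr3 P * ((2 ^ (3 * P.s + 18)) ^ 2 * sat3 C0 a) :=
        Nat.mul_le_mul_left _ (Nat.mul_le_mul_left _ (hsub t ht.le))
    _ = _ := by
      unfold thr3
      rw [← mul_assoc, ← pow_mul, ← pow_add]
      congr 2
      ring

end Vale.Agent.P325.V3
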