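import Vale.Agent.P325.V3.Form3
import Mathlib.Analysis.SpecialFunctions.Log.Base
import Mathlib.Analysis.SpecialFunctions.Pow.Real

/-!
# Decay of the walk on a piece without good sets
-/

namespace Vale.Agent.P325.V3

open Finset Vale.Agent.P325

/-! ### Sums over the edges -/

section Sums

variable {X : Type*} [Fintype X] [DecidableEq X]

theorem sum_sum_form3 (E : List (X × X)) (F : X → X → ℝ) :
    ∑ x, ∑ y, form3 E x y * F x y = (E.map fun e => F e.1 e.2 + F e.2 e.1).sum := by
  simp_rw [fun x => sum_form3_mul E (F x) x]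
  rw [sum_list_map_comm]
  congr 1
  refine List.map_congr_left fun e _ => ?_
  rw [sum_add_distrib]
  simp

theorem lsum_le {α : Type*} (Z : List α) {f g : α → ℝ} (h : ∀ z ∈ Z, f z ≤ g z) :
    (Z.map f).sum ≤ (Z.map g).sum := List.sum_le_sum h

theorem lsum_add {α : Type*} (Z : List α) (f g : α → ℝ) :
    (Z.map fun z => f z + g z).sum = (Z.map f).sum + (Z.map g).sum := List.sum_map_add

theorem lsum_mul {α : Type*} (Z : List α) (c : ℝ) (f : α → ℝ) :
    (Z.map fun z => c * f z).sum = c * (Z.map f).sum := List.sum_map_mul_left _ _ _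

omit [Fintype X] in
theorem insE_cast (E : List (X × X)) (S : Finset X) :
    (insE S E : ℝ) = (E.map fun e => if e.1 ∈ S ∧ e.2 ∈ S then (1 : ℝ) else 0).sum := by
  unfold insE
  induction E with
  | nil => simp
  | cons e E ih =>
    rw [List.countP_cons, List.map_cons, List.sum_cons, ← ih]
    by_cases h : e.1 ∈ S ∧ e.2 ∈ S
    · simp [h, add_comm]
    · simp [h]

omit [Fintype X] in
theorem volE_cast' (E : List (X × X)) (S : Finset X) :
    (volE S E : ℝ) = (E.map fun e => ((if e.1 ∈ S then 1 else 0) +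
      (if e.2 ∈ S then 1 else 0) : ℝ)).sum := by
  unfold volE
  rw [Nat.cast_list_sum, List.map_map]
  congr 1
  refine List.map_congr_left fun e _ => ?_
  simp only [Function.comp]
  push_cast
  rfl

omit [Fintype X] in
theorem two_insE_le (E : List (X × X)) (S : Finset X) : 2 * insE S E ≤ volE S E := by
  have h : (2 : ℝ) * insE S E ≤ volE S E := by
    rw [insE_cast, volE_cast', ← lsum_mul]
    refine lsum_le E fun e _ => ?_
    by_cases h1 : e.1 ∈ S <;> by_cases h2 : e.2 ∈ S <;> (simp [h1, h2]; try norm_num)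
  exact_mod_cast h

/-- layer cake -/
theorem layer {E : List (X × X)} {ρ : ℝ} (n : ℕ) : ∀ (G : X → ℝ), (∀ x, 0 ≤ G x) →
    (univ.filter fun x => 0 < G x).card = n →
    (∀ y, 0 < G y → 2 * (insE (univ.filter fun x => G y ≤ G x) E : ℝ) ≤
      ρ * volE (univ.filter fun x => G y ≤ G x) E) →
    (E.map fun e => 2 * min (G e.1) (G e.2)).sum ≤ ρ * (E.map fun e => G e.1 + G e.2).sum := by
  induction n using Nat.strong_induction_on with
  | _ n ih =>
    intro G hG hn h
    by_cases hne : (univ.filter fun x => 0 < G x).Nonempty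
    · obtain ⟨y₀, hy₀, hmin⟩ := exists_min_image _ G hne
      have hθ : 0 < G y₀ := (mem_filter.1 hy₀).2
      set θ := G y₀ with hθd
      have hmin' : ∀ x, 0 < G x → θ ≤ G x := fun x hx => hmin x (mem_filter.2 ⟨mem_univ x, hx⟩)
      set S : Finset X := univ.filter fun x => θ ≤ G x with hS
      set G' : X → ℝ := fun x => max (G x - θ) 0 with hG'
      have hmemS : ∀ x, x ∈ S ↔ θ ≤ G x := fun x => by rw [hS, mem_filter]; simp
      have hzero : ∀ x, ¬ x ∈ S → G x = 0 ∧ G' x = 0 := by
        intro x hx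
        rw [hmemS] at hx
        have h1 : G x = 0 := by
          by_contra h2
          exact hx (hmin' x (lt_of_le_of_ne (hG x) (Ne.symm h2)))
        exact ⟨h1, by rw [hG']; simp only; rw [h1]; exact max_eq_right (by linarith)⟩
      have hone : ∀ x, x ∈ S → G x = θ + G' x := by
        intro x hx
        rw [hmemS] at hx
        rw [hG']
        simp only
        rw [max_eq_left (by linarith)]
        ring
      have hG'0 : ∀ x, 0 ≤ G' x := fun x => le_max_right _ _
      have hlev : ∀ y, 0 < G' y → (univ.filter fun x => G' y ≤ G' x) =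
          univ.filter fun x => G y ≤ G x := by
        intro y hy
        have hyS : y ∈ S := by
          by_contra h1
          rw [(hzero y h1).2] at hy
          exact lt_irrefl _ hy
        have hGy := hone y hyS
        ext x
        simp only [mem_filter, mem_univ, true_and]
        by_cases hx : x ∈ S
        · rw [hone x hx, hGy]
          constructor <;> intro h1 <;> linarith
        · rw [(hzero x hx).1, (hzero x hx).2, hGy]
          constructor <;> intro h1 <;> linarith
      have hcard : (univ.filter fun x => 0 < G' x).card < n := by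
        rw [← hn]
        refine card_lt_card ?_
        rw [ssubset_iff_of_subset]
        · refine ⟨y₀, hy₀, ?_⟩
          rw [mem_filter]
          rintro ⟨_, h1⟩
          have : G' y₀ = 0 := by rw [hG']; simp [← hθd]
          rw [this] at h1
          exact lt_irrefl _ h1
        · intro x hx
          rw [mem_filter] at hx ⊢
          refine ⟨mem_univ x, ?_⟩
          by_contra h1
          have h2 : ¬ x ∈ S := by
            rw [hmemS]
            intro h3
            exact h1 (lt_of_lt_of_le hθ h3)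
          rw [(hzero x h2).2] at hx
          exact lt_irrefl _ hx.2
      have hih := ih _ hcard G' hG'0 rfl (fun y hy => by
        rw [hlev y hy]
        refine h y ?_
        have hyS : y ∈ S := by
          by_contra h1
          rw [(hzero y h1).2] at hy
          exact lt_irrefl _ hy
        rw [hone y hyS]
        linarith)
      have hS1 := h y₀ hθ
      rw [← hθd, ← hS, insE_cast, volE_cast'] at hS1
      have e1 : (E.map fun e => 2 * min (G e.1) (G e.2)).sum =
          θ * (2 * (E.map fun e => if e.1 ∈ S ∧ e.2 ∈ S then (1 : ℝ) else 0).sum) +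
            (E.map fun e => 2 * min (G' e.1) (G' e.2)).sum := by
        rw [← lsum_mul, ← lsum_mul, ← lsum_add]
        congr 1
        refine List.map_congr_left fun e _ => ?_
        by_cases h1 : e.1 ∈ S
        · by_cases h2 : e.2 ∈ S
          · rw [if_pos ⟨h1, h2⟩, hone _ h1, hone _ h2, min_add_add_left]
            ring
          · rw [if_neg (fun h3 => h2 h3.2), (hzero _ h2).1, (hzero _ h2).2,
              min_eq_right (hG _), min_eq_right (hG'0 _)]
            ring
        · rw [if_neg (fun h3 => h1 h3.1), (hzero _ h1).1, (hzero _ h1).2,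
            min_eq_left (hG _), min_eq_left (hG'0 _)]
          ring
      have e2 : (E.map fun e => G e.1 + G e.2).sum =
          θ * (E.map fun e => ((if e.1 ∈ S then 1 else 0) +
            (if e.2 ∈ S then 1 else 0) : ℝ)).sum + (E.map fun e => G' e.1 + G' e.2).sum := by
        rw [← lsum_mul, ← lsum_add]
        congr 1
        refine List.map_congr_left fun e _ => ?_
        have h3 : ∀ x, G x = θ * (if x ∈ S then 1 else 0) + G' x := by
          intro x
          by_cases h1 : x ∈ S
          · rw [if_pos h1, hone x h1]; ring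
          · rw [if_neg h1, (hzero x h1).1, (hzero x h1).2]; ring
        rw [h3 e.1, h3 e.2]
        ring
      rw [e1, e2]
      have h3 := mul_le_mul_of_nonneg_left hS1 hθ.le
      linarith
    · have h0 : ∀ x, G x = 0 := by
        intro x
        by_contra h1
        exact hne ⟨x, mem_filter.2 ⟨mem_univ x, lt_of_le_of_ne (hG x) (Ne.symm h1)⟩⟩
      simp [h0]

end Sums

/-! ### One step of the walk -/

section Step

variable {X : Type*} [Fintype X] [DecidableEq X]

theorem exQ_mono {L Bc y y' : ℕ} (h : y ≤ y') : exQ L Bc y ≤ exQ L Bc y' := by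
  unfold exQ
  exact min_le_min (Nat.div_le_div_right (Nat.mul_le_mul_left _ h)) h

theorem trunc_aux {σ x y : ℝ} (hσ : 0 ≤ σ) (hx : 0 ≤ x) (hxy : x ≤ y) :
    2 * min (x ^ 2) (y ^ 2) ≤
      σ * (x + y) + 2 * min (max (x ^ 2 - σ ^ 2) 0) (max (y ^ 2 - σ ^ 2) 0) := by
  have h1 : x ^ 2 ≤ y ^ 2 := pow_le_pow_left₀ hx hxy 2
  rw [min_eq_left h1]
  rcases le_or_gt x σ with h | h
  · have h2 : 0 ≤ min (max (x ^ 2 - σ ^ 2) 0) (max (y ^ 2 - σ ^ 2) 0) :=
      le_min (le_max_right _ _) (le_max_right _ _)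
    have h3 : x * x ≤ σ * x := mul_le_mul_of_nonneg_right h hx
    have h4 : σ * x ≤ σ * y := mul_le_mul_of_nonneg_left hxy hσ
    have h5 : x ^ 2 = x * x := sq x
    linarith
  · have h2 : σ ^ 2 ≤ x ^ 2 := pow_le_pow_left₀ hσ h.le 2
    rw [max_eq_left (by linarith), max_eq_left (by linarith), min_eq_left (by linarith)]
    have h3 : σ * σ ≤ σ * x := mul_le_mul_of_nonneg_left h.le hσ
    have h4 : σ * x ≤ σ * y := mul_le_mul_of_nonneg_left hxy hσ
    have h5 : σ ^ 2 = σ * σ := sq σ
    linarith

theorem trunc {σ x y : ℝ} (hσ : 0 ≤ σ) (hx : 0 ≤ x) (hy : 0 ≤ y) :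
    2 * min (x ^ 2) (y ^ 2) ≤
      σ * (x + y) + 2 * min (max (x ^ 2 - σ ^ 2) 0) (max (y ^ 2 - σ ^ 2) 0) := by
  rcases le_total x y with h | h
  · exact trunc_aux hσ hx h
  · have := trunc_aux hσ hy h
    rw [min_comm (x ^ 2), add_comm x y, min_comm (max (x ^ 2 - σ ^ 2) 0)]
    exact this

omit [DecidableEq X] in
/-- Cauchy-Schwarz for two consecutive steps -/
theorem step_cs {M : X → X → ℝ} (hM : Sym M) {a : X → ℝ} (ha : ∀ x, 0 ≤ a x) :
    nrm M (walk M a) ^ 2 ≤ 2 * nrm M a *
      ∑ x, ∑ y, M x y * min (max (a x) (walk M a x) ^ 2) (max (a y) (walk M a y) ^ 2) := by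
  set b := walk M a with hb
  have hb0 : ∀ x, 0 ≤ b x := fun x => hM.walk_nonneg ha x
  have h1 : nrm M b = ∑ p : X × X, (Real.sqrt (M p.1 p.2) * min (b p.1) (a p.2)) *
      (Real.sqrt (M p.1 p.2) * max (b p.1) (a p.2)) := by
    rw [Fintype.sum_prod_type]
    unfold nrm
    refine sum_congr rfl fun x _ => ?_
    have e1 : deg M x * b x ^ 2 = (deg M x * b x) * b x := by ring
    rw [e1, hb, hM.deg_mul_walk, sum_mul, ← hb]
    refine sum_congr rfl fun y _ => ?_
    have e2 : Real.sqrt (M x y) * Real.sqrt (M x y) = M x y := Real.mul_self_sqrt (hM.nonneg x y)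
    calc M x y * a y * b x = (Real.sqrt (M x y) * Real.sqrt (M x y)) * (b x * a y) := by
          rw [e2]; ring
      _ = (Real.sqrt (M x y) * Real.sqrt (M x y)) * (min (b x) (a y) * max (b x) (a y)) := by
          rw [min_mul_max]
      _ = _ := by ring
  have h2 := sum_mul_sq_le_sq_mul_sq univ
    (fun p : X × X => Real.sqrt (M p.1 p.2) * min (b p.1) (a p.2))
    (fun p : X × X => Real.sqrt (M p.1 p.2) * max (b p.1) (a p.2))
  rw [← h1] at h2
  have h3 : ∑ p : X × X, (Real.sqrt (M p.1 p.2) * min (b p.1) (a p.2)) ^ 2 ≤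
      ∑ x, ∑ y, M x y * min (max (a x) (b x) ^ 2) (max (a y) (b y) ^ 2) := by
    rw [Fintype.sum_prod_type]
    refine sum_le_sum fun x _ => sum_le_sum fun y _ => ?_
    simp only
    rw [mul_pow, Real.sq_sqrt (hM.nonneg x y)]
    refine mul_le_mul_of_nonneg_left ?_ (hM.nonneg x y)
    have hmin : 0 ≤ min (b x) (a y) := le_min (hb0 x) (ha y)
    refine le_min ?_ ?_
    · exact pow_le_pow_left₀ hmin ((min_le_left _ _).trans (le_max_right _ _)) 2
    · exact pow_le_pow_left₀ hmin ((min_le_right _ _).trans (le_max_left _ _)) 2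
  have h4 : ∑ p : X × X, (Real.sqrt (M p.1 p.2) * max (b p.1) (a p.2)) ^ 2 ≤ 2 * nrm M a := by
    rw [Fintype.sum_prod_type]
    have h5 : ∀ x y, (Real.sqrt (M x y) * max (b x) (a y)) ^ 2 ≤
        M x y * b x ^ 2 + M x y * a y ^ 2 := by
      intro x y
      rw [mul_pow, Real.sq_sqrt (hM.nonneg x y), ← mul_add]
      refine mul_le_mul_of_nonneg_left ?_ (hM.nonneg x y)
      rcases max_cases (b x) (a y) with h | h
      · rw [h.1]; nlinarith [sq_nonneg (a y)]
      · rw [h.1]; nlinarith [sq_nonneg (b x)]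
    refine (sum_le_sum fun x _ => sum_le_sum fun y _ => h5 x y).trans ?_
    have h6 : ∑ x, ∑ y, (M x y * b x ^ 2 + M x y * a y ^ 2) = nrm M b + nrm M a := by
      simp_rw [sum_add_distrib]
      congr 1
      · unfold nrm deg
        exact sum_congr rfl fun x _ => by rw [sum_mul]
      · rw [sum_comm]
        unfold nrm deg
        refine sum_congr rfl fun x _ => ?_
        rw [sum_mul]
        exact sum_congr rfl fun y _ => by rw [hM.symm]
    rw [h6]
    have := hM.nrm_walk_le a
    linarith
  have h7 : 0 ≤ ∑ p : X × X, (Real.sqrt (M p.1 p.2) * max (b p.1) (a p.2)) ^ 2 :=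
    sum_nonneg fun p _ => sq_nonneg _
  have h8 : 0 ≤ ∑ x, ∑ y, M x y * min (max (a x) (b x) ^ 2) (max (a y) (b y) ^ 2) :=
    sum_nonneg fun x _ => sum_nonneg fun y _ => mul_nonneg (hM.nonneg x y)
      (le_min (sq_nonneg _) (sq_nonneg _))
  calc nrm M b ^ 2 ≤ _ := h2
    _ ≤ (∑ x, ∑ y, M x y * min (max (a x) (b x) ^ 2) (max (a y) (b y) ^ 2)) * (2 * nrm M a) :=
        mul_le_mul h3 h4 h7 h8
    _ = _ := by ring

/-- one step of the walk in a piece without good sets -/
theorem step_decay {E : List (X × X)} {L r Bc T : ℕ} (hng : NoGood L r Bc T E) {v : X} {t : ℕ}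
    (ht : t < T) {y0 : ℕ} (hr : Nat.log 2 (4 * r) ≤ y0) (hv : 0 < deg (form3 E) v)
    (hy0 : 2 ^ y0 * (16 * (nrm (form3 E) (heat (form3 E) v t) * deg (form3 E) v ^ 2)) ≤
      tot (form3 E) * nrm (form3 E) (heat (form3 E) v (t + 1)) ^ 2) :
    nrm (form3 E) (heat (form3 E) v (t + 1)) ^ 2 * 2 ^ exQ L Bc y0 ≤
      16 * nrm (form3 E) (heat (form3 E) v t) ^ 2 := by
  have hM := sym_form3 E
  set M := form3 E with hMd
  set a := heat M v t with ha
  set b := heat M v (t + 1) with hb
  have hba : b = walk M a := by rw [hb, heat_succ]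
  have ha0 : ∀ x, 0 ≤ a x := hM.heat_nonneg v t
  have hb0 : ∀ x, 0 ≤ b x := hM.heat_nonneg v (t + 1)
  set m : X → ℝ := fun x => max (a x) (b x) with hm
  have hm0 : ∀ x, 0 ≤ m x := fun x => le_max_of_le_left (ha0 x)
  set d := deg M v with hd
  set na := nrm M a with hna
  set nb := nrm M b with hnb
  have hsa : ∑ x, deg M x * a x = d := hM.sum_deg_heat v t
  have hsb : ∑ x, deg M x * b x = d := hM.sum_deg_heat v (t + 1)
  have hnba : nb ≤ na := by rw [hnb, hba]; exact hM.nrm_walk_le a
  have hna0 : 0 ≤ na := hM.nrm_nonneg a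
  have hnb0 : 0 ≤ nb := hM.nrm_nonneg b
  have hsm : ∑ x, deg M x * m x ≤ 2 * d := by
    have h1 : ∑ x, deg M x * m x ≤ ∑ x, (deg M x * a x + deg M x * b x) := by
      refine sum_le_sum fun x _ => ?_
      rw [← mul_add]
      refine mul_le_mul_of_nonneg_left ?_ (hM.deg_nonneg x)
      exact max_le (by linarith [hb0 x]) (by linarith [ha0 x])
    rw [sum_add_distrib, hsa, hsb] at h1
    linarith
  -- positivity of the norms
  have htot0 : 0 ≤ tot M := hM.tot_nonneg
  have hcs : ∀ f : X → ℝ, ∑ x, deg M x * f x = d → d ^ 2 ≤ tot M * nrm M f := by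
    intro f hf
    have h1 := sum_mul_sq_le_sq_mul_sq univ (fun x => Real.sqrt (deg M x))
      (fun x => Real.sqrt (deg M x) * f x)
    have e1 : ∀ x, Real.sqrt (deg M x) * (Real.sqrt (deg M x) * f x) = deg M x * f x := by
      intro x
      rw [← mul_assoc, Real.mul_self_sqrt (hM.deg_nonneg x)]
    have e2 : ∀ x, Real.sqrt (deg M x) ^ 2 = deg M x := fun x => Real.sq_sqrt (hM.deg_nonneg x)
    have e3 : ∀ x, (Real.sqrt (deg M x) * f x) ^ 2 = deg M x * f x ^ 2 := fun x => by
      rw [mul_pow, e2]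
    simp_rw [e1, e2, e3] at h1
    rw [hf] at h1
    exact h1
  have hnapos : 0 < na := by
    have h1 := hcs a hsa
    have h2 : 0 < d ^ 2 := by positivity
    rcases hna0.lt_or_eq with h | h
    · exact h
    · rw [← hna, ← h] at h1
      linarith
  have hnbpos : 0 < nb := by
    have h1 := hcs b hsb
    have h2 : 0 < d ^ 2 := by positivity
    rcases hnb0.lt_or_eq with h | h
    · exact h
    · rw [← hnb, ← h] at h1
      linarith
  -- the threshold
  set σ := nb ^ 2 / (8 * na * d) with hσ
  have hσ0 : 0 < σ := by positivity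
  set G : X → ℝ := fun x => max (m x ^ 2 - σ ^ 2) 0 with hG
  have hG0 : ∀ x, 0 ≤ G x := fun x => le_max_right _ _
  set e := exQ L Bc y0 with he
  set ρ : ℝ := 2 / (2 ^ e + 1) with hρ
  have hρ0 : 0 ≤ ρ := by positivity
  have htotm : tot M = 2 * E.length := tot_form3 E
  -- the level sets
  have hlev : ∀ y, 0 < G y → (univ.filter fun x => G y ≤ G x) = lset (levN3 E v t) y := by
    intro y hy
    have hy1 : σ ^ 2 < m y ^ 2 := by
      by_contra h1
      push Not at h1
      have : G y = 0 := max_eq_right (by linarith)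
      rw [this] at hy
      exact lt_irrefl _ hy
    have hy2 : G y = m y ^ 2 - σ ^ 2 := max_eq_left (by linarith)
    unfold lset
    ext x
    simp only [mem_filter, mem_univ, true_and]
    rw [levN3_le_iff]
    change G y ≤ G x ↔ m y ≤ m x
    rw [hy2]
    constructor
    · intro h1
      have h2 : m y ^ 2 ≤ m x ^ 2 := by
        by_contra h3
        push Not at h3
        have h4 : G x < m y ^ 2 - σ ^ 2 := max_lt (by linarith) (by linarith)
        linarith
      exact abs_le_of_sq_le_sq' h2 (hm0 x) |>.2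
    · intro h1
      refine le_trans ?_ (le_max_left _ _)
      have := pow_le_pow_left₀ (hm0 y) h1 2
      linarith
  have hlay := layer (E := E) (ρ := ρ) _ G hG0 rfl (fun y hy => by
    rw [hlev y hy]
    have hy1 : σ ^ 2 < m y ^ 2 := by
      by_contra h1
      push Not at h1
      have : G y = 0 := max_eq_right (by linarith)
      rw [this] at hy
      exact lt_irrefl _ hy
    have hσy : σ < m y := lt_of_pow_lt_pow_left₀ 2 (hm0 y) hy1
    set S := lset (levN3 E v t) y with hS
    -- the volume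
    have hvol : (volE S E : ℝ) * σ ≤ 2 * d := by
      rw [volE_cast, sum_mul]
      refine le_trans ?_ hsm
      calc ∑ x ∈ S, deg M x * σ ≤ ∑ x ∈ S, deg M x * m x := by
            refine sum_le_sum fun x hx => ?_
            refine mul_le_mul_of_nonneg_left ?_ (hM.deg_nonneg x)
            have h1 : levN3 E v t y ≤ levN3 E v t x := (mem_filter.1 hx).2
            rw [levN3_le_iff] at h1
            exact hσy.le.trans h1
        _ ≤ ∑ x, deg M x * m x :=
            sum_le_sum_of_subset_of_nonneg (subset_univ _) fun x _ _ =>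
              mul_nonneg (hM.deg_nonneg x) (hm0 x)
    rcases Nat.eq_zero_or_pos (volE S E) with h0 | h0
    · have h1 := two_insE_le E S
      rw [h0] at h1
      have h2 : insE S E = 0 := by omega
      rw [h0, h2]; simp
    · have hv0 : (0 : ℝ) < volE S E := by exact_mod_cast h0
      have hlog : y0 ≤ Nat.log 2 (2 * E.length / volE S E) := by
        refine Nat.le_log_of_pow_le (by norm_num) ?_
        rw [Nat.le_div_iff_mul_le h0]
        have h1 : (2 : ℝ) ^ y0 * volE S E ≤ 2 * E.length := by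
          rw [← htotm]
          have h2 : (2 : ℝ) ^ y0 * (2 * d) ≤ tot M * σ := by
            rw [hσ, mul_div_assoc', le_div_iff₀ (by positivity)]
            calc (2 : ℝ) ^ y0 * (2 * d) * (8 * na * d) = 2 ^ y0 * (16 * (na * d ^ 2)) := by ring
              _ ≤ _ := hy0
          have h3 : (2 : ℝ) ^ y0 * volE S E * σ ≤ tot M * σ := by
            calc (2 : ℝ) ^ y0 * volE S E * σ = 2 ^ y0 * (volE S E * σ) := by ring
              _ ≤ 2 ^ y0 * (2 * d) := mul_le_mul_of_nonneg_left hvol (by positivity)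
              _ ≤ _ := h2
          exact le_of_mul_le_mul_right h3 hσ0
        exact_mod_cast h1
      have h1 := hng v t ht y
      unfold GoodE GoodN at h1
      have h2 : ¬ volE S E ≤ (2 ^ exQ L Bc (Nat.log 2 (2 * E.length / volE S E)) + 1) *
          insE S E := fun h3 => h1 ⟨h0, hr.trans hlog, h3⟩
      push Not at h2
      have h3 : (2 ^ e + 1) * insE S E ≤ volE S E := by
        refine le_trans (Nat.mul_le_mul_right _ ?_) h2.le
        exact Nat.add_le_add_right (Nat.pow_le_pow_right (by norm_num) (exQ_mono hlog)) 1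
      have h4 : ((2 : ℝ) ^ e + 1) * insE S E ≤ volE S E := by exact_mod_cast h3
      rw [hρ, div_mul_eq_mul_div, le_div_iff₀ (by positivity)]
      linarith)
  -- truncation
  have htr : (E.map fun p => 2 * min (m p.1 ^ 2) (m p.2 ^ 2)).sum ≤
      σ * (E.map fun p => m p.1 + m p.2).sum + (E.map fun p => 2 * min (G p.1) (G p.2)).sum := by
    rw [← lsum_mul, ← lsum_add]
    exact lsum_le E fun p _ => trunc hσ0.le (hm0 p.1) (hm0 p.2)
  have hsum1 : (E.map fun p => m p.1 + m p.2).sum ≤ 2 * d := by
    rw [← sum_deg_form3]; exact hsm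
  have hsum2 : (E.map fun p => G p.1 + G p.2).sum ≤ 2 * na := by
    rw [← sum_deg_form3]
    have h1 : ∑ x, deg M x * G x ≤ ∑ x, (deg M x * a x ^ 2 + deg M x * b x ^ 2) := by
      refine sum_le_sum fun x _ => ?_
      rw [← mul_add]
      refine mul_le_mul_of_nonneg_left ?_ (hM.deg_nonneg x)
      refine max_le ?_ (by positivity)
      have h2 : m x ^ 2 ≤ a x ^ 2 + b x ^ 2 := by
        rcases max_cases (a x) (b x) with h | h
        · have : m x = a x := h.1
          rw [this]; nlinarith [sq_nonneg (b x)]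
        · have : m x = b x := h.1
          rw [this]; nlinarith [sq_nonneg (a x)]
      nlinarith
    rw [sum_add_distrib] at h1
    have h2 : ∑ x, deg M x * a x ^ 2 = na := rfl
    have h3 : ∑ x, deg M x * b x ^ 2 = nb := rfl
    rw [h2, h3] at h1
    linarith
  have hmain : nb ^ 2 ≤ 2 * na * (σ * (2 * d) + ρ * (2 * na)) := by
    have h1 := step_cs hM ha0
    rw [← hba] at h1
    rw [sum_sum_form3 E (fun x y => min (max (a x) (b x) ^ 2) (max (a y) (b y) ^ 2))] at h1
    refine h1.trans (mul_le_mul_of_nonneg_left ?_ (by positivity))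
    have h2 : (E.map fun p => min (max (a p.1) (b p.1) ^ 2) (max (a p.2) (b p.2) ^ 2) +
        min (max (a p.2) (b p.2) ^ 2) (max (a p.1) (b p.1) ^ 2)).sum =
        (E.map fun p => 2 * min (m p.1 ^ 2) (m p.2 ^ 2)).sum := by
      congr 1
      refine List.map_congr_left fun p _ => ?_
      rw [min_comm (max (a p.2) (b p.2) ^ 2)]
      ring
    rw [h2]
    have h3 := mul_le_mul_of_nonneg_left hsum1 hσ0.le
    have h4 := mul_le_mul_of_nonneg_left hsum2 hρ0
    linarith
  have hσe : 2 * na * (σ * (2 * d)) = nb ^ 2 / 2 := by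
    rw [hσ]; field_simp; norm_num
  have hρe : ρ * 2 ^ e ≤ 2 := by
    rw [hρ, div_mul_eq_mul_div, div_le_iff₀ (by positivity)]
    linarith
  have h1 : nb ^ 2 ≤ 8 * ρ * na ^ 2 := by
    have h2 : 2 * na * (σ * (2 * d) + ρ * (2 * na)) =
      2 * na * (σ * (2 * d)) + 4 * ρ * na ^ 2 := by ring
    rw [h2, hσe] at hmain
    linarith
  calc nb ^ 2 * 2 ^ e ≤ 8 * ρ * na ^ 2 * 2 ^ e :=
        mul_le_mul_of_nonneg_right h1 (by positivity)
    _ = 8 * na ^ 2 * (ρ * 2 ^ e) := by ring
    _ ≤ 8 * na ^ 2 * 2 := mul_le_mul_of_nonneg_left hρe (by positivity)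
    _ = _ := by ring

end Step

/-! ### The potential -/

/-- iteration of the recursion -/
theorem rec_iter {z : ℕ → ℝ} {β : ℝ} (hβ0 : 0 < β) (hβ1 : β ≤ 1) {T : ℕ}
    (h : ∀ t < T, z (t + 1) ≤ (1 - β) * z t + 3) :
    ∀ t ≤ T, z t ≤ (1 - β) ^ t * z 0 + 3 / β := by
  intro t
  induction t with
  | zero =>
    intro _
    have : 0 ≤ 3 / β := by positivity
    simp only [pow_zero, one_mul]
    linarith
  | succ t ih =>
    intro ht
    have h1 := ih (by omega)
    have h2 := h t (by omega)
    have h3 := mul_le_mul_of_nonneg_left h1 (by linarith : 0 ≤ 1 - β)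
    have h4 : (1 - β) * ((1 - β) ^ t * z 0 + 3 / β) + 3 = (1 - β) ^ (t + 1) * z 0 + 3 / β := by
      rw [pow_succ]
      field_simp
      ring
    linarith

section Pot

variable {X : Type*} [Fintype X] [DecidableEq X]

/-- **Decay of the walk.** -/
theorem decay3 {E : List (X × X)} {L r Bc T q1 n : ℕ} (hq1 : 1 ≤ q1) (hL : L = Nat.size n)
    (hnr : n ≤ r ^ (4 * q1)) (hBc : Bc ≤ L) (hBq : 96 * q1 ≤ Bc)
    (hT : 8 * L * Real.log (4 * q1) ≤ Bc * T) (hng : NoGood L r Bc T E) {v : X}
    (hv : 0 < deg (form3 E) v) (hvn : tot (form3 E) ≤ n ^ 2 * deg (form3 E) v) :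
    nrm (form3 E) (heat (form3 E) v T) * tot (form3 E) ≤
      64 * r ^ 2 * deg (form3 E) v ^ 2 := by
  have hM := sym_form3 E
  set M := form3 E with hMd
  set d := deg M v with hd
  have htot : 0 < tot M := by
    refine lt_of_lt_of_le hv ?_
    exact single_le_sum (f := deg M) (fun x _ => hM.deg_nonneg x) (mem_univ v)
  have hn0 : 0 < n := by
    rcases Nat.eq_zero_or_pos n with h | h
    · rw [h] at hvn
      simp only [Nat.cast_zero, ne_eq, OfNat.ofNat_ne_zero, not_false_eq_true, zero_pow,
        zero_mul] at hvn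
      linarith
    · exact h
  have hnR : (0 : ℝ) < n := by exact_mod_cast hn0
  have hr0 : 0 < r := by
    rcases Nat.eq_zero_or_pos r with h | h
    · rw [h, zero_pow (by omega)] at hnr
      omega
    · exact h
  have hrR : (0 : ℝ) < r := by exact_mod_cast hr0
  have hq1R : (1 : ℝ) ≤ q1 := by exact_mod_cast hq1
  have hBcR : (96 : ℝ) * q1 ≤ Bc := by exact_mod_cast hBq
  have hBc0 : (0 : ℝ) < Bc := by linarith
  have hBL : (Bc : ℝ) ≤ L := by exact_mod_cast hBc
  have hL0 : (0 : ℝ) < L := by linarith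
  -- the potential
  set N : ℕ → ℝ := fun t => nrm M (heat M v t) * tot M / d ^ 2 with hN
  have hd2 : 0 < d ^ 2 := by positivity
  have hcs : ∀ t, 1 ≤ N t := by
    intro t
    have hf := hM.sum_deg_heat v t
    have h1 := sum_mul_sq_le_sq_mul_sq univ (fun x => Real.sqrt (deg M x))
      (fun x => Real.sqrt (deg M x) * heat M v t x)
    have e1 : ∀ x, Real.sqrt (deg M x) * (Real.sqrt (deg M x) * heat M v t x) =
        deg M x * heat M v t x := by
      intro x
      rw [← mul_assoc, Real.mul_self_sqrt (hM.deg_nonneg x)]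
    have e2 : ∀ x, Real.sqrt (deg M x) ^ 2 = deg M x := fun x => Real.sq_sqrt (hM.deg_nonneg x)
    have e3 : ∀ x, (Real.sqrt (deg M x) * heat M v t x) ^ 2 = deg M x * heat M v t x ^ 2 :=
      fun x => by rw [mul_pow, e2]
    simp_rw [e1, e2, e3] at h1
    rw [hf] at h1
    rw [hN]
    simp only
    rw [one_le_div hd2]
    calc d ^ 2 ≤ _ := h1
      _ = nrm M (heat M v t) * tot M := by unfold tot nrm; ring
  have hanti : ∀ t, N (t + 1) ≤ N t := by
    intro t
    simp only [hN]
    refine div_le_div_of_nonneg_right ?_ hd2.le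
    refine mul_le_mul_of_nonneg_right ?_ htot.le
    rw [heat_succ]
    exact hM.nrm_walk_le _
  have hantitone : Antitone N := antitone_nat_of_succ_le hanti
  have hN0 : N 0 ≤ n ^ 2 := by
    have h1 : nrm M (heat M v 0) = d := by
      unfold nrm
      simp [heat_zero]
      rfl
    simp only [hN]
    rw [h1, div_le_iff₀ hd2]
    calc d * tot M ≤ d * (n ^ 2 * d) := mul_le_mul_of_nonneg_left hvn hv.le
      _ = n ^ 2 * d ^ 2 := by ring
  by_contra hcon
  push Not at hcon
  have hNT : 64 * (r : ℝ) ^ 2 < N T := by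
    simp only [hN]
    rw [lt_div_iff₀ hd2]
    exact hcon
  set z : ℕ → ℝ := fun t => Real.logb 2 (N t) with hz
  have hNpos : ∀ t, 0 < N t := fun t => lt_of_lt_of_le one_pos (hcs t)
  have hz2 : ∀ t, (2 : ℝ) ^ z t = N t := fun t =>
    Real.rpow_logb (by norm_num) (by norm_num) (hNpos t)
  have hz0 : ∀ t, 0 ≤ z t := fun t => Real.logb_nonneg (by norm_num) (hcs t)
  set ℓ := Real.logb 2 r with hℓ
  have hℓ0 : 0 ≤ ℓ := Real.logb_nonneg (by norm_num) (by exact_mod_cast hr0)
  have hzbig : ∀ t ≤ T, 6 + 2 * ℓ < z t := by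
    intro t ht
    have h1 : 64 * (r : ℝ) ^ 2 < N t := lt_of_lt_of_le hNT (hantitone ht)
    have h2 : Real.logb 2 (64 * (r : ℝ) ^ 2) = 6 + 2 * ℓ := by
      rw [Real.logb_mul (by norm_num) (by positivity), Real.logb_pow]
      have : Real.logb 2 64 = 6 := by
        rw [show (64 : ℝ) = 2 ^ (6 : ℝ) by norm_num]
        exact Real.logb_rpow (by norm_num) (by norm_num)
      rw [this]
      push_cast
      rfl
    rw [← h2]
    exact Real.logb_lt_logb (by norm_num) (by positivity) h1
  set β : ℝ := Bc / (4 * L) with hβ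
  have hβ0 : 0 < β := by positivity
  have hβ1 : β ≤ 1 / 4 := by
    rw [hβ, div_le_div_iff₀ (by positivity) (by norm_num)]
    linarith
  -- one step
  have hstep : ∀ t < T, z (t + 1) ≤ (1 - β) * z t + 3 := by
    intro t ht
    by_contra hc
    push Not at hc
    have hza := hz0 t
    have hβz : β * z t ≤ 1 / 4 * z t := mul_le_mul_of_nonneg_right hβ1 hza
    have hzab : z (t + 1) ≤ z t := Real.logb_le_logb_of_le (by norm_num) (hNpos _) (hanti t)
    set κ : ℝ := 2 * z (t + 1) - z t - 4 with hκ
    have hκ1 : z t / 2 + 2 < κ := by linarith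
    have hκ0 : 0 ≤ κ := by linarith
    set y0 := ⌊κ⌋₊ with hy0
    have hy1 : (y0 : ℝ) ≤ κ := Nat.floor_le hκ0
    have hy2 : κ < y0 + 1 := Nat.lt_floor_add_one κ
    have hpow : (2 : ℝ) ^ y0 * (16 * N t) ≤ N (t + 1) ^ 2 := by
      have h1 : (2 : ℝ) ^ y0 ≤ 2 ^ κ := by
        rw [← Real.rpow_natCast]
        exact Real.rpow_le_rpow_of_exponent_le (by norm_num) hy1
      have h2 : (2 : ℝ) ^ κ * (16 * N t) = N (t + 1) ^ 2 := by
        rw [← hz2 t, ← hz2 (t + 1), show (16 : ℝ) = 2 ^ (4 : ℝ) by norm_num,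
          ← Real.rpow_add (by norm_num), ← Real.rpow_add (by norm_num), ← Real.rpow_natCast,
          ← Real.rpow_mul (by norm_num)]
        congr 1
        rw [hκ]
        push_cast
        ring
      rw [← h2]
      exact mul_le_mul_of_nonneg_right h1 (by have := hNpos t; positivity)
    have hr1 : Nat.log 2 (4 * r) ≤ y0 := by
      refine Nat.le_floor ?_
      have h1 : (Nat.log 2 (4 * r) : ℝ) ≤ Real.logb 2 ((4 * r : ℕ) : ℝ) :=
        Real.natLog_le_logb _ _
      have h2 : Real.logb 2 ((4 * r : ℕ) : ℝ) = 2 + ℓ := by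
        push_cast
        rw [Real.logb_mul (by norm_num) (by positivity)]
        have : Real.logb 2 4 = 2 := by
          rw [show (4 : ℝ) = 2 ^ (2 : ℝ) by norm_num]
          exact Real.logb_rpow (by norm_num) (by norm_num)
        rw [this]
      have h3 := hzbig t (by omega)
      linarith
    have hdec := step_decay hng ht (y0 := y0) hr1 hv (by
      have h1 : (2 : ℝ) ^ y0 * (16 * (nrm M (heat M v t) * d ^ 2)) * (tot M / d ^ 4) =
          2 ^ y0 * (16 * N t) := by
        simp only [hN]; field_simp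
      have h2 : tot M * nrm M (heat M v (t + 1)) ^ 2 * (tot M / d ^ 4) = N (t + 1) ^ 2 := by
        simp only [hN]; field_simp
      have h3 : 0 < tot M / d ^ 4 := by positivity
      rw [← h1, ← h2] at hpow
      exact le_of_mul_le_mul_right hpow h3)
    set e := exQ L Bc y0 with he
    have hdec2 : N (t + 1) ^ 2 * 2 ^ e ≤ 16 * N t ^ 2 := by
      have h1 : N (t + 1) ^ 2 * 2 ^ e = nrm M (heat M v (t + 1)) ^ 2 * 2 ^ e *
          (tot M ^ 2 / d ^ 4) := by
        simp only [hN]; field_simp
      have h2 : 16 * N t ^ 2 = 16 * nrm M (heat M v t) ^ 2 * (tot M ^ 2 / d ^ 4) := by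
        simp only [hN]; field_simp
      rw [h1, h2]
      exact mul_le_mul_of_nonneg_right hdec (by positivity)
    have hlog : 2 * z (t + 1) + e ≤ 4 + 2 * z t := by
      have h1 : (2 : ℝ) ^ (2 * z (t + 1) + e) ≤ 2 ^ (4 + 2 * z t) := by
        have h2 : (2 : ℝ) ^ (2 * z (t + 1) + e) = N (t + 1) ^ 2 * 2 ^ e := by
          rw [Real.rpow_add (by norm_num), Real.rpow_natCast, mul_comm (2 : ℝ) (z (t + 1)),
            Real.rpow_mul (by norm_num), hz2]
          norm_num
        have h3 : (2 : ℝ) ^ (4 + 2 * z t) = 16 * N t ^ 2 := by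
          rw [Real.rpow_add (by norm_num), mul_comm (2 : ℝ) (z t),
            Real.rpow_mul (by norm_num), hz2]
          norm_num
        rw [h2, h3]
        exact hdec2
      exact (Real.rpow_le_rpow_left_iff (by norm_num)).1 h1
    have he1 : (Bc : ℝ) * y0 / L - 1 < e := by
      have h1 : Bc * y0 / L ≤ y0 := by
        refine Nat.div_le_of_le_mul ?_
        exact Nat.mul_le_mul_right _ hBc
      have h2 : e = Bc * y0 / L := by rw [he]; exact min_eq_left h1
      rw [h2]
      have h3 : Bc * y0 < (Bc * y0 / L + 1) * L :=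
        calc Bc * y0 < L * (Bc * y0 / L + 1) :=
              Nat.lt_mul_div_succ _ (by exact_mod_cast hL0)
          _ = _ := mul_comm _ _
      have h4 : (Bc : ℝ) * y0 < ((Bc * y0 / L : ℕ) + 1) * L := by exact_mod_cast h3
      rw [sub_lt_iff_lt_add, div_lt_iff₀ hL0]
      exact h4
    have he2 : (Bc : ℝ) * (z t / 2 + 1) / L ≤ Bc * y0 / L := by
      refine div_le_div_of_nonneg_right ?_ hL0.le
      exact mul_le_mul_of_nonneg_left (by linarith) hBc0.le
    have he3 : (Bc : ℝ) * (z t / 2 + 1) / L = 2 * (β * z t) + Bc / L := by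
      rw [hβ]; field_simp; ring
    have he4 : (0 : ℝ) ≤ Bc / L := by positivity
    linarith
  have hiter := rec_iter hβ0 (by linarith) hstep T le_rfl
  -- numerics
  have hz00 : z 0 ≤ 2 * L := by
    have h1 : z 0 ≤ Real.logb 2 ((n : ℝ) ^ 2) :=
      Real.logb_le_logb_of_le (by norm_num) (hNpos 0) hN0
    rw [Real.logb_pow] at h1
    have h2 : Real.logb 2 n ≤ L := by
      rw [Real.logb_le_iff_le_rpow (by norm_num) hnR, Real.rpow_natCast, hL]
      exact_mod_cast (Nat.lt_size_self n).le
    push_cast at h1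
    linarith
  have hexp : (1 - β) ^ T ≤ 1 / (16 * (q1 : ℝ) ^ 2) := by
    have h1 : (1 - β) ^ T ≤ Real.exp (-(β * T)) := by
      have h2 : 1 - β ≤ Real.exp (-β) := by
        have := Real.add_one_le_exp (-β)
        linarith
      calc (1 - β) ^ T ≤ (Real.exp (-β)) ^ T := pow_le_pow_left₀ (by linarith) h2 T
        _ = Real.exp (-(β * T)) := by rw [← Real.exp_nat_mul]; congr 1; ring
    refine h1.trans ?_
    have h2 : 2 * Real.log (4 * q1) ≤ β * T := by
      rw [hβ, div_mul_eq_mul_div, le_div_iff₀ (by positivity)]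
      linarith
    have h3 : Real.exp (-(β * T)) ≤ Real.exp (-(2 * Real.log (4 * q1))) :=
      Real.exp_le_exp.2 (by linarith)
    refine h3.trans (le_of_eq ?_)
    have h4 : -(2 * Real.log (4 * (q1 : ℝ))) = Real.log ((4 * q1) ^ (-2 : ℝ)) := by
      rw [Real.log_rpow (by positivity)]; ring
    rw [h4, Real.exp_log (by positivity), Real.rpow_neg (by positivity)]
    have h5 : (4 * (q1 : ℝ)) ^ (2 : ℝ) = 16 * (q1 : ℝ) ^ 2 := by
      rw [show (2 : ℝ) = ((2 : ℕ) : ℝ) by norm_num, Real.rpow_natCast]; ring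
    rw [h5, one_div]
  have h1 : (1 - β) ^ T * z 0 ≤ L / (8 * q1) := by
    calc (1 - β) ^ T * z 0 ≤ 1 / (16 * (q1 : ℝ) ^ 2) * (2 * L) :=
          mul_le_mul hexp hz00 (hz0 0) (by positivity)
      _ = L / (8 * q1) * (1 / q1) := by field_simp; norm_num
      _ ≤ L / (8 * q1) * 1 := by
          refine mul_le_mul_of_nonneg_left ?_ (by positivity)
          rw [div_le_one (by linarith)]
          exact hq1R
      _ = _ := mul_one _
  have h2 : 3 / β ≤ L / (8 * q1) := by
    rw [hβ, div_div_eq_mul_div, div_le_div_iff₀ hBc0 (by positivity)]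
    have := mul_le_mul_of_nonneg_left hBcR hL0.le
    linarith
  have h3 := hzbig T le_rfl
  have h4 : ((L : ℝ) - 1) ≤ 4 * q1 * ℓ := by
    have h5 : (2 : ℝ) ^ (L - 1) ≤ n := by
      have h6 : L - 1 < Nat.size n := by
        have : 0 < Nat.size n := Nat.size_pos.2 hn0
        omega
      exact_mod_cast Nat.lt_size.1 h6
    have h7 : (n : ℝ) ≤ (r : ℝ) ^ (4 * q1) := by exact_mod_cast hnr
    have h8 : Real.logb 2 ((2 : ℝ) ^ (L - 1)) ≤ Real.logb 2 ((r : ℝ) ^ (4 * q1)) :=
      Real.logb_le_logb_of_le (by norm_num) (by positivity) (h5.trans h7)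
    rw [Real.logb_pow, Real.logb_pow, Real.logb_self_eq_one (by norm_num), mul_one] at h8
    have h9 : ((L - 1 : ℕ) : ℝ) = (L : ℝ) - 1 := by
      rw [Nat.cast_sub]
      · simp
      · have : 0 < Nat.size n := Nat.size_pos.2 hn0
        omega
    rw [h9] at h8
    push_cast at h8
    exact h8
  have h5 : z T ≤ L / (4 * q1) := by
    have : (L : ℝ) / (8 * q1) + L / (8 * q1) = L / (4 * q1) := by field_simp; norm_num
    linarith
  have h6 : 6 + 2 * ℓ < L / (4 * q1) := lt_of_lt_of_le h3 h5
  rw [lt_div_iff₀ (by linarith)] at h6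
  have h7 : 0 ≤ ℓ * q1 := by positivity
  nlinarith

end Pot

end Vale.Agent.P325.V3
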