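import Vale.Agent.P325.NatForm

/-!
# Definitions for the algorithm with small soundness

The walk is not lazy, the pieces are lists of constraints.
-/

namespace Vale.Agent.P325.V3

open Finset Vale.Agent.P325

section Walk

variable {X : Type*}

/-- the graph form of a list of edges (not lazy):
`M(x,y) = ∑ [x=a][y=b] + [x=b][y=a]` over the edges `(a, b)`; `tot M = 2 * (number of edges)` -/
def form3 [DecidableEq X] (E : List (X × X)) (x y : X) : ℝ :=
  (E.map fun e => ((if x = e.1 ∧ y = e.2 then 1 else 0) +
    (if x = e.2 ∧ y = e.1 then 1 else 0) : ℝ)).sum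

/-- matrix times vector -/
def mvN3 [DecidableEq X] (E : List (X × X)) (h : X → ℕ) (x : X) : ℕ :=
  (E.map fun e => (if x = e.1 then h e.2 else 0) + (if x = e.2 then h e.1 else 0)).sum

/-- degrees -/
def degN3 [DecidableEq X] (E : List (X × X)) : X → ℕ := mvN3 E fun _ => 1

variable [Fintype X] [DecidableEq X]

/-- common multiple of the degrees -/
def QN3 (E : List (X × X)) : ℕ := ∏ x, max (degN3 E x) 1

/-- scaled walk -/
def stepN3 (E : List (X × X)) (h : X → ℕ) (x : X) : ℕ := (QN3 E / degN3 E x) * mvN3 E h x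

/-- scaled distribution of the walk from `v` after `t` steps -/
def heatN3 (E : List (X × X)) (v : X) (t : ℕ) : X → ℕ :=
  (stepN3 E)^[t] fun x => if x = v then 1 else 0

/-- the function whose level sets are the candidates -/
def levN3 (E : List (X × X)) (v : X) (t : ℕ) (x : X) : ℕ :=
  max (QN3 E * heatN3 E v t x) (heatN3 E v (t + 1) x)

omit [DecidableEq X] in
/-- a level set -/
def lset (Y : X → ℕ) (y : X) : Finset X := univ.filter fun x => Y y ≤ Y x

end Walk

section Sets

variable {X : Type*} [DecidableEq X]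

/-- volume of a set -/
def volE (S : Finset X) (E : List (X × X)) : ℕ :=
  (E.map fun e => (if e.1 ∈ S then 1 else 0) + (if e.2 ∈ S then 1 else 0)).sum

/-- number of edges inside a set -/
def insE (S : Finset X) (E : List (X × X)) : ℕ := E.countP fun e => decide (e.1 ∈ S ∧ e.2 ∈ S)

/-- exponent of the loss allowed for sets of relative volume `2 ^ (-y)` -/
def exQ (L Bc y : ℕ) : ℕ := min (Bc * y / L) y

/-- the test for a set of volume `vol` with `i` of the `m` edges inside -/
def GoodN (L r Bc m vol i : ℕ) : Prop :=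
  0 < vol ∧ Nat.log 2 (4 * r) ≤ Nat.log 2 (2 * m / vol) ∧
    vol ≤ (2 ^ exQ L Bc (Nat.log 2 (2 * m / vol)) + 1) * i

/-- the set `S` is a good set for the graph `E` -/
def GoodE (L r Bc : ℕ) (E : List (X × X)) (S : Finset X) : Prop :=
  GoodN L r Bc E.length (volE S E) (insE S E)

/-- no candidate is good -/
def NoGood [Fintype X] (L r Bc T : ℕ) (E : List (X × X)) : Prop :=
  ∀ v, ∀ t < T, ∀ y, ¬ GoodE L r Bc E (lset (levN3 E v t) y)

end Sets

section Cons

variable {V : Type*} {k : ℕ}

/-- number of constraints satisfied by `a` -/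
def sat3 (C : List (Con V k)) (a : V → Fin k) : ℕ :=
  C.countP fun c => decide (a c.2.1 = c.2.2 (a c.1))

variable [DecidableEq V]

/-- number of labels of the constraint `c` consistent with the lists of labels `A` -/
def pair3 (l : ℕ) (A : V → Finset (Fin k)) (c : Con V k) : ℕ :=
  if (A c.1).card ≤ l ∧ (A c.2.1).card ≤ l then
    (univ.filter fun i : Fin k => i ∈ A c.1 ∧ c.2.2 i ∈ A c.2.1 ∧
      (c.1 = c.2.1 → c.2.2 i = i)).card
  else 0

/-- value of the lists of labels `A` -/
def val3 (l : ℕ) (C : List (Con V k)) (A : V → Finset (Fin k)) : ℕ :=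
  (C.map (pair3 l A)).sum

end Cons

end Vale.Agent.P325.V3
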