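import Vale.Agent.P325.V3.Two

/-!
# Lists of labels of a leaf from few seeds
-/

namespace Vale.Agent.P325.V3

open Finset Vale.Agent.P325

/-! ### Sampling -/

section Sample

variable {V : Type*} [Fintype V] [DecidableEq V] {k : ℕ} {M : V → V → ℝ}
  {Mh : V × Fin k → V × Fin k → ℝ}

open Classical in
/-- total degree of the heavy vertices -/
noncomputable def massG (M : V → V → ℝ) (n : ℕ) : ℝ :=
  ∑ v, if 0 < deg M v ∧ tot M ≤ n ^ 2 * deg M v then deg M v else 0

theorem sample_core (hM : IsForm M) (hMh : IsForm Mh)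
    (hproj : ∀ u i v, ∑ j, Mh (u, i) (v, j) = M u v) {n T S S' : ℕ} {K : ℝ} (hK : 0 ≤ K)
    (hcard : Fintype.card V ≤ n) (hS : 0 < S) (htot : 0 < tot M)
    (hleaf : ∀ v, 0 < deg M v → tot M ≤ n ^ 2 * deg M v →
      nrm M (heat M v T) * tot M ≤ K * deg M v ^ 2) (a : V → Fin k) :
    ∃ (x : Fin S → V × Fin k) (G₀ : V × Fin k → ℝ),
      nrm Mh (fun y => (massG M n / S) * filt Mh T S' (seedF Mh x) y - filt Mh T S' G₀ y) ≤
        K * S' ^ 2 / S * tot M ∧
      nrm Mh (G₀ - lab1 a) ≤ 1 / n * tot M := by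
  classical
  set w := tot M with hw
  -- heavy vertices
  let Hv : V → Prop := fun v => 0 < deg M v ∧ w ≤ n ^ 2 * deg M v
  have hw₀ : massG M n = ∑ v, if Hv v then deg M v else 0 := rfl
  set w₀ : ℝ := massG M n with hw₀'
  have hne : (univ : Finset V).Nonempty := by
    by_contra h
    rw [not_nonempty_iff_eq_empty] at h
    have : w = 0 := by rw [hw]; unfold tot; rw [h, sum_empty]
    linarith
  have hn : 0 < n := by
    obtain ⟨v, _⟩ := hne
    exact lt_of_lt_of_le (Fintype.card_pos_iff.2 ⟨v⟩) hcard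
  have hnr : (0 : ℝ) < n := by exact_mod_cast hn
  have hlight : ∑ v, (if Hv v then 0 else deg M v) ≤ w / n := by
    have h1 : ∀ v, (if Hv v then 0 else deg M v) ≤ w / n ^ 2 := by
      intro v
      split_ifs with h
      · positivity
      · rw [le_div_iff₀ (by positivity)]
        by_contra hcon
        push Not at hcon
        have hpos : 0 < deg M v := by
          rcases (hM.deg_nonneg v).eq_or_lt with h0 | h0
          · rw [← h0, zero_mul] at hcon
            linarith
          · exact h0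
        exact h ⟨hpos, by linarith⟩
    refine (sum_le_sum fun v _ => h1 v).trans ?_
    rw [sum_const, card_univ, nsmul_eq_mul]
    have : (Fintype.card V : ℝ) ≤ n := by exact_mod_cast hcard
    calc (Fintype.card V : ℝ) * (w / n ^ 2) ≤ n * (w / n ^ 2) :=
          mul_le_mul_of_nonneg_right this (by positivity)
      _ = w / n := by field_simp
  have hsplit : w₀ + ∑ v, (if Hv v then 0 else deg M v) = w := by
    rw [hw₀, ← sum_add_distrib]
    show _ = ∑ v, deg M v
    refine sum_congr rfl fun v _ => ?_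
    split_ifs <;> simp
  have hw₀w : w₀ ≤ w := by
    have : 0 ≤ ∑ v, (if Hv v then 0 else deg M v) := sum_nonneg fun v _ => by
      split_ifs
      · exact le_refl _
      · exact hM.deg_nonneg v
    linarith
  have hw₀0 : 0 < w₀ := by
    -- a vertex of largest degree is heavy
    obtain ⟨v, _, hv⟩ := exists_max_image univ (fun v => deg M v) hne
    have h1 : w ≤ Fintype.card V * deg M v := by
      rw [hw]
      unfold tot
      refine (sum_le_sum fun u hu => hv u hu).trans ?_
      rw [sum_const, card_univ, nsmul_eq_mul]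
    have h2 : (Fintype.card V : ℝ) ≤ n := by exact_mod_cast hcard
    have h3 : 0 < deg M v := by
      rcases (hM.deg_nonneg v).eq_or_lt with h0 | h0
      · rw [← h0, mul_zero] at h1
        linarith
      · exact h0
    have h4 : (1 : ℝ) ≤ n := by exact_mod_cast hn
    have h5 : Hv v := by
      refine ⟨h3, h1.trans ?_⟩
      refine mul_le_mul_of_nonneg_right ?_ h3.le
      nlinarith
    have h6 : (if Hv v then deg M v else 0) ≤ w₀ :=
      single_le_sum (f := fun v => if Hv v then deg M v else 0) (fun u _ => by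
        show 0 ≤ (if Hv u then deg M u else 0)
        split_ifs
        · exact hM.deg_nonneg u
        · exact le_refl _) (mem_univ v)
    rw [if_pos h5] at h6
    linarith
  -- the seeds
  let δ : V → V × Fin k → ℝ := fun v y => if y = (v, a v) then 1 else 0
  let g : V → V × Fin k → ℝ := fun v => filt Mh T S' ((w₀ / deg M v) • δ v)
  let p : V → ℝ := fun v => (if Hv v then deg M v else 0) / w₀
  have hp : ∀ v, 0 ≤ p v := fun v => by
    refine div_nonneg ?_ hw₀0.le
    split_ifs
    · exact hM.deg_nonneg v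
    · exact le_refl _
  have hp1 : ∑ v, p v = 1 := by
    simp only [p]
    rw [← sum_div, ← hw₀, div_self hw₀0.ne']
  have hgN : ∀ v, Hv v → nrm Mh (g v) ≤ K * S' ^ 2 * w := by
    intro v hv
    have h1 : nrm Mh (g v) ≤ (w₀ / deg M v) ^ 2 * ((S' : ℝ) ^ 2 * nrm Mh (heat Mh (v, a v) T)) := by
      simp only [g]
      rw [filt_smul]
      have e1 : nrm Mh ((w₀ / deg M v) • filt Mh T S' (δ v)) =
          (w₀ / deg M v) ^ 2 * nrm Mh (filt Mh T S' (δ v)) := by
        unfold nrm
        rw [mul_sum]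
        refine sum_congr rfl fun y _ => ?_
        rw [Pi.smul_apply, smul_eq_mul]
        ring
      rw [e1]
      exact mul_le_mul_of_nonneg_left (hMh.nrm_filt_le_walk T S' (δ v)) (sq_nonneg _)
    have h2 := nrm_heat_lifted_le hM hMh hproj v (a v) T
    have h3 := hleaf v hv.1 hv.2
    have hd : 0 < deg M v := hv.1
    have h4 : nrm Mh (heat Mh (v, a v) T) ≤ K * deg M v ^ 2 / w := by
      rw [le_div_iff₀ htot]
      exact (mul_le_mul_of_nonneg_right h2 htot.le).trans h3
    calc nrm Mh (g v) ≤ (w₀ / deg M v) ^ 2 * ((S' : ℝ) ^ 2 * (K * deg M v ^ 2 / w)) :=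
          h1.trans (mul_le_mul_of_nonneg_left
            (mul_le_mul_of_nonneg_left h4 (sq_nonneg _)) (sq_nonneg _))
      _ = K * S' ^ 2 * (w₀ ^ 2 / w) := by
          field_simp
      _ ≤ K * S' ^ 2 * w := by
          refine mul_le_mul_of_nonneg_left ?_ (by positivity)
          rw [div_le_iff₀ htot]
          nlinarith
  have hC : ∑ v, p v * nrm Mh (g v) ≤ K * S' ^ 2 * w := by
    have : ∑ v, p v * nrm Mh (g v) ≤ ∑ v, p v * (K * S' ^ 2 * w) := by
      refine sum_le_sum fun v _ => ?_
      by_cases hv : Hv v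
      · exact mul_le_mul_of_nonneg_left (hgN v hv) (hp v)
      · have : p v = 0 := by simp only [p]; rw [if_neg hv, zero_div]
        rw [this, zero_mul, zero_mul]
    rwa [← sum_mul, hp1, one_mul] at this
  obtain ⟨x, hx, hxle⟩ := exists_sample hMh p hp hp1 g _ hC S
  have hxH : ∀ s, Hv (x s) := by
    intro s
    by_contra h
    have := hx s
    simp only [p] at this
    rw [if_neg h, zero_div] at this
    exact lt_irrefl _ this
  let G₀ : V × Fin k → ℝ := fun y => if Hv y.1 then lab1 a y else 0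
  refine ⟨fun s => (x s, a (x s)), G₀, ?_, ?_⟩
  · set Φ := filt Mh T S' (seedF Mh fun s => (x s, a (x s))) with hΦ
    have hSr : (0 : ℝ) < S := by exact_mod_cast hS
    -- the restricted indicator
    have hμ : ∑ v, p v • g v = filt Mh T S' G₀ := by
      have e1 : ∀ v, p v • g v = filt Mh T S' (p v • ((w₀ / deg M v) • δ v)) := fun v => by
        simp only [g]
        rw [← filt_smul]
      simp_rw [e1]
      rw [← filt_sum]
      congr 1
      funext y
      rw [Finset.sum_apply]
      have e2 : ∀ v, (p v • ((w₀ / deg M v) • δ v)) y =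
          if y = (v, a v) then (if Hv v then 1 else 0) else 0 := by
        intro v
        simp only [Pi.smul_apply, smul_eq_mul, p, δ]
        by_cases h1 : y = (v, a v)
        · rw [if_pos h1, if_pos h1]
          by_cases h2 : Hv v
          · rw [if_pos h2, if_pos h2]
            have := h2.1.ne'
            have := hw₀0.ne'
            field_simp
          · rw [if_neg h2, if_neg h2]; simp
        · rw [if_neg h1, if_neg h1]; simp
      simp_rw [e2]
      obtain ⟨u, i⟩ := y
      simp only [Prod.mk.injEq, G₀, lab1]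
      by_cases hu : i = a u
      · subst hu
        have : ∀ v, (if u = v ∧ a u = a v then (if Hv v then (1 : ℝ) else 0) else 0) =
            if v = u then (if Hv u then 1 else 0) else 0 := by
          intro v
          by_cases hv : v = u
          · subst hv; simp
          · rw [if_neg hv, if_neg]
            rintro ⟨h1, _⟩
            exact hv h1.symm
        simp_rw [this]
        simp
      · have : ∀ v, (if u = v ∧ i = a v then (if Hv v then (1 : ℝ) else 0) else 0) = 0 := by
          intro v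
          rw [if_neg]
          rintro ⟨h1, h2⟩
          exact hu (by rw [h2, h1])
        simp_rw [this]
        simp [hu]
    have hsumg : ∑ s, g (x s) = w₀ • Φ := by
      simp only [g, hΦ]
      rw [← filt_smul, ← filt_sum]
      congr 1
      funext y
      rw [Finset.sum_apply, Pi.smul_apply, smul_eq_mul]
      unfold seedF
      rw [mul_sum]
      refine sum_congr rfl fun s _ => ?_
      simp only [Pi.smul_apply, smul_eq_mul, δ]
      rw [deg_lifted hproj]
      split_ifs
      · ring
      · ring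
    rw [hμ, hsumg] at hxle
    have : nrm Mh (w₀ • Φ - (S : ℝ) • filt Mh T S' G₀) =
        (S : ℝ) ^ 2 * nrm Mh (fun y => (w₀ / S) * Φ y - filt Mh T S' G₀ y) := by
      unfold nrm
      rw [mul_sum]
      refine sum_congr rfl fun y _ => ?_
      rw [Pi.sub_apply, Pi.smul_apply, Pi.smul_apply, smul_eq_mul, smul_eq_mul]
      field_simp
    rw [this] at hxle
    have h2 : (S : ℝ) * ((S : ℝ) * nrm Mh (fun y => (w₀ / S) * Φ y - filt Mh T S' G₀ y)) ≤
        S * (K * S' ^ 2 * w) := by
      linarith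
    have h3 := le_of_mul_le_mul_left h2 hSr
    rw [div_mul_eq_mul_div, le_div_iff₀ hSr]
    linarith
  · have : nrm Mh (G₀ - lab1 a) = ∑ v, (if Hv v then 0 else deg M v) := by
      unfold nrm
      rw [Fintype.sum_prod_type]
      refine sum_congr rfl fun v _ => ?_
      simp_rw [deg_lifted hproj]
      simp only [Pi.sub_apply, G₀, lab1]
      by_cases hv : Hv v
      · simp [hv]
      · simp [hv]
    rw [this]
    refine hlight.trans (le_of_eq ?_)
    ring

/-- the filter preserves what the walk does not kill -/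
theorem Q_sub_filt_le (hM : IsForm Mh) (T S R : ℕ) {θ : ℝ} (hθ : 0 ≤ θ)
    (hT : 1 / (R : ℝ) ≤ θ ^ T) (h : V × Fin k → ℝ) :
    Q Mh (filt Mh T S h - h) (filt Mh T S h - h) ≤
      (θ + Real.exp (-(2 * (S / R : ℝ)))) * nrm Mh h := by
  have hcoef : ∀ j, hM.coef j (filt Mh T S h - h) = -((1 - hM.ev j ^ T) ^ S * hM.coef j h) := by
    intro j
    have := hM.coef_sub j (filt Mh T S h) h
    rw [show (filt Mh T S h - h) = fun x => filt Mh T S h x - h x from rfl, this, hM.coef_filt]
    ring
  rw [hM.Q_eq_sum, ← hM.sum_coef_sq, mul_sum]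
  refine sum_le_sum fun j _ => ?_
  rw [hcoef, neg_sq, mul_pow, ← mul_assoc]
  refine mul_le_mul_of_nonneg_right ?_ (sq_nonneg _)
  have h0 := hM.ev_nonneg j
  have h1 := hM.ev_le_one j
  have hTp := pow_nonneg h0 T
  have hT1 := pow_le_one₀ (n := T) h0 h1
  have hexp := (Real.exp_pos (-(2 * (S / R : ℝ)))).le
  have hbase : 0 ≤ 1 - hM.ev j ^ T := by linarith
  have h2 : ((1 - hM.ev j ^ T) ^ S) ^ 2 ≤ 1 := by
    have h3 := pow_nonneg hbase S
    have h4 := pow_le_one₀ (n := S) hbase (by linarith)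
    nlinarith
  have h20 : 0 ≤ ((1 - hM.ev j ^ T) ^ S) ^ 2 := sq_nonneg _
  rcases le_or_gt (hM.ev j) θ with hc | hc
  · nlinarith
  · have h2 : 1 / (R : ℝ) ≤ hM.ev j ^ T := hT.trans (pow_le_pow_left₀ hθ hc.le T)
    have h3 : (1 - hM.ev j ^ T) ^ S ≤ Real.exp (-(S / R : ℝ)) := by
      have h4 : 1 - hM.ev j ^ T ≤ Real.exp (-(1 / R : ℝ)) := by
        have := Real.add_one_le_exp (-(1 / R : ℝ))
        linarith
      refine (pow_le_pow_left₀ (by linarith) h4 S).trans (le_of_eq ?_)
      rw [← Real.exp_nat_mul]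
      congr 1
      ring
    have h5 : ((1 - hM.ev j ^ T) ^ S) ^ 2 ≤ Real.exp (-(2 * (S / R : ℝ))) := by
      refine (pow_le_pow_left₀ (pow_nonneg (by linarith) S) h3 2).trans (le_of_eq ?_)
      rw [← Real.exp_nat_mul]
      congr 1
      push_cast
      ring
    nlinarith

theorem walk_add' {X : Type*} [Fintype X] (M : X → X → ℝ) (f g : X → ℝ) :
    walk M (fun z => f z + g z) = fun y => walk M f y + walk M g y := by
  have h := map_add (walkL M) f g
  rw [walkL_apply, walkL_apply, walkL_apply] at h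
  exact h

/-- the walk applied to the filtered seeds approximates the walk applied to the labeling -/
theorem sample3 (hM : Sym M) (hMh : Sym Mh)
    (hproj : ∀ u i v, ∑ j, Mh (u, i) (v, j) = M u v) {n R T S S' : ℕ} {K θ : ℝ} (hK : 0 ≤ K)
    (hθ : 0 ≤ θ) (hT : 1 / (R : ℝ) ≤ θ ^ T)
    (hcard : Fintype.card V ≤ n) (hS : 0 < S) (htot : 0 < tot M)
    (hleaf : ∀ v, 0 < deg M v → tot M ≤ n ^ 2 * deg M v →
      nrm M (heat M v (2 * T)) * tot M ≤ K * deg M v ^ 2) (a : V → Fin k) :
    ∃ x : Fin S → V × Fin k,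
      nrm Mh (fun y => walk Mh (fun z => (massG M n / S) *
        filt Mh (2 * T) S' (seedF Mh x) z) y - walk Mh (lab1 a) y) ≤
        3 * (K * S' ^ 2 / S + 1 / n + (θ + Real.exp (-(2 * (S' / R : ℝ))))) * tot M := by
  have h2M := hM.isForm_two
  have h2Mh := hMh.isForm_two
  have hproj2 : ∀ u i v, ∑ j, two Mh (u, i) (v, j) = two M u v := proj_two hproj
  have hmass : massG (two M) n = massG M n := by
    unfold massG
    rw [hM.tot_two]
    simp_rw [hM.deg_two]
  have hseed : ∀ x : Fin S → V × Fin k, seedF (two Mh) x = seedF Mh x := by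
    intro x
    unfold seedF
    simp_rw [hMh.deg_two]
  obtain ⟨x, G₀, h1, h2⟩ := sample_core (M := two M) (Mh := two Mh) h2M h2Mh hproj2 (n := n)
    (T := T) (S := S) (S' := S') hK hcard hS (by rw [hM.tot_two]; exact htot) (fun v hv hv' => by
      rw [hM.deg_two] at hv hv' ⊢
      rw [hM.tot_two] at hv' ⊢
      rw [hM.nrm_two, hM.heat_two]
      exact hleaf v hv hv') a
  rw [hmass, hseed, hM.tot_two, hMh.nrm_two] at h1
  rw [hM.tot_two, hMh.nrm_two] at h2
  have hf : ∀ h : V × Fin k → ℝ, filt (two Mh) T S' h = filt Mh (2 * T) S' h := hMh.filt_two T S'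
  refine ⟨x, ?_⟩
  set Ψ : V × Fin k → ℝ := fun z => (massG M n / S) * filt Mh (2 * T) S' (seedF Mh x) z with hΨ
  set g1 : V × Fin k → ℝ := fun y => Ψ y - filt (two Mh) T S' G₀ y with hg1
  set g2 : V × Fin k → ℝ := filt (two Mh) T S' (G₀ - lab1 a) with hg2
  set g3 : V × Fin k → ℝ := filt (two Mh) T S' (lab1 a) - lab1 a with hg3
  have hdec : (fun y => walk Mh Ψ y - walk Mh (lab1 a) y) =
      fun y => walk Mh g1 y + walk Mh g2 y + walk Mh g3 y := by
    have e1 : Ψ = fun z => (fun z => g1 z + g2 z) z + (fun z => g3 z + lab1 a z) z := by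
      funext z
      simp only [hg1, hg2, hg3]
      rw [filt_sub]
      simp only [Pi.sub_apply]
      ring
    have e2 : walk Mh Ψ = fun y => (walk Mh g1 y + walk Mh g2 y) +
        (walk Mh g3 y + walk Mh (lab1 a) y) := by
      rw [e1, walk_add', walk_add', walk_add']
    rw [e2]
    funext y
    ring
  rw [hdec]
  have t0 := nrm_three h2Mh (walk Mh g1) (walk Mh g2) (walk Mh g3)
  rw [hMh.nrm_two, hMh.nrm_two, hMh.nrm_two, hMh.nrm_two] at t0
  refine t0.trans ?_
  have t1 : nrm Mh (walk Mh g1) ≤ K * S' ^ 2 / S * tot M := by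
    refine (hMh.nrm_walk_le g1).trans (le_trans (le_of_eq ?_) h1)
    congr 1
    funext y
    simp only [hg1, hΨ, hf]
  have t2 : nrm Mh (walk Mh g2) ≤ 1 / n * tot M := by
    refine (hMh.nrm_walk_le g2).trans ?_
    have := h2Mh.nrm_filt_le T S' (G₀ - lab1 a)
    rw [hMh.nrm_two, hMh.nrm_two] at this
    exact this.trans h2
  have t3 : nrm Mh (walk Mh g3) ≤ (θ + Real.exp (-(2 * (S' / R : ℝ)))) * tot M := by
    rw [← hMh.Q_two]
    have := Q_sub_filt_le h2Mh T S' R hθ hT (lab1 a)
    rw [nrm_lab1 hproj2, hM.tot_two] at this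
    exact this
  linarith

end Sample

/-! ### The lists -/

section Lists

variable {V : Type*} [DecidableEq V] {k : ℕ}

/-- degrees in the label extended graph -/
theorem deg_lift3 [Fintype V] (C : List (Con V k)) (u : V) (i : Fin k) :
    deg (form3 (lift C)) (u, i) = deg (form3 (base C)) u :=
  deg_lifted (proj_form3 C) u i

/-- the walk applied to a labeling -/
theorem deg_mul_walk_lab [Fintype V] (C : List (Con V k)) (a : V → Fin k) (u : V) :
    deg (form3 (base C)) u * walk (form3 (lift C)) (lab1 a) (u, a u) =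
      (C.map fun c => if a c.2.1 = c.2.2 (a c.1) then
        ((if u = c.1 then 1 else 0) + (if u = c.2.1 then 1 else 0) : ℝ) else 0).sum := by
  rw [← deg_lift3 C u (a u), (sym_form3 (lift C)).deg_mul_walk, sum_form3_mul, sum_map_lift]
  congr 1
  refine List.map_congr_left fun c _ => ?_
  rw [sum_add_distrib]
  have e1 : ∑ l : Fin k, (if (u, a u) = ((c.1, l), (c.2.1, c.2.2 l)).1 then
      lab1 a ((c.1, l), (c.2.1, c.2.2 l)).2 else (0 : ℝ)) =
      if a c.2.1 = c.2.2 (a c.1) then (if u = c.1 then 1 else 0) else 0 := by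
    simp only [lab1, Prod.mk.injEq]
    by_cases hu : u = c.1
    · subst hu
      simp only [true_and, if_true]
      rw [sum_ite_eq]
      simp only [mem_univ, if_true]
      exact if_congr eq_comm rfl rfl
    · simp [hu]
  have e2 : ∑ l : Fin k, (if (u, a u) = ((c.1, l), (c.2.1, c.2.2 l)).2 then
      lab1 a ((c.1, l), (c.2.1, c.2.2 l)).1 else (0 : ℝ)) =
      if a c.2.1 = c.2.2 (a c.1) then (if u = c.2.1 then 1 else 0) else 0 := by
    simp only [lab1, Prod.mk.injEq]
    by_cases hu : u = c.2.1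
    · subst hu
      simp only [true_and, if_true]
      have : ∀ l : Fin k, (if a c.2.1 = c.2.2 l then (if l = a c.1 then (1 : ℝ) else 0) else 0) =
          if l = a c.1 then (if a c.2.1 = c.2.2 (a c.1) then 1 else 0) else 0 := by
        intro l
        by_cases hl : l = a c.1
        · subst hl; simp
        · simp [hl]
      simp_rw [this]
      rw [sum_ite_eq']
      simp only [mem_univ, if_true]
    · simp [hu]
  rw [e1, e2]
  by_cases h : a c.2.1 = c.2.2 (a c.1)
  · simp only [if_pos h]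
  · simp only [if_neg h, add_zero]

/-- scores of a labeling after a step: a subdistribution -/
theorem sum_walk_lab_le [Fintype V] (C : List (Con V k)) (a : V → Fin k) (u : V) :
    ∑ i, walk (form3 (lift C)) (lab1 a) (u, i) ≤ 1 := by
  have h1 : ∑ i, walk (form3 (lift C)) (lab1 a) (u, i) = walk (form3 (base C)) (fun _ => 1) u := by
    unfold walk
    simp_rw [deg_lift3]
    rw [← sum_div]
    congr 1
    rw [sum_comm, Fintype.sum_prod_type]
    refine sum_congr rfl fun v _ => ?_
    have e : ∀ j, ∑ i, form3 (lift C) (u, i) (v, j) * lab1 a (v, j) =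
        form3 (base C) u v * lab1 a (v, j) := by
      intro j
      rw [← sum_mul]
      congr 1
      rw [(sym_form3 (base C)).symm, ← proj_form3 C v j u]
      exact sum_congr rfl fun i _ => (sym_form3 (lift C)).symm _ _
    simp_rw [e]
    rw [← mul_sum]
    simp [lab1]
  rw [h1]
  unfold walk
  refine div_le_one_of_le₀ ?_ ((sym_form3 (base C)).deg_nonneg u)
  simp [deg]

theorem sum_sq_walk_lab_le [Fintype V] (C : List (Con V k)) (a : V → Fin k) (u : V) :
    ∑ i, walk (form3 (lift C)) (lab1 a) (u, i) ^ 2 ≤ 1 := by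
  have h0 : ∀ i, 0 ≤ walk (form3 (lift C)) (lab1 a) (u, i) := fun i =>
    (sym_form3 (lift C)).walk_nonneg (fun y => by unfold lab1; split_ifs <;> norm_num) _
  have h1 := sum_walk_lab_le C a u
  have h2 : ∑ i, walk (form3 (lift C)) (lab1 a) (u, i) ^ 2 ≤
      (∑ i, walk (form3 (lift C)) (lab1 a) (u, i)) ^ 2 :=
    sum_sq_le_sq_sum_of_nonneg fun i _ => h0 i
  have h3 : 0 ≤ ∑ i, walk (form3 (lift C)) (lab1 a) (u, i) := sum_nonneg fun i _ => h0 i
  nlinarith

omit [DecidableEq V] in
theorem sat3_cast (C : List (Con V k)) (a : V → Fin k) :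
    (sat3 C a : ℝ) = (C.map fun c => if a c.2.1 = c.2.2 (a c.1) then (1 : ℝ) else 0).sum := by
  unfold sat3
  induction C with
  | nil => simp
  | cons c C ih =>
    rw [List.countP_cons, List.map_cons, List.sum_cons]
    push_cast
    rw [ih]
    by_cases h : a c.2.1 = c.2.2 (a c.1)
    · simp [h, add_comm]
    · simp [h]

/-- the value of the lists defined by approximate scores -/
theorem val3_ge [Fintype V] (C : List (Con V k)) (a : V → Fin k) (ψ : V × Fin k → ℝ)
    {t τ : ℝ} (ht : 0 < t) (ht1 : t ≤ 1) {l : ℕ} (hl : 4 ≤ l * t ^ 2)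
    (hψ : nrm (form3 (lift C)) (fun y => ψ y - walk (form3 (lift C)) (lab1 a) y) ≤
      τ * tot (form3 (base C))) (A : V → Finset (Fin k)) (hA : ∀ u i, i ∈ A u ↔ t ≤ ψ (u, i)) :
    (sat3 C a : ℝ) ≤ val3 l C A + (4 * t + 2 * τ / t ^ 2) * C.length := by
  classical
  set σ : V × Fin k → ℝ := walk (form3 (lift C)) (lab1 a) with hσ
  set D : V → ℝ := deg (form3 (base C)) with hD
  have hD0 : ∀ u, 0 ≤ D u := (sym_form3 (base C)).deg_nonneg
  -- local error
  let er : V → ℝ := fun u => ∑ i, (ψ (u, i) - σ (u, i)) ^ 2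
  have her0 : ∀ u, 0 ≤ er u := fun u => sum_nonneg fun i _ => sq_nonneg _
  have hN : nrm (form3 (lift C)) (fun y => ψ y - σ y) = ∑ u, D u * er u := by
    unfold nrm
    rw [Fintype.sum_prod_type]
    refine sum_congr rfl fun u _ => ?_
    simp_rw [deg_lift3]
    rw [← mul_sum]
  -- bad vertices
  let b1 : V → ℝ := fun u => if σ (u, a u) < 2 * t then 1 else 0
  let b2 : V → ℝ := fun u => if (2 * t ≤ σ (u, a u) ∧ ψ (u, a u) < t) ∨ l < (A u).card
    then 1 else 0
  have hb1 : ∀ u, 0 ≤ b1 u := fun u => by simp only [b1]; split_ifs <;> norm_num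
  have hb2 : ∀ u, 0 ≤ b2 u := fun u => by simp only [b2]; split_ifs <;> norm_num
  have hb2' : ∀ u, b2 u ≤ er u / t ^ 2 := by
    intro u
    rw [le_div_iff₀ (by positivity)]
    simp only [b2]
    split_ifs with h
    · rw [one_mul]
      rcases h with ⟨h1, h2⟩ | h
      · have h3 : (ψ (u, a u) - σ (u, a u)) ^ 2 ≤ er u :=
          single_le_sum (f := fun i => (ψ (u, i) - σ (u, i)) ^ 2) (fun i _ => sq_nonneg _)
            (mem_univ _)
        nlinarith
      · have h1 : ((l : ℝ)) * t ^ 2 ≤ ∑ i, ψ (u, i) ^ 2 := by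
          calc (l : ℝ) * t ^ 2 ≤ ((A u).card : ℝ) * t ^ 2 :=
                mul_le_mul_of_nonneg_right (by exact_mod_cast h.le) (by positivity)
            _ = ∑ i ∈ A u, t ^ 2 := by rw [sum_const, nsmul_eq_mul]
            _ ≤ ∑ i ∈ A u, ψ (u, i) ^ 2 := sum_le_sum fun i hi => by
              have := (hA u i).1 hi
              exact pow_le_pow_left₀ ht.le this 2
            _ ≤ ∑ i, ψ (u, i) ^ 2 :=
              sum_le_sum_of_subset_of_nonneg (subset_univ _) fun i _ _ => sq_nonneg _
        have h2 : ∑ i, ψ (u, i) ^ 2 ≤ 2 * er u + 2 * ∑ i, σ (u, i) ^ 2 := by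
          simp only [er]
          rw [mul_sum, mul_sum, ← sum_add_distrib]
          refine sum_le_sum fun i _ => ?_
          nlinarith [sq_nonneg (ψ (u, i) - 2 * σ (u, i))]
        have h3 := sum_sq_walk_lab_le C a u
        rw [← hσ] at h3
        have h4 : 1 ≤ er u := by linarith
        have h5 : t ^ 2 ≤ 1 := pow_le_one₀ ht.le ht1
        linarith
    · rw [zero_mul]
      exact her0 u
  -- per constraint
  have hc : ∀ c ∈ C, (if a c.2.1 = c.2.2 (a c.1) then (1 : ℝ) else 0) ≤
      (pair3 l A c : ℝ) + ((if a c.2.1 = c.2.2 (a c.1) then (b1 c.1 + b1 c.2.1) else 0) +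
        (b2 c.1 + b2 c.2.1)) := by
    intro c _
    have hp : (0 : ℝ) ≤ pair3 l A c := Nat.cast_nonneg _
    by_cases hs : a c.2.1 = c.2.2 (a c.1)
    · rw [if_pos hs, if_pos hs]
      by_cases h1 : σ (c.1, a c.1) < 2 * t
      · have : b1 c.1 = 1 := by simp only [b1]; rw [if_pos h1]
        have := hb1 c.2.1; have := hb2 c.1; have := hb2 c.2.1
        linarith
      by_cases h2 : σ (c.2.1, a c.2.1) < 2 * t
      · have : b1 c.2.1 = 1 := by simp only [b1]; rw [if_pos h2]
        have := hb1 c.1; have := hb2 c.1; have := hb2 c.2.1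
        linarith
      by_cases h3 : (2 * t ≤ σ (c.1, a c.1) ∧ ψ (c.1, a c.1) < t) ∨ l < (A c.1).card
      · have : b2 c.1 = 1 := by simp only [b2]; rw [if_pos h3]
        have := hb1 c.1; have := hb1 c.2.1; have := hb2 c.2.1
        linarith
      by_cases h4 : (2 * t ≤ σ (c.2.1, a c.2.1) ∧ ψ (c.2.1, a c.2.1) < t) ∨ l < (A c.2.1).card
      · have : b2 c.2.1 = 1 := by simp only [b2]; rw [if_pos h4]
        have := hb1 c.1; have := hb1 c.2.1; have := hb2 c.1
        linarith
      -- good constraint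
      push Not at h1 h2 h3 h4
      have g1 : a c.1 ∈ A c.1 := (hA _ _).2 (h3.1 h1)
      have g2 : a c.2.1 ∈ A c.2.1 := (hA _ _).2 (h4.1 h2)
      have g3 : 1 ≤ pair3 l A c := by
        unfold pair3
        rw [if_pos ⟨h3.2, h4.2⟩]
        refine Finset.card_pos.2 ⟨a c.1, ?_⟩
        rw [mem_filter]
        refine ⟨mem_univ _, g1, ?_, fun h => ?_⟩
        · rw [← hs]; exact g2
        · rw [← hs, h]
      have g4 : (1 : ℝ) ≤ pair3 l A c := by exact_mod_cast g3
      have := hb1 c.1; have := hb1 c.2.1; have := hb2 c.1; have := hb2 c.2.1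
      linarith
    · rw [if_neg hs, if_neg hs]
      have := hb2 c.1; have := hb2 c.2.1
      linarith
  have hsat : (sat3 C a : ℝ) = (C.map fun c => if a c.2.1 = c.2.2 (a c.1) then (1 : ℝ)
      else 0).sum := by
    exact sat3_cast C a
  have hval : (val3 l C A : ℝ) = (C.map fun c => (pair3 l A c : ℝ)).sum := by
    unfold val3
    rw [Nat.cast_list_sum, List.map_map]
    rfl
  have hS1 : (C.map fun c => if a c.2.1 = c.2.2 (a c.1) then (b1 c.1 + b1 c.2.1) else 0).sum =
      ∑ u, D u * σ (u, a u) * b1 u := by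
    have e1 : ∀ u, D u * σ (u, a u) * b1 u = (C.map fun c => (if a c.2.1 = c.2.2 (a c.1) then
        ((if u = c.1 then 1 else 0) + (if u = c.2.1 then 1 else 0) : ℝ) else 0) * b1 u).sum := by
      intro u
      rw [hD, hσ, deg_mul_walk_lab, ← List.sum_map_mul_right]
    simp_rw [e1]
    rw [sum_list_map_comm]
    congr 1
    refine List.map_congr_left fun c _ => ?_
    by_cases h : a c.2.1 = c.2.2 (a c.1)
    · simp only [if_pos h, add_mul]
      rw [sum_add_distrib]
      simp
    · simp [h]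
  have hS2 : (C.map fun c => (b2 c.1 + b2 c.2.1)).sum = ∑ u, D u * b2 u := by
    have := sum_deg_form3 (base C) b2
    rw [← hD] at this
    rw [this]
    unfold base
    rw [List.map_map]
    rfl
  have hm : ∑ u, D u = 2 * C.length := by
    have := tot_form3 (base C)
    rw [show (base C).length = C.length by simp [base]] at this
    exact this
  have hB1 : ∑ u, D u * σ (u, a u) * b1 u ≤ 4 * t * C.length := by
    have e1 : ∀ u, D u * σ (u, a u) * b1 u ≤ 2 * t * D u := by
      intro u
      simp only [b1]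
      split_ifs with h
      · have := hD0 u
        nlinarith
      · have := hD0 u
        nlinarith
    refine (sum_le_sum fun u _ => e1 u).trans ?_
    rw [← mul_sum, hm]
    linarith
  have hB2 : ∑ u, D u * b2 u ≤ 2 * τ / t ^ 2 * C.length := by
    have e1 : ∀ u, D u * b2 u ≤ D u * er u / t ^ 2 := by
      intro u
      rw [mul_div_assoc]
      exact mul_le_mul_of_nonneg_left (hb2' u) (hD0 u)
    refine (sum_le_sum fun u _ => e1 u).trans ?_
    rw [← sum_div, ← hN, div_le_iff₀ (by positivity)]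
    refine hψ.trans ?_
    have : tot (form3 (base C)) = 2 * C.length := hm
    rw [this]
    refine le_of_eq ?_
    field_simp
  have hfin := List.sum_le_sum hc
  rw [List.sum_map_add, List.sum_map_add, hS1, hS2, ← hsat, ← hval] at hfin
  linarith

/-- total degree of the heavy vertices -/
def w0N3 [Fintype V] (E : List (V × V)) (n : ℕ) : ℕ :=
  ∑ v, if 0 < degN3 E v ∧ ∑ x, degN3 E x ≤ n ^ 2 * degN3 E v then degN3 E v else 0

theorem sum_degN3_cast [Fintype V] (E : List (V × V)) :
    ((∑ x, degN3 E x : ℕ) : ℝ) = tot (form3 E) := by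
  rw [Nat.cast_sum]
  exact sum_congr rfl fun x _ => degN3_cast E x

theorem w0N3_cast [Fintype V] (E : List (V × V)) (n : ℕ) :
    (w0N3 E n : ℝ) = massG (form3 E) n := by
  unfold w0N3 massG
  rw [Nat.cast_sum]
  refine sum_congr rfl fun v _ => ?_
  have e1 : (0 < deg (form3 E) v ∧ tot (form3 E) ≤ (n : ℝ) ^ 2 * deg (form3 E) v) ↔
      (0 < degN3 E v ∧ ∑ x, degN3 E x ≤ n ^ 2 * degN3 E v) := by
    rw [← degN3_cast, ← sum_degN3_cast]
    norm_cast
  by_cases h : 0 < degN3 E v ∧ ∑ x, degN3 E x ≤ n ^ 2 * degN3 E v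
  · rw [if_pos h, if_pos (e1.2 h), degN3_cast]
  · rw [if_neg h, if_neg fun h' => h (e1.1 h'), Nat.cast_zero]

/-- the value of a leaf -/
theorem leaf_value [Fintype V] {C : List (Con V k)} (hC : C ≠ []) {n R T2 S S' s : ℕ} {K θ : ℝ}
    (hK : 0 ≤ K) (hθ : 0 ≤ θ) (hT : 1 / (R : ℝ) ≤ θ ^ T2) (hcard : Fintype.card V ≤ n)
    (hS : 0 < S)
    (hleaf : ∀ v, 0 < deg (form3 (base C)) v →
      tot (form3 (base C)) ≤ n ^ 2 * deg (form3 (base C)) v →
      nrm (form3 (base C)) (heat (form3 (base C)) v (2 * T2)) * tot (form3 (base C)) ≤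
        K * deg (form3 (base C)) v ^ 2)
    (a : V → Fin k) (hsat : C.length ≤ 2 ^ (s + 2) * sat3 C a)
    (hτ : 3 * (K * S' ^ 2 / S + 1 / n + (θ + Real.exp (-(2 * (S' / R : ℝ))))) ≤
      1 / 2 ^ (3 * s + 15)) :
    ∃ x : Fin S → V × Fin k, ∀ A : V → Finset (Fin k),
      (∀ u i, i ∈ A u ↔ 1 / 2 ^ (s + 5) ≤ (w0N3 (base C) n : ℝ) / S *
        walk (form3 (lift C)) (filt (form3 (lift C)) (2 * T2) S'
          (seedSum (form3 (lift C)) x)) (u, i)) →
      C.length ≤ 2 ^ (s + 4) * val3 (2 ^ (3 * s + 18)) C A := by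
  have hm : tot (form3 (base C)) = 2 * C.length := by
    have := tot_form3 (base C)
    rwa [show (base C).length = C.length by simp [base]] at this
  have hC0 : (0 : ℝ) < C.length := by exact_mod_cast List.length_pos_of_ne_nil hC
  have htot : 0 < tot (form3 (base C)) := by rw [hm]; linarith
  obtain ⟨x, hx⟩ := sample3 (sym_form3 (base C)) (sym_form3 (lift C)) (proj_form3 C) (n := n)
    (R := R) (T := T2) (S := S) (S' := S') hK hθ hT hcard hS htot hleaf a
  refine ⟨x, fun A hA => ?_⟩
  set t : ℝ := 1 / 2 ^ (s + 5) with ht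
  have ht0 : 0 < t := by positivity
  have ht1 : t ≤ 1 := by
    rw [ht, div_le_one (by positivity)]
    exact one_le_pow₀ (by norm_num)
  have hl : (4 : ℝ) ≤ ((2 ^ (3 * s + 18) : ℕ) : ℝ) * t ^ 2 := by
    have e1 : ((2 ^ (3 * s + 18) : ℕ) : ℝ) * t ^ 2 = 2 ^ (s + 8) := by
      rw [ht]
      push_cast
      rw [div_pow, one_pow, ← pow_mul, mul_one_div, div_eq_iff (by positivity), ← pow_add]
      congr 1
      ring
    rw [e1]
    calc (4 : ℝ) = 2 ^ 2 := by norm_num
      _ ≤ 2 ^ (s + 8) := pow_le_pow_right₀ (by norm_num) (by omega)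
  set ψ : V × Fin k → ℝ := fun y => walk (form3 (lift C)) (fun z => (massG (form3 (base C)) n / S) *
    filt (form3 (lift C)) (2 * T2) S' (seedF (form3 (lift C)) x) z) y with hψ
  have hψ2 : ∀ y, ψ y = (w0N3 (base C) n : ℝ) / S *
      walk (form3 (lift C)) (filt (form3 (lift C)) (2 * T2) S'
        (seedSum (form3 (lift C)) x)) y := by
    intro y
    rw [w0N3_cast]
    have h1 := map_smul (walkL (form3 (lift C))) (massG (form3 (base C)) n / S)
      (filt (form3 (lift C)) (2 * T2) S' (seedF (form3 (lift C)) x))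
    rw [walkL_apply, walkL_apply] at h1
    exact congrFun h1 y
  have hτ2 : 3 * (K * S' ^ 2 / S + 1 / n + (θ + Real.exp (-(2 * (S' / R : ℝ))))) ≤ t ^ 3 := by
    refine hτ.trans (le_of_eq ?_)
    rw [ht, div_pow, one_pow, ← pow_mul]
    congr 2
    ring
  have h1 := val3_ge C a ψ ht0 ht1 hl (hx.trans
    (mul_le_mul_of_nonneg_right hτ2 htot.le)) A (fun u i => by rw [hA, hψ2])
  have h2 : 2 * t ^ 3 / t ^ 2 = 2 * t := by
    field_simp
  rw [h2] at h1
  have h3 : (C.length : ℝ) * (8 * t) ≤ sat3 C a := by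
    have h4 : (C.length : ℝ) ≤ 2 ^ (s + 2) * sat3 C a := by exact_mod_cast hsat
    have h5 : (2 : ℝ) ^ (s + 2) * (8 * t) = 1 := by
      rw [ht]
      field_simp
      ring
    calc (C.length : ℝ) * (8 * t) ≤ 2 ^ (s + 2) * sat3 C a * (8 * t) :=
          mul_le_mul_of_nonneg_right h4 (by positivity)
      _ = (2 ^ (s + 2) * (8 * t)) * sat3 C a := by ring
      _ = _ := by rw [h5, one_mul]
  have h6 : (C.length : ℝ) * (2 * t) ≤ val3 (2 ^ (3 * s + 18)) C A := by linarith
  have h7 : (C.length : ℝ) ≤ 2 ^ (s + 4) * val3 (2 ^ (3 * s + 18)) C A := by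
    have h8 : (2 : ℝ) ^ (s + 4) * (2 * t) = 1 := by
      rw [ht]
      field_simp
      ring
    calc (C.length : ℝ) = (2 ^ (s + 4) * (2 * t)) * C.length := by rw [h8, one_mul]
      _ = 2 ^ (s + 4) * (C.length * (2 * t)) := by ring
      _ ≤ _ := mul_le_mul_of_nonneg_left h6 (by positivity)
  exact_mod_cast h7

end Lists

end Vale.Agent.P325.V3
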