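import Vale.Agent.P325.V3.Core3
import Vale.Agent.P325.V3.Leaf3

/-!
# The leaves are good
-/

namespace Vale.Agent.P325.V3

open Finset Vale.Agent.P325 Vale.Agent.P325.Alg Alg3

variable {V : Type*} {k N : ℕ} (e : V ≃ Fin N) [Fintype V] [DecidableEq V]

theorem mass3_eq (E : List (V × V)) (n : ℕ) : mass3 E n = w0N3 E n := by
  unfold mass3 w0N3
  rw [sum_degN3]

/-- the analysis of the leaves, from the decay of the walks -/
theorem leafOK_of (P : Num3) {K θ : ℝ} (hK : 0 ≤ K) (hθ : 0 ≤ θ)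
    (hT : 1 / (P.r : ℝ) ≤ θ ^ P.T2) (hcard : Fintype.card V ≤ P.n) (hS : 0 < P.S)
    (hcert : (N * k) ^ P.S ≤ P.B)
    (hτ : 3 * (K * P.S' ^ 2 / P.S + 1 / P.n + (θ + Real.exp (-(2 * (P.S' / P.r : ℝ))))) ≤
      1 / 2 ^ (3 * P.s + 15))
    (hdec : ∀ C : List (Con V k), Leaf3 P C → ∀ v, 0 < deg (form3 (base C)) v →
      tot (form3 (base C)) ≤ P.n ^ 2 * deg (form3 (base C)) v →
      nrm (form3 (base C)) (heat (form3 (base C)) v (2 * P.T2)) * tot (form3 (base C)) ≤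
        K * deg (form3 (base C)) v ^ 2) : LeafOK (k := k) e P := by
  intro C a hC hs
  by_cases hne : C = []
  · rw [hne]
    exact Nat.zero_le _
  obtain ⟨x, hx⟩ := leaf_value hne hK hθ hT hcard hS (hdec C hC) a hs hτ
  refine (hx _ fun u i => ?_).trans
    (Nat.mul_le_mul_left _ (le_leafV e P C hS hcert x))
  rw [mem_filter, mass3_eq]
  exact ⟨fun h => h.2, fun h => ⟨mem_univ _, h⟩⟩

end Vale.Agent.P325.V3
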