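import Vale.Agent.P325.V3.Core3
import Vale.Agent.P325.Main

/-!
# Correctness of the algorithm for small soundness
-/

namespace Vale.Agent.P325.V3

open Vale.Agent.P325 Vale.Agent.P325.Alg Alg3

/-- what is needed of the numbers of a run -/
structure RunFacts3 (c : Cst3) (n ρ B : ℕ) : Prop where
  h2B : 2 * n < B
  hB1 : 1 < B
  hρB : ρ < B
  hBc : c.Bc < Nat.size n
  leaf : ∀ m ≤ n, LeafOK (k := c.k) (Equiv.refl (Fin m)) (nums3 c n ρ B)

/-- what is needed of the constants -/
structure CFacts3 (c : Cst3) : Prop where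
  hk : 2 ≤ c.k
  hq : 1 ≤ c.q
  hn0 : 1 ≤ c.n0
  hT0 : 2 ^ c.Bc * (c.s + 1) ≤ c.T0
  facts : ∀ n ρ B, c.n0 ≤ n → n ≤ ρ ^ (4 * c.q) → ρ ≤ n → (∀ ρ' < ρ, ρ' ^ (4 * c.q) < n) →
    c.C * ρ ^ 4 < Nat.size B → RunFacts3 c n ρ B

theorem sizeL3_eq (c : Cst3) (G : Inst c.k) : sizeL3 c (codeL G.cons) = G.size + c.n0 := by
  unfold sizeL3
  rw [parseM_eq]
  rfl

/-- if the padding is long enough, there is an answer -/
theorem main3_some {c : Cst3} (hc : CFacts3 c) (G : Inst c.k) {r j : ℕ}
    (h1 : G.size + c.n0 ≤ r ^ (4 * c.q)) (h2 : ∀ r' < r, r' ^ (4 * c.q) < G.size + c.n0)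
    (h3 : r ≤ G.size + c.n0) (hj : c.C * r ^ 4 ≤ j) :
    main3 c (codeL G.cons) (2 ^ j) ≠ none := by
  have hB : c.C * r ^ 4 < Nat.size (2 ^ j) := by
    rw [Nat.size_pow]
    omega
  have hf := hc.facts _ r (2 ^ j) (Nat.le_add_left _ _) h1 h3 h2 hB
  unfold main3
  rw [sizeL3_eq, find_range h1 h2 hf.hρB]
  simp only
  rw [if_pos hB]
  simp

/-- a labeling for an instance of value at least `2 ^ (-s)` -/
theorem exists_sat3 {k : ℕ} (hk : 0 < k) (G : Inst k) {s : ℕ} (h : 1 / 2 ^ s ≤ G.val) :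
    ∃ a : Fin G.n → Fin k, G.cons.length ≤ 2 ^ s * sat3 G.cons a := by
  have : Nonempty (Fin k) := ⟨⟨0, hk⟩⟩
  obtain ⟨a, ha⟩ := exists_eq_ciSup_of_finite (f := fun a : Fin G.n → Fin k =>
    (G.sat a : ℝ) / G.cons.length)
  refine ⟨a, ?_⟩
  have h1 : 1 / 2 ^ s ≤ (G.sat a : ℝ) / G.cons.length := h.trans (le_of_eq ha.symm)
  rw [le_div_iff₀ (length_pos G), div_mul_eq_mul_div, one_mul,
    div_le_iff₀ (by positivity)] at h1
  have h2 : (G.cons.length : ℝ) ≤ 2 ^ s * G.sat a := by linarith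
  exact_mod_cast h2

theorem sat3_le_val {k : ℕ} (G : Inst k) (a : Fin G.n → Fin k) :
    (sat3 G.cons a : ℝ) ≤ G.val * G.cons.length := by
  rw [← div_le_iff₀ (length_pos G)]
  exact le_ciSup (f := fun a : Fin G.n → Fin k => (G.sat a : ℝ) / G.cons.length)
    (Set.finite_range _).bddAbove a

/-- correctness -/
theorem main3_spec {c : Cst3} (hc : CFacts3 c) (G : Inst c.k) {B : ℕ}
    {ans : Bool} (h : main3 c (codeL G.cons) B = some ans) :
    (1 / 2 ^ c.s ≤ G.val → ans = true) ∧
      (G.val ≤ 1 / 2 ^ (9 * c.s + 44 + 2 * c.Bc) → ans = false) := by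
  have hn : 1 ≤ G.size + c.n0 := by have := hc.hn0; omega
  unfold main3 at h
  rw [sizeL3_eq] at h
  rcases hf : (List.range B).find? (fun r => decide (G.size + c.n0 ≤ r ^ (4 * c.q))) with _ | r
  · rw [hf] at h; simp at h
  rw [hf] at h
  simp only at h
  split_ifs at h with hB
  rw [List.find?_eq_some_iff_append] at hf
  obtain ⟨hf1, as, bs, hf2, hf3⟩ := hf
  rw [decide_eq_true_eq] at hf1
  have hr : r < B := by
    have : r ∈ List.range B := by rw [hf2]; simp
    exact List.mem_range.1 this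
  have has : as = List.range r := by
    have h4 : as = (List.range B).take as.length := by rw [hf2]; simp
    have h5 : (List.range B)[as.length]? = some r := by rw [hf2]; simp
    have h6 : as.length = r := by
      rw [List.getElem?_range] at h5
      · simpa using h5
      · have : as.length < (List.range B).length := by rw [hf2]; simp
        simpa using this
    rw [h4, List.take_range, h6, min_eq_left hr.le]
  have hmin : ∀ r' < r, r' ^ (4 * c.q) < G.size + c.n0 := by
    intro r' hr'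
    have h7 := hf3 r' (by rw [has]; exact List.mem_range.2 hr')
    simpa using h7
  have hrn : r ≤ G.size + c.n0 := by
    by_contra hcon
    push Not at hcon
    have := hmin _ hcon
    have h8 : G.size + c.n0 ≤ (G.size + c.n0) ^ (4 * c.q) :=
      Nat.le_self_pow (by have := hc.hq; omega) _
    omega
  have hF := hc.facts _ r B (Nat.le_add_left _ _) hf1 hrn hmin hB
  have hkpos : 0 < c.k := by have := hc.hk; omega
  have hnB : G.n ≤ B := by
    have := hF.h2B
    unfold Inst.size at this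
    omega
  have hN : min ((codeL G.cons).headD 0) B = G.n := min_eq_left hnB
  rw [hN, parseC_eq, min_eq_left hr.le, Option.some.injEq] at h
  set P := nums3 c (G.size + c.n0) r B with hP
  have hlen : G.cons.length ≤ G.size + c.n0 := by
    unfold Inst.size
    omega
  have h2B : 2 * G.cons.length < P.B := by
    have := hF.h2B
    show 2 * G.cons.length < B
    omega
  have hCL : G.cons.length ≤ 2 ^ P.L := hlen.trans (Nat.lt_size_self _).le
  have hr1 : 1 ≤ P.r := Nat.le_add_left _ _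
  have hBcL : P.Bc < P.L := hF.hBc
  refine ⟨fun hv => ?_, fun hv => ?_⟩
  · obtain ⟨a, ha⟩ := exists_sat3 hkpos G hv
    rw [← h]
    refine run3_complete (Equiv.refl (Fin G.n)) P hr1 (by omega) hBcL G.cons G.ne h2B hF.hB1 hCL
      hc.hT0 (hF.leaf G.n ?_) a ha
    unfold Inst.size
    omega
  · by_contra hne
    have htrue : run3 c.k G.n P c.T0 (conL (Equiv.refl (Fin G.n)) G.cons) = true := by
      rw [h]
      cases ans
      · exact absurd rfl hne
      · rfl
    have : NeZero c.k := ⟨hkpos.ne'⟩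
    obtain ⟨a, ha⟩ := run3_sound (Equiv.refl (Fin G.n)) P hr1 G.cons h2B hF.hB1 htrue
    have ha' : (G.cons.length : ℝ) ≤ 2 ^ (9 * c.s + 43 + 2 * c.Bc) * sat3 G.cons a := by
      exact_mod_cast ha
    have hl := length_pos G
    have h1 : (sat3 G.cons a : ℝ) ≤ 1 / 2 ^ (9 * c.s + 44 + 2 * c.Bc) * G.cons.length :=
      (sat3_le_val G a).trans (mul_le_mul_of_nonneg_right hv hl.le)
    have h2 : (2 : ℝ) ^ (9 * c.s + 43 + 2 * c.Bc) * sat3 G.cons a ≤
        2 ^ (9 * c.s + 43 + 2 * c.Bc) * (1 / 2 ^ (9 * c.s + 44 + 2 * c.Bc) * G.cons.length) :=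
      mul_le_mul_of_nonneg_left h1 (by positivity)
    have h3 : (2 : ℝ) ^ (9 * c.s + 43 + 2 * c.Bc) *
        (1 / 2 ^ (9 * c.s + 44 + 2 * c.Bc) * G.cons.length) = G.cons.length / 2 := by
      rw [show 9 * c.s + 44 + 2 * c.Bc = (9 * c.s + 43 + 2 * c.Bc) + 1 by ring, pow_succ]
      field_simp
    rw [h3] at h2
    linarith

end Vale.Agent.P325.V3
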