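import Vale.Agent.P325.V3.Params3
import Vale.Agent.P325.V3.Main3
import Vale.Agent.P325.V3.LeafOK3
import Vale.Agent.P325.V3.AlgPT3
import Vale.Agent.P325.V3.Both3

/-!
# The algorithm for small soundness: the final theorem
-/

namespace Vale.Agent.P325.V3

open Vale.Agent.Lib.PolyTime Vale.Agent.P325.Alg Vale.Agent.P325.V2 Alg3

/-- the constants are good -/
theorem cfacts3 {k q s : ℕ} (hk : 2 ≤ k) (hq : 1 ≤ q) : CFacts3 (mkCst3 k q s) where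
  hk := hk
  hq := hq
  hn0 := Nat.one_le_two_pow
  hT0 := le_rfl
  facts := fun n ρ B h1 h2 h3 _ h5 => by
    have hf := pfacts3 hq h1 h2 h3 h5
    refine ⟨hf.two_n_lt, hf.one_lt, hf.rho_lt, hf.bc_lt, fun m hm => ?_⟩
    refine leafOK_of (Equiv.refl (Fin m)) (nums3 (mkCst3 k q s) n ρ B)
      (K := 64 * ((nums3 (mkCst3 k q s) n ρ B).r : ℝ) ^ 2) (by positivity) (by positivity)
      hf.hT ?_ hf.s_pos ?_ hf.hτ ?_
    · rw [Fintype.card_fin]
      exact hm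
    · refine le_trans (Nat.pow_le_pow_left (Nat.mul_le_mul_right _ hm) _) hf.cert
    · intro C hC v hv hvn
      exact decay3 hf.hq1 rfl hf.hnr hf.bc_lt.le hf.hBq hf.hTd hC hv hvn

/-- the algorithm decides the gap -/
theorem gap3 {c : Cst3} (hc : CFacts3 c) :
    Gap c.k c.q c.C c.n0 (1 - 1 / 2 ^ (9 * c.s + 44 + 2 * c.Bc)) (1 - 1 / 2 ^ c.s)
      (main3 c) where
  hq := hc.hq
  hn0 := hc.hn0
  pt := AlgPT.PT_main3 c
  some := fun G _ _ h1 h2 h3 h4 => main3_some hc G h1 h2 h3 h4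
  spec := fun G _ _ h => by
    rw [sub_sub_cancel, sub_sub_cancel]
    exact main3_spec hc G h

/-- algorithms for all completeness values `c` and exponents `α` -/
theorem exists_gap3 : ∃ C0 : ℝ, 0 < C0 ∧ ∀ (k : ℕ) (α c : ℝ), 2 ≤ k → 0 < α → α ≤ 1 → 0 < c →
    c ≤ 1 → ∃ (q C n0 : ℕ) (main : List ℕ → ℕ → Option Bool), 1 / (q : ℝ) ≤ α ∧
      Gap k q C n0 (1 - (c / 2) ^ (C0 * (1 + Real.log (1 / α)) / α)) (1 - c) main := by
  obtain ⟨C0, hC0, h⟩ := exists_params3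
  refine ⟨C0, hC0, fun k α c hk hα hα1 hc hc1 => ?_⟩
  obtain ⟨q, s, hq, hq1, hs, hδ⟩ := h c α _ hc hc1 hα hα1 le_rfl
  refine ⟨q, (mkCst3 k q s).C, (mkCst3 k q s).n0, main3 (mkCst3 k q s), hq1, ?_⟩
  refine Gap.mono (gap3 (cfacts3 hk hq)) ?_ ?_
  · have h1 : (c / 2) ^ (C0 * (1 + Real.log (1 / α)) / α) ≤
      1 / 2 ^ (9 * (mkCst3 k q s).s + 44 + 2 * (mkCst3 k q s).Bc) := hδ
    linarith
  · have h1 : 1 / 2 ^ (mkCst3 k q s).s ≤ c := hs
    linarith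

/-- the final statement -/
theorem result_both3 : ∃ C : ℝ, 0 < C ∧ ∀ (k : ℕ) (α c δ : ℝ), 2 ≤ k → 0 < α → α ≤ 1 →
    0 < c → c ≤ 1 → δ ≤ (c / 2) ^ (C * (1 + Real.log (1 / α)) / α) →
    SolvedIn (Inst.code : Inst k → List Bool) (fun G => G.size)
      (fun G => c ≤ G.val) (fun G => G.val ≤ δ) α ∧
    ∀ (L : Set (List Bool)) (f : List Bool → Inst k) (A b : ℝ), 0 < b →
      Nonempty (Turing.TM2ComputableInPolyTime (fun x : List Bool => x)
        (Inst.code : Inst k → List Bool) f) →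
      (∀ x, ((f x).size : ℝ) ≤ A * ((x.length : ℝ) + 1) ^ b) →
      (∀ x ∈ L, c ≤ (f x).val) → (∀ x ∉ L, (f x).val ≤ δ) →
      SolvedIn (fun x : List Bool => x) (fun x => (x.length : ℝ) + 1)
        (fun x => x ∈ L) (fun x => x ∉ L) (b * α) := by
  obtain ⟨C0, hC0, h⟩ := exists_gap3
  refine ⟨C0, hC0, fun k α c δ hk hα hα1 hc hc1 hδ => ?_⟩
  exact both3_of_gap (g := fun c α => (c / 2) ^ (C0 * (1 + Real.log (1 / α)) / α)) h k α c δ
    hk hα hα1 hc hc1 hδ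

end Vale.Agent.P325.V3
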