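import Vale.Agent.P325.V3.Defs3

/-!
# Rounding of lists of labels
-/

namespace Vale.Agent.P325.V3

open Finset Vale.Agent.P325

variable {V : Type*} [Fintype V] [DecidableEq V] {k : ℕ}

theorem card_pi_update (B : V → Finset (Fin k)) (u : V) (i : Fin k) :
    (Fintype.piFinset B).card =
      (B u).card * (Fintype.piFinset (Function.update B u {i})).card := by
  rw [Fintype.card_piFinset, Fintype.card_piFinset]
  have h1 : ∏ w, (Function.update B u {i} w).card =
      ∏ w ∈ univ \ {u}, (B w).card := by
    rw [← sdiff_union_of_subset (subset_univ ({u} : Finset V)), prod_union sdiff_disjoint]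
    rw [prod_singleton, Function.update_self, card_singleton, mul_one]
    have h2 : (univ \ {u} ∪ {u}) \ {u} = (univ \ {u} : Finset V) := by
      rw [sdiff_union_of_subset (subset_univ ({u} : Finset V))]
    rw [h2]
    refine prod_congr rfl fun w hw => ?_
    have hwu : w ≠ u := by
      rw [mem_sdiff, mem_singleton] at hw
      exact hw.2
    rw [Function.update_of_ne hwu]
  rw [h1, ← mul_prod_erase univ (fun w => (B w).card) (mem_univ u)]
  congr 1
  rw [sdiff_singleton_eq_erase]

theorem mem_pi_update {B : V → Finset (Fin k)} {u : V} {i : Fin k} (hi : i ∈ B u)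
    {a : V → Fin k} (ha : a ∈ Fintype.piFinset (Function.update B u {i})) :
    a ∈ Fintype.piFinset B ∧ a u = i := by
  rw [Fintype.mem_piFinset] at ha
  have h1 : a u = i := by
    have := ha u
    rwa [Function.update_self, mem_singleton] at this
  refine ⟨?_, h1⟩
  rw [Fintype.mem_piFinset]
  intro w
  by_cases hw : w = u
  · rw [hw, h1]; exact hi
  · have := ha w
    rwa [Function.update_of_ne hw] at this

/-- one constraint -/
theorem pair3_le (A A' : V → Finset (Fin k)) (l : ℕ)
    (hA' : ∀ v, (A v).Nonempty → (A v).card ≤ l → A' v = A v) (c : Con V k) :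
    pair3 l A c * (Fintype.piFinset A').card ≤
      l ^ 2 * ((Fintype.piFinset A').filter fun a => a c.2.1 = c.2.2 (a c.1)).card := by
  unfold pair3
  split_ifs with h
  · obtain ⟨hu, hv⟩ := h
    set I := univ.filter fun i : Fin k => i ∈ A c.1 ∧ c.2.2 i ∈ A c.2.1 ∧
      (c.1 = c.2.1 → c.2.2 i = i) with hI
    set P := Fintype.piFinset A' with hP
    have hmem : ∀ i ∈ I, i ∈ A c.1 ∧ c.2.2 i ∈ A c.2.1 ∧ (c.1 = c.2.1 → c.2.2 i = i) :=
      fun i hi => (mem_filter.1 hi).2
    -- the fibres
    have hfib : ∀ i ∈ I, P.card ≤ l ^ 2 *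
        (P.filter fun a => a c.1 = i ∧ a c.2.1 = c.2.2 i).card := by
      intro i hi
      obtain ⟨h1, h2, h3⟩ := hmem i hi
      have hAu : A' c.1 = A c.1 := hA' _ ⟨i, h1⟩ hu
      have hAv : A' c.2.1 = A c.2.1 := hA' _ ⟨_, h2⟩ hv
      have hiA : i ∈ A' c.1 := by rw [hAu]; exact h1
      by_cases hne : c.1 = c.2.1
      · rw [hP, card_pi_update A' c.1 i, hAu]
        have h4 : (Fintype.piFinset (Function.update A' c.1 {i})).card ≤
            (P.filter fun a => a c.1 = i ∧ a c.2.1 = c.2.2 i).card := by
          refine card_le_card fun a ha => ?_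
          obtain ⟨h5, h6⟩ := mem_pi_update hiA ha
          rw [mem_filter]
          refine ⟨h5, h6, ?_⟩
          rw [← hne, h6, h3 hne]
        calc (A c.1).card * (Fintype.piFinset (Function.update A' c.1 {i})).card ≤
            l * (P.filter fun a => a c.1 = i ∧ a c.2.1 = c.2.2 i).card := Nat.mul_le_mul hu h4
          _ ≤ l ^ 2 * (P.filter fun a => a c.1 = i ∧ a c.2.1 = c.2.2 i).card :=
            Nat.mul_le_mul_right _ (Nat.le_self_pow (by norm_num) l)
      · have hBv : Function.update A' c.1 {i} c.2.1 = A c.2.1 := by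
          rw [Function.update_of_ne (Ne.symm hne), hAv]
        have hjB : c.2.2 i ∈ Function.update A' c.1 {i} c.2.1 := by rw [hBv]; exact h2
        rw [hP, card_pi_update A' c.1 i, hAu,
          card_pi_update (Function.update A' c.1 {i}) c.2.1 (c.2.2 i), hBv]
        have h4 : (Fintype.piFinset (Function.update (Function.update A' c.1 {i}) c.2.1
            {c.2.2 i})).card ≤ (P.filter fun a => a c.1 = i ∧ a c.2.1 = c.2.2 i).card := by
          refine card_le_card fun a ha => ?_
          obtain ⟨h5, h6⟩ := mem_pi_update hjB ha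
          obtain ⟨h7, h8⟩ := mem_pi_update hiA h5
          rw [mem_filter]
          exact ⟨h7, h8, h6⟩
        calc (A c.1).card * ((A c.2.1).card * (Fintype.piFinset (Function.update
            (Function.update A' c.1 {i}) c.2.1 {c.2.2 i})).card) ≤
            l * (l * (P.filter fun a => a c.1 = i ∧ a c.2.1 = c.2.2 i).card) :=
              Nat.mul_le_mul hu (Nat.mul_le_mul hv h4)
          _ = _ := by ring
    have hsum : ∑ i ∈ I, (P.filter fun a => a c.1 = i ∧ a c.2.1 = c.2.2 i).card ≤
        (P.filter fun a => a c.2.1 = c.2.2 (a c.1)).card := by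
      rw [← card_biUnion]
      · refine card_le_card fun a ha => ?_
        rw [mem_biUnion] at ha
        obtain ⟨i, _, hi⟩ := ha
        rw [mem_filter] at hi ⊢
        refine ⟨hi.1, ?_⟩
        rw [hi.2.1]; exact hi.2.2
      · intro i _ j _ hij
        rw [Function.onFun, disjoint_left]
        intro a ha hb
        rw [mem_filter] at ha hb
        exact hij (ha.2.1.symm.trans hb.2.1)
    calc I.card * P.card = ∑ _i ∈ I, P.card := by rw [sum_const, smul_eq_mul]
      _ ≤ ∑ i ∈ I, l ^ 2 * (P.filter fun a => a c.1 = i ∧ a c.2.1 = c.2.2 i).card :=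
          sum_le_sum hfib
      _ = l ^ 2 * ∑ i ∈ I, (P.filter fun a => a c.1 = i ∧ a c.2.1 = c.2.2 i).card := by
          rw [mul_sum]
      _ ≤ _ := Nat.mul_le_mul_left _ hsum
  · rw [zero_mul]; exact Nat.zero_le _

/-- Rounding of lists of labels: random labels from the lists. -/
theorem exists_rounding3 [NeZero k] (E : List (Con V k)) (A : V → Finset (Fin k)) (l : ℕ)
    (_hl : 0 < l) : ∃ a : V → Fin k, val3 l E A ≤ l ^ 2 * sat3 E a := by
  classical
  set A' : V → Finset (Fin k) := fun v =>
    if (A v).Nonempty ∧ (A v).card ≤ l then A v else {0} with hA'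
  have hA1 : ∀ v, (A v).Nonempty → (A v).card ≤ l → A' v = A v := by
    intro v h1 h2
    rw [hA']
    simp only
    rw [if_pos ⟨h1, h2⟩]
  have hne : (Fintype.piFinset A').Nonempty := by
    rw [Fintype.piFinset_nonempty]
    intro v
    rw [hA']
    simp only
    split_ifs with h
    · exact h.1
    · exact singleton_nonempty _
  have hsum : val3 l E A * (Fintype.piFinset A').card ≤
      ∑ a ∈ Fintype.piFinset A', l ^ 2 * sat3 E a := by
    unfold val3 sat3
    induction E with
    | nil => simp
    | cons c E ih =>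
      rw [List.map_cons, List.sum_cons, add_mul]
      have h1 : ∀ a : V → Fin k, l ^ 2 * (c :: E).countP (fun c => decide (a c.2.1 =
          c.2.2 (a c.1))) = l ^ 2 * (if a c.2.1 = c.2.2 (a c.1) then 1 else 0) +
          l ^ 2 * E.countP (fun c => decide (a c.2.1 = c.2.2 (a c.1))) := by
        intro a
        rw [List.countP_cons]
        by_cases h : a c.2.1 = c.2.2 (a c.1)
        · simp [h, mul_add, add_comm]
        · simp [h]
      simp_rw [h1]
      rw [sum_add_distrib]
      refine Nat.add_le_add ?_ ih
      rw [← mul_sum, ← card_filter]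
      exact pair3_le A A' l hA1 c
  by_contra hcon
  push Not at hcon
  have h1 : ∑ a ∈ Fintype.piFinset A', l ^ 2 * sat3 E a <
      ∑ _a ∈ Fintype.piFinset A', val3 l E A := sum_lt_sum_of_nonempty hne fun a _ => hcon a
  rw [sum_const, smul_eq_mul, mul_comm] at h1
  omega

end Vale.Agent.P325.V3
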