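import Vale.Agent.P325.V3.Proc3
import Vale.Agent.P325.V3.Round3

/-!
# Layers
-/

namespace Vale.Agent.P325.V3

open Finset Vale.Agent.P325

variable {V : Type*} {k : ℕ} [DecidableEq V] {P : Par3} {NG : List (Con V k) → Prop}

/-! ### Soundness: one family of lists for all leaves of a layer -/

/-- endpoints of the constraints -/
def Touch (C : List (Con V k)) (u : V) : Prop := ∃ c ∈ C, u = c.1 ∨ u = c.2.1

theorem val3_congr (l : ℕ) {C : List (Con V k)} {A A' : V → Finset (Fin k)}
    (h : ∀ u, Touch C u → A u = A' u) : val3 l C A = val3 l C A' := by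
  unfold val3
  congr 1
  refine List.map_congr_left fun c hc => ?_
  unfold pair3
  rw [h c.1 ⟨c, hc, Or.inl rfl⟩, h c.2.1 ⟨c, hc, Or.inr rfl⟩]

theorem val3_append (l : ℕ) (C D : List (Con V k)) (A : V → Finset (Fin k)) :
    val3 l (C ++ D) A = val3 l C A + val3 l D A := by
  unfold val3
  rw [List.map_append, List.sum_append]

theorem val3_perm (l : ℕ) {C D : List (Con V k)} (h : C.Perm D) (A : V → Finset (Fin k)) :
    val3 l C A = val3 l D A := by
  unfold val3
  exact (h.map _).sum_eq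

/-- lists for disjoint pieces can be combined -/
theorem exists_lists (l : ℕ) (lv : List (List (Con V k))) (hd : lv.Pairwise Disj)
    (v : List (Con V k) → ℕ) (hv : ∀ C ∈ lv, ∃ A, v C = val3 l C A) :
    ∃ A : V → Finset (Fin k), (lv.map v).sum = val3 l lv.flatten A ∧
      (∀ u, (∀ C ∈ lv, ¬ Touch C u) → A u = ∅) := by
  classical
  induction lv with
  | nil => exact ⟨fun _ => ∅, by simp [val3], fun _ _ => rfl⟩
  | cons C lv ih =>
    rw [List.pairwise_cons] at hd
    obtain ⟨A, hA, hA'⟩ := ih hd.2 fun D hD => hv D (List.mem_cons_of_mem _ hD)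
    obtain ⟨A1, hA1⟩ := hv C List.mem_cons_self
    have hdis : ∀ D ∈ lv, ∀ u, Touch D u → ¬ Touch C u := by
      rintro D hD u ⟨d, hd1, hd2⟩ ⟨c, hc1, hc2⟩
      obtain ⟨g1, g2, g3, g4⟩ := hd.1 D hD c hc1 d hd1
      rcases hd2 with h | h <;> rcases hc2 with h' | h' <;> rw [h] at h'
      · exact g1 h'.symm
      · exact g3 h'.symm
      · exact g2 h'.symm
      · exact g4 h'.symm
    refine ⟨fun u => if Touch C u then A1 u else A u, ?_, ?_⟩
    · rw [List.map_cons, List.sum_cons, List.flatten_cons, val3_append, hA, hA1]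
      congr 1
      · refine val3_congr l fun u hu => ?_
        simp only [if_pos hu]
      · refine val3_congr l fun u hu => ?_
        obtain ⟨c, hc, hc'⟩ := hu
        rw [List.mem_flatten] at hc
        obtain ⟨D, hD, hcD⟩ := hc
        have := hdis D hD u ⟨c, hcD, hc'⟩
        simp only [if_neg this]
    · intro u hu
      have h1 : ¬ Touch C u := hu C List.mem_cons_self
      simp only [if_neg h1]
      exact hA' u fun D hD => hu D (List.mem_cons_of_mem _ hD)

/-- soundness of a layer -/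
theorem Reach3.sound [Fintype V] [NeZero k] {l : ℕ} (hl : 0 < l) {C0 rest : List (Con V k)}
    {lv : List (List (Con V k))} {i : ℕ} (h : Reach3 P NG C0 i ([], rest, lv))
    (v : List (Con V k) → ℕ) (hv : ∀ C ∈ lv, ∃ A, v C = val3 l C A) :
    ∃ a : V → Fin k, (lv.map v).sum ≤ l ^ 2 * sat3 C0 a := by
  obtain ⟨A, hA, _⟩ := exists_lists l lv (by
    have := h.disj
    simpa using this) v hv
  obtain ⟨a, ha⟩ := exists_rounding3 C0 A l hl
  refine ⟨a, le_trans ?_ ha⟩
  rw [hA, ← val3_perm l h.perm]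
  simp only [List.flatten_nil, List.nil_append]
  rw [val3_append]
  exact Nat.le_add_left _ _

/-! ### Satisfied constraints -/

omit [DecidableEq V] in
theorem sat3_append (C D : List (Con V k)) (a : V → Fin k) :
    sat3 (C ++ D) a = sat3 C a + sat3 D a := by
  unfold sat3
  rw [List.countP_append]

omit [DecidableEq V] in
theorem sat3_perm {C D : List (Con V k)} (h : C.Perm D) (a : V → Fin k) :
    sat3 C a = sat3 D a := h.countP_eq _

omit [DecidableEq V] in
theorem sat3_le (C : List (Con V k)) (a : V → Fin k) : sat3 C a ≤ C.length :=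
  List.countP_le_length

omit [DecidableEq V] in
theorem sat3_flatten (lv : List (List (Con V k))) (a : V → Fin k) :
    sat3 lv.flatten a = (lv.map fun C => sat3 C a).sum := by
  induction lv with
  | nil => rfl
  | cons C lv ih => rw [List.flatten_cons, sat3_append, ih, List.map_cons, List.sum_cons]

omit [DecidableEq V] in
/-- leaves of good value carry a good part of the weight -/
theorem sum_leaves (s : ℕ) (lv : List (List (Con V k))) (a : V → Fin k) (v : List (Con V k) → ℕ)
    (hs : lv.flatten.length ≤ 2 ^ (s + 1) * sat3 lv.flatten a)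
    (hv : ∀ C ∈ lv, C.length ≤ 2 ^ (s + 2) * sat3 C a → C.length ≤ 2 ^ (s + 4) * v C) :
    lv.flatten.length ≤ 2 ^ (2 * s + 6) * (lv.map v).sum := by
  -- `sat C ≤ |C| / 2^(s+2) + 2^(s+4) v C`
  have h1 : ∀ C ∈ lv, 2 ^ (s + 2) * sat3 C a ≤ C.length + 2 ^ (2 * s + 6) * v C := by
    intro C hC
    by_cases h : C.length ≤ 2 ^ (s + 2) * sat3 C a
    · have h2 := hv C hC h
      have h3 := sat3_le C a
      calc 2 ^ (s + 2) * sat3 C a ≤ 2 ^ (s + 2) * (2 ^ (s + 4) * v C) :=
            Nat.mul_le_mul_left _ (h3.trans h2)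
        _ = 2 ^ (2 * s + 6) * v C := by
          rw [← mul_assoc, ← pow_add]
          congr 2
          ring
        _ ≤ _ := Nat.le_add_left _ _
    · omega
  have h2 : 2 ^ (s + 2) * sat3 lv.flatten a ≤
      lv.flatten.length + 2 ^ (2 * s + 6) * (lv.map v).sum := by
    rw [sat3_flatten, List.length_flatten]
    clear hs hv
    induction lv with
    | nil => simp
    | cons C lv ih =>
      have h3 := ih fun D hD => h1 D (List.mem_cons_of_mem _ hD)
      have h4 := h1 C List.mem_cons_self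
      simp only [List.map_cons, List.sum_cons, Nat.mul_add] at h3 ⊢
      omega
  have h3 : 2 ^ (s + 2) * sat3 lv.flatten a = 2 * (2 ^ (s + 1) * sat3 lv.flatten a) := by
    rw [show s + 2 = (s + 1) + 1 by ring, pow_succ]
    ring
  omega

/-! ### All layers -/

/-- the layers `E_0, E_1, …` of an instance -/
structure LaySeq (P : Par3) (NG : List (Con V k) → Prop) (E : ℕ → List (Con V k))
    (lv : ℕ → List (List (Con V k))) (M : ℕ) : Prop where
  reach : ∀ t < M, ∃ i, Reach3 P NG (E t) i ([], E (t + 1), lv t)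

theorem LaySeq.perm {E : ℕ → List (Con V k)} {lv : ℕ → List (List (Con V k))} {M : ℕ}
    (h : LaySeq P NG E lv M) {t : ℕ} (ht : t < M) :
    (E (t + 1) ++ (lv t).flatten).Perm (E t) := by
  obtain ⟨i, hi⟩ := h.reach t ht
  have := hi.perm
  simpa using this

theorem LaySeq.length_le {E : ℕ → List (Con V k)} {lv : ℕ → List (List (Con V k))} {M : ℕ}
    (h : LaySeq P NG E lv M) {t : ℕ} (ht : t ≤ M) : (E t).length ≤ (E 0).length := by
  induction t with
  | zero => exact le_rfl
  | succ t ih =>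
    refine le_trans ?_ (ih (by omega))
    have := (h.perm (t := t) (by omega)).length_eq
    rw [List.length_append] at this
    omega

/-- the lengths decrease geometrically -/
theorem LaySeq.decay (hr : 1 ≤ P.r) (hL : 0 < P.L) (hB : P.Bc < P.L)
    {E : ℕ → List (Con V k)} {lv : ℕ → List (List (Con V k))} {M : ℕ}
    (h : LaySeq P NG E lv M) (hE : (E 0).length ≤ 2 ^ P.L) {t : ℕ} (ht : t ≤ M) :
    ((E t).length : ℝ) ≤ (1 - 1 / 2 ^ P.Bc) ^ t * (E 0).length := by
  have h0 : (0 : ℝ) ≤ 1 - 1 / 2 ^ P.Bc := by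
    have : (1 : ℝ) / 2 ^ P.Bc ≤ 1 := by
      rw [div_le_one (by positivity)]
      exact one_le_pow₀ (by norm_num)
    linarith
  induction t with
  | zero => simp
  | succ t ih =>
    have ih := ih (by omega)
    have h1 := (h.perm (t := t) (by omega)).length_eq
    rw [List.length_append] at h1
    obtain ⟨i, hi⟩ := h.reach t (by omega)
    have h2 := hi.kept hr hL hB ((h.length_le (t := t) (by omega)).trans hE)
    have h3 : ((E t).length : ℝ) ≤ 2 ^ P.Bc * (lv t).flatten.length := by exact_mod_cast h2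
    have h4 : ((E (t + 1)).length : ℝ) + (lv t).flatten.length = (E t).length := by
      exact_mod_cast h1
    have h5 : (1 : ℝ) / 2 ^ P.Bc * (E t).length ≤ (lv t).flatten.length := by
      rw [div_mul_eq_mul_div, one_mul, div_le_iff₀ (by positivity)]
      linarith
    calc ((E (t + 1)).length : ℝ) ≤ (1 - 1 / 2 ^ P.Bc) * (E t).length := by linarith
      _ ≤ (1 - 1 / 2 ^ P.Bc) * ((1 - 1 / 2 ^ P.Bc) ^ t * (E 0).length) :=
          mul_le_mul_of_nonneg_left ih h0
      _ = _ := by ring

theorem pow_decay (B s : ℕ) : (1 - 1 / (2 : ℝ) ^ B) ^ (2 ^ B * (s + 1)) ≤ 1 / 2 ^ (s + 1) := by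
  have h2 : (0 : ℝ) < 2 ^ B := by positivity
  have h1 : (1 : ℝ) / 2 ^ B ≤ 1 := by
    rw [div_le_one h2]
    exact one_le_pow₀ (by norm_num)
  have h3 : (1 - 1 / (2 : ℝ) ^ B) ^ (2 ^ B) ≤ 1 / 2 := by
    have h4 : 1 - 1 / (2 : ℝ) ^ B ≤ Real.exp (-(1 / 2 ^ B)) := by
      have := Real.add_one_le_exp (-(1 / (2 : ℝ) ^ B))
      linarith
    calc (1 - 1 / (2 : ℝ) ^ B) ^ (2 ^ B) ≤ Real.exp (-(1 / 2 ^ B)) ^ (2 ^ B) :=
          pow_le_pow_left₀ (by linarith) h4 _
      _ = Real.exp (-1) := by
        rw [← Real.exp_nat_mul]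
        congr 1
        push_cast
        field_simp
      _ ≤ 1 / 2 := by
        rw [Real.exp_neg, ← one_div]
        refine one_div_le_one_div_of_le (by norm_num) ?_
        have := Real.add_one_le_exp (1 : ℝ)
        linarith
  rw [pow_mul]
  calc ((1 - 1 / (2 : ℝ) ^ B) ^ (2 ^ B)) ^ (s + 1) ≤ (1 / 2) ^ (s + 1) :=
        pow_le_pow_left₀ (pow_nonneg (by linarith) _) h3 _
    _ = 1 / 2 ^ (s + 1) := by rw [div_pow, one_pow]

/-- in some layer the labeling satisfies many kept constraints -/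
theorem LaySeq.exists_layer (hr : 1 ≤ P.r) (hL : 0 < P.L) (hB : P.Bc < P.L)
    {E : ℕ → List (Con V k)} {lv : ℕ → List (List (Con V k))} {s M : ℕ}
    (hM : 2 ^ P.Bc * (s + 1) ≤ M)
    (h : LaySeq P NG E lv M) (hE : (E 0).length ≤ 2 ^ P.L) (hE0 : 0 < (E 0).length)
    (a : V → Fin k) (ha : (E 0).length ≤ 2 ^ s * sat3 (E 0) a) :
    ∃ t < M, (E 0).length ≤ 2 ^ (s + 1 + P.Bc) * (lv t).flatten.length ∧
      (lv t).flatten.length ≤ 2 ^ (s + 1) * sat3 (lv t).flatten a := by
  classical
  -- there is a first small layer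
  have hsmall : ∃ t, t ≤ M ∧ 2 ^ (s + 1) * (E t).length ≤ (E 0).length := by
    refine ⟨2 ^ P.Bc * (s + 1), hM, ?_⟩
    have h1 := h.decay hr hL hB hE hM
    have h2 := h1.trans (mul_le_mul_of_nonneg_right (pow_decay P.Bc s) (Nat.cast_nonneg _))
    have h3 : (2 : ℝ) ^ (s + 1) * (E (2 ^ P.Bc * (s + 1))).length ≤ (E 0).length := by
      rw [one_div, inv_mul_eq_div, le_div_iff₀ (by positivity)] at h2
      linarith
    exact_mod_cast h3
  set T1 := Nat.find hsmall with hT1
  obtain ⟨hT1M, hT1s⟩ := Nat.find_spec hsmall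
  rw [← hT1] at hT1M hT1s
  have hbig : ∀ t < T1, (E 0).length < 2 ^ (s + 1) * (E t).length := by
    intro t ht
    have := Nat.find_min hsmall ht
    push Not at this
    exact this (by omega)
  by_contra hcon
  push Not at hcon
  -- all layers before `T1` have few satisfied constraints
  have hfew : ∀ t < T1, 2 ^ (s + 1) * sat3 (lv t).flatten a ≤ (lv t).flatten.length := by
    intro t ht
    refine (hcon t (by omega) ?_).le
    obtain ⟨i, hi⟩ := h.reach t (by omega)
    have h2 := hi.kept hr hL hB ((h.length_le (t := t) (by omega)).trans hE)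
    calc (E 0).length ≤ 2 ^ (s + 1) * (E t).length := (hbig t ht).le
      _ ≤ 2 ^ (s + 1) * (2 ^ P.Bc * (lv t).flatten.length) := Nat.mul_le_mul_left _ h2
      _ = _ := by rw [← mul_assoc, ← pow_add]
  have hsum : ∀ t ≤ T1, 2 ^ (s + 1) * sat3 (E 0) a + (E t).length ≤
      2 ^ (s + 1) * sat3 (E t) a + (E 0).length := by
    intro t ht
    induction t with
    | zero => exact le_rfl
    | succ t ih =>
      have ih := ih (by omega)
      have h1 := (h.perm (t := t) (by omega)).length_eq
      have h2 := sat3_perm (h.perm (t := t) (by omega)) a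
      rw [List.length_append] at h1
      rw [sat3_append] at h2
      have h3 := hfew t (by omega)
      rw [← h2, ← h1, Nat.mul_add] at ih
      omega
  have h1 := hsum T1 le_rfl
  have h2 : 2 * (E 0).length ≤ 2 ^ (s + 1) * sat3 (E 0) a := by
    calc 2 * (E 0).length ≤ 2 * (2 ^ s * sat3 (E 0) a) := Nat.mul_le_mul_left _ ha
      _ = _ := by rw [pow_succ]; ring
  -- equality case: `sat (E T1) ≤ |E T1|`
  have h3 := sat3_le (E T1) a
  have h4 : 2 ^ (s + 1) * sat3 (E T1) a ≤ 2 ^ (s + 1) * (E T1).length := Nat.mul_le_mul_left _ h3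
  have h5 : (E 0).length + (E T1).length ≤ 2 ^ (s + 1) * (E T1).length := by omega
  have h6 : (E T1).length = 0 := by omega
  rw [h6] at h5
  omega

/-- completeness of the layers -/
theorem LaySeq.complete (hr : 1 ≤ P.r) (hL : 0 < P.L) (hB : P.Bc < P.L)
    {E : ℕ → List (Con V k)} {lv : ℕ → List (List (Con V k))} {s M : ℕ}
    (hM : 2 ^ P.Bc * (s + 1) ≤ M)
    (h : LaySeq P NG E lv M) (hE : (E 0).length ≤ 2 ^ P.L) (hE0 : 0 < (E 0).length)
    (a : V → Fin k) (ha : (E 0).length ≤ 2 ^ s * sat3 (E 0) a) (v : List (Con V k) → ℕ)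
    (hv : ∀ C, NG C → C.length ≤ 2 ^ (s + 2) * sat3 C a → C.length ≤ 2 ^ (s + 4) * v C) :
    ∃ t < M, (E 0).length ≤ 2 ^ (3 * s + 7 + P.Bc) * ((lv t).map v).sum := by
  obtain ⟨t, ht, h1, h2⟩ := h.exists_layer hr hL hB hM hE hE0 a ha
  refine ⟨t, ht, h1.trans ?_⟩
  obtain ⟨i, hi⟩ := h.reach t ht
  have h3 := sum_leaves s (lv t) a v h2 fun C hC => hv C (hi.leaves C hC)
  calc 2 ^ (s + 1 + P.Bc) * (lv t).flatten.length ≤
      2 ^ (s + 1 + P.Bc) * (2 ^ (2 * s + 6) * ((lv t).map v).sum) := Nat.mul_le_mul_left _ h3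
    _ = _ := by
      rw [← mul_assoc, ← pow_add]
      congr 2
      ring

end Vale.Agent.P325.V3
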