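import Vale.Agent.P325.V3.Alg3
import Vale.Agent.P325.V3.Decay3
import Mathlib.Analysis.SpecialFunctions.Pow.Real
import Mathlib.Analysis.SpecialFunctions.Log.Base
import Mathlib.Analysis.Complex.ExponentialBounds

/-!
# The constants of the algorithm with small soundness
-/

namespace Vale.Agent.P325.V3

open Finset Vale.Agent.P325

/-- the number `q1` -/
def q1Of (q : ℕ) : ℕ := 2 * q

/-- the number `g` -/
def gOf (s : ℕ) : ℕ := 2 * s + 10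

/-- the number `cq` -/
def cqOf3 (q : ℕ) : ℕ := Nat.log 2 (4 * q1Of q) + 1

/-- the number `Bc` -/
def bcOf (q s : ℕ) : ℕ := 64 * gOf s * q1Of q * cqOf3 q

/-- the number `CS` -/
def csOf (s : ℕ) : ℕ := 64 * (3 * s + 20) ^ 2 * 2 ^ (3 * s + 20)

/-- the constants -/
def mkCst3 (k q s : ℕ) : Alg3.Cst3 where
  k := k
  q := q
  s := s
  u := 16 * gOf s * q1Of q
  Bc := bcOf q s
  n0 := 2 ^ bcOf q s
  L0 := 3 * s + 20
  CS := csOf s
  T0 := 2 ^ bcOf q s * (s + 1)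
  C := 16 * csOf s * (4 * q + k) + 4 * q + 4

/-- the facts about the numbers of a run -/
structure PFacts3 (c : Alg3.Cst3) (n ρ B : ℕ) : Prop where
  two_n_lt : 2 * n < B
  one_lt : 1 < B
  rho_lt : ρ < B
  one_le_rho : 1 ≤ ρ
  one_le_n : 1 ≤ n
  bc_lt : c.Bc < Nat.size n
  s_pos : 0 < (Alg3.nums3 c n ρ B).S
  cert : (n * c.k) ^ (Alg3.nums3 c n ρ B).S ≤ B
  /-- for `leaf_value`, with `R = r`, `θ = 1 / 2 ^ (2 g)` -/
  hT : 1 / ((Alg3.nums3 c n ρ B).r : ℝ) ≤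
    (1 / 2 ^ (2 * gOf c.s)) ^ (Alg3.nums3 c n ρ B).T2
  /-- for `leaf_value`, with `K = 64 r ^ 2` -/
  hτ : 3 * (64 * ((Alg3.nums3 c n ρ B).r : ℝ) ^ 2 * ((Alg3.nums3 c n ρ B).S' : ℝ) ^ 2 /
    (Alg3.nums3 c n ρ B).S + 1 / n + (1 / 2 ^ (2 * gOf c.s) +
      Real.exp (-(2 * ((Alg3.nums3 c n ρ B).S' / (Alg3.nums3 c n ρ B).r : ℝ))))) ≤
        1 / 2 ^ (3 * c.s + 15)
  /-- for `decay3` -/
  hnr : n ≤ (Alg3.nums3 c n ρ B).r ^ (4 * q1Of c.q)
  /-- for `decay3` -/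
  hBq : 96 * q1Of c.q ≤ c.Bc
  /-- for `decay3`, with `T = 2 T2` -/
  hTd : 8 * ((Nat.size n : ℕ) : ℝ) * Real.log (4 * (q1Of c.q : ℝ)) ≤
    (c.Bc : ℝ) * ((2 * (Alg3.nums3 c n ρ B).T2 : ℕ) : ℝ)
  hq1 : 1 ≤ q1Of c.q
  hr : 1 ≤ (Alg3.nums3 c n ρ B).r

theorem cqOf3_pos (q : ℕ) : 1 ≤ cqOf3 q := Nat.le_add_left _ _

theorem log_le_cq {q : ℕ} (hq : 1 ≤ q) : Real.log (4 * (q1Of q : ℝ)) ≤ cqOf3 q := by
  have h1 : 4 * q1Of q < 2 ^ cqOf3 q := Nat.lt_pow_succ_log_self (by norm_num) _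
  have h2 : (4 * (q1Of q : ℝ)) ≤ 2 ^ cqOf3 q := by exact_mod_cast h1.le
  have h0 : (0 : ℝ) < 4 * (q1Of q : ℝ) := by
    have : 0 < q1Of q := by unfold q1Of; omega
    have : (0 : ℝ) < q1Of q := by exact_mod_cast this
    linarith
  have h3 := Real.log_le_log h0 h2
  rw [Real.log_pow] at h3
  have h4 : Real.log 2 ≤ 1 := by
    have := Real.log_two_lt_d9
    linarith
  have h5 : (0 : ℝ) ≤ cqOf3 q := Nat.cast_nonneg _
  nlinarith

theorem exp_bound (t : ℕ) : Real.exp (-(2 * (t : ℝ))) ≤ 1 / 2 ^ t := by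
  have h2 : Real.exp (-(2 * (t : ℝ))) = (Real.exp (-2)) ^ t := by
    rw [← Real.exp_nat_mul]
    congr 1
    ring
  rw [h2, ← one_div_pow]
  refine pow_le_pow_left₀ (Real.exp_pos _).le ?_ _
  have h3 : Real.exp (-2) = (Real.exp 1)⁻¹ ^ 2 := by
    rw [← Real.exp_neg, ← Real.exp_nat_mul]
    norm_num
  have h4 : (2 : ℝ) ≤ Real.exp 1 := by
    have := Real.exp_one_gt_d9
    linarith
  have h5 : (Real.exp 1)⁻¹ ≤ 1 / 2 := by
    rw [inv_eq_one_div]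
    exact one_div_le_one_div_of_le (by norm_num) h4
  have h6 : (0 : ℝ) ≤ (Real.exp 1)⁻¹ := by positivity
  rw [h3]
  nlinarith

theorem tau_bound {s r n : ℕ} (hr1 : 1 ≤ r) (hn : 2 ^ (3 * s + 20) ≤ n) :
    3 * (64 * (r : ℝ) ^ 2 * (((3 * s + 20) * r : ℕ) : ℝ) ^ 2 /
      ((csOf s * r ^ 4 : ℕ) : ℝ) + 1 / n + (1 / 2 ^ (2 * gOf s) +
        Real.exp (-(2 * ((((3 * s + 20) * r : ℕ) : ℝ) / r))))) ≤ 1 / 2 ^ (3 * s + 15) := by
  have hrR : (0 : ℝ) < r := by exact_mod_cast hr1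
  set θ : ℝ := 1 / 2 ^ (3 * s + 20) with hθ
  have e1 : 64 * (r : ℝ) ^ 2 * (((3 * s + 20) * r : ℕ) : ℝ) ^ 2 /
      ((csOf s * r ^ 4 : ℕ) : ℝ) = θ := by
    have h1 : (0 : ℝ) < 3 * s + 20 := by positivity
    unfold csOf
    push_cast
    rw [hθ]
    field_simp
  have e2 : 1 / (n : ℝ) ≤ θ := by
    rw [hθ]
    refine one_div_le_one_div_of_le (by positivity) ?_
    exact_mod_cast hn
  have e3 : (1 : ℝ) / 2 ^ (2 * gOf s) ≤ θ := by
    rw [hθ]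
    refine one_div_le_one_div_of_le (by positivity) ?_
    refine pow_le_pow_right₀ (by norm_num) ?_
    unfold gOf
    omega
  have e4 : Real.exp (-(2 * ((((3 * s + 20) * r : ℕ) : ℝ) / r))) ≤ θ := by
    have h1 : (((3 * s + 20) * r : ℕ) : ℝ) / r = ((3 * s + 20 : ℕ) : ℝ) := by
      push_cast
      field_simp
    rw [h1]
    exact exp_bound _
  have e5 : 16 * θ ≤ 1 / 2 ^ (3 * s + 15) := by
    rw [hθ, show 3 * s + 20 = (3 * s + 15) + 5 by ring, pow_add, mul_one_div,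
      div_le_div_iff₀ (by positivity) (by positivity)]
    have : (0 : ℝ) < 2 ^ (3 * s + 15) := by positivity
    norm_num
    linarith
  have hθ0 : 0 < θ := by positivity
  linarith

/-- the main quantity -/
def hOf (q s : ℕ) : ℕ := 8 * gOf s * q1Of q

theorem hOf_facts {q s N : ℕ} (hq : 1 ≤ q) (hN : bcOf q s < N) :
    1 ≤ hOf q s ∧ 8 * hOf q s ≤ bcOf q s ∧ bcOf q s = 8 * hOf q s * cqOf3 q ∧
      hOf q s * (N / (2 * hOf q s) + 1) ≤ N - 1 ∧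
      N < 2 * hOf q s * (N / (2 * hOf q s) + 1) := by
  have hcq := cqOf3_pos q
  have hh0 : 1 ≤ hOf q s := by
    unfold hOf gOf q1Of
    have : 0 < 8 * (2 * s + 10) * (2 * q) := by positivity
    omega
  have hbch : bcOf q s = 8 * hOf q s * cqOf3 q := by unfold bcOf hOf; ring
  have hsz : 8 * hOf q s ≤ bcOf q s := by
    rw [hbch]
    exact Nat.le_mul_of_pos_right _ hcq
  set h := hOf q s with hh
  have hdiv : 2 * h * (N / (2 * h)) ≤ N := Nat.mul_div_le _ _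
  refine ⟨hh0, hsz, hbch, ?_, Nat.lt_mul_div_succ _ (by omega)⟩
  have : 2 * (h * (N / (2 * h) + 1)) = 2 * h * (N / (2 * h)) + 2 * h := by ring
  omega

theorem r_facts {ρ : ℕ} (hρ : 1 ≤ ρ) :
    ρ ≤ (Nat.sqrt ρ + 1) ^ 2 ∧ (Nat.sqrt ρ + 1) ^ 4 ≤ 16 * ρ ^ 2 := by
  have hr2 : (Nat.sqrt ρ + 1) ^ 2 ≤ 4 * ρ := by
    have h1 : Nat.sqrt ρ ^ 2 ≤ ρ := Nat.sqrt_le' ρ
    have h2 : Nat.sqrt ρ ≤ ρ := Nat.sqrt_le_self ρ
    have : (Nat.sqrt ρ + 1) ^ 2 = Nat.sqrt ρ ^ 2 + 2 * Nat.sqrt ρ + 1 := by ring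
    omega
  refine ⟨(Nat.lt_succ_sqrt' ρ).le, ?_⟩
  calc (Nat.sqrt ρ + 1) ^ 4 = ((Nat.sqrt ρ + 1) ^ 2) ^ 2 := by ring
    _ ≤ (4 * ρ) ^ 2 := Nat.pow_le_pow_left hr2 2
    _ = 16 * ρ ^ 2 := by ring

theorem cert_bound {k q n ρ CS r C : ℕ} (hρ : 1 ≤ ρ) (hn2 : n ≤ 2 ^ (4 * q * ρ))
    (hr4 : r ^ 4 ≤ 16 * ρ ^ 2) (hC : 16 * CS * (4 * q + k) ≤ C) :
    (n * k) ^ (CS * r ^ 4) ≤ 2 ^ (C * ρ ^ 4) := by
  have hρ34 : ρ ^ 3 ≤ ρ ^ 4 := Nat.pow_le_pow_right hρ (by norm_num)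
  have h1 : n * k ≤ 2 ^ (4 * q * ρ + k) := by
    rw [pow_add]
    exact Nat.mul_le_mul hn2 Nat.lt_two_pow_self.le
  have h3 : 4 * q * ρ + k ≤ (4 * q + k) * ρ := by
    rw [add_mul]
    exact Nat.add_le_add_left (Nat.le_mul_of_pos_right _ hρ) _
  calc (n * k) ^ (CS * r ^ 4) ≤ (2 ^ (4 * q * ρ + k)) ^ (CS * r ^ 4) :=
        Nat.pow_le_pow_left h1 _
    _ = 2 ^ ((4 * q * ρ + k) * (CS * r ^ 4)) := by rw [← pow_mul]
    _ ≤ 2 ^ (C * ρ ^ 4) := by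
      refine Nat.pow_le_pow_right (by norm_num) ?_
      calc (4 * q * ρ + k) * (CS * r ^ 4) ≤
          ((4 * q + k) * ρ) * (CS * (16 * ρ ^ 2)) :=
            Nat.mul_le_mul h3 (Nat.mul_le_mul_left _ hr4)
        _ = (16 * CS * (4 * q + k)) * ρ ^ 3 := by ring
        _ ≤ (16 * CS * (4 * q + k)) * ρ ^ 4 := Nat.mul_le_mul_left _ hρ34
        _ ≤ C * ρ ^ 4 := Nat.mul_le_mul_right _ hC

theorem two_n_bound {q n ρ C : ℕ} (hρ : 1 ≤ ρ) (hn2 : n ≤ 2 ^ (4 * q * ρ))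
    (hC : 4 * q + 4 ≤ C) : 2 * n < 2 ^ (C * ρ ^ 4) := by
  have hρ4 : ρ ≤ ρ ^ 4 := Nat.le_self_pow (by norm_num) ρ
  have hρ41 : 1 ≤ ρ ^ 4 := Nat.one_le_pow _ _ hρ
  have h1 : 4 * q * ρ + 2 ≤ C * ρ ^ 4 := by
    have h3 : 4 * q * ρ ≤ 4 * q * ρ ^ 4 := Nat.mul_le_mul_left _ hρ4
    have h4 : (4 * q + 4) * ρ ^ 4 ≤ C * ρ ^ 4 := Nat.mul_le_mul_right _ hC
    have h5 : (4 * q + 4) * ρ ^ 4 = 4 * q * ρ ^ 4 + 4 * ρ ^ 4 := by ring
    omega
  calc 2 * n ≤ 2 * 2 ^ (4 * q * ρ) := Nat.mul_le_mul_left _ hn2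
    _ = 2 ^ (4 * q * ρ + 1) := by rw [pow_succ]; ring
    _ < 2 ^ (4 * q * ρ + 2) := Nat.pow_lt_pow_right (by norm_num) (by omega)
    _ ≤ 2 ^ (C * ρ ^ 4) := Nat.pow_le_pow_right (by norm_num) h1

theorem two_pow_le_r {q s n r T2 : ℕ} (hq1 : 1 ≤ q1Of q) (hnr : n ≤ r ^ (4 * q1Of q))
    (hsz : 0 < Nat.size n) (hT : hOf q s * T2 ≤ Nat.size n - 1) :
    2 ^ (2 * gOf s * T2) ≤ r := by
  have h1 : (2 ^ (2 * gOf s * T2)) ^ (4 * q1Of q) ≤ r ^ (4 * q1Of q) := by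
    refine le_trans ?_ hnr
    have h2 : 2 ^ (Nat.size n - 1) ≤ n := by
      refine Nat.lt_size.1 ?_
      omega
    refine le_trans ?_ h2
    rw [← pow_mul]
    refine Nat.pow_le_pow_right (by norm_num) ?_
    refine le_trans (le_of_eq ?_) hT
    unfold hOf
    ring
  exact (Nat.pow_le_pow_iff_left (by omega)).1 h1

theorem decay_T {q s N T2 : ℕ} (hq : 1 ≤ q) (hbc : bcOf q s = 8 * hOf q s * cqOf3 q)
    (hT : N < 2 * hOf q s * T2) :
    8 * (N : ℝ) * Real.log (4 * (q1Of q : ℝ)) ≤ (bcOf q s : ℝ) * ((2 * T2 : ℕ) : ℝ) := by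
  have h1 := log_le_cq hq
  have h2 : (N : ℝ) ≤ 2 * (hOf q s : ℝ) * (T2 : ℝ) := by exact_mod_cast hT.le
  have h3 : (bcOf q s : ℝ) = 8 * (hOf q s : ℝ) * cqOf3 q := by exact_mod_cast hbc
  rw [h3]
  push_cast
  have h5 : (0 : ℝ) ≤ cqOf3 q := Nat.cast_nonneg _
  calc 8 * (N : ℝ) * Real.log (4 * (q1Of q : ℝ)) ≤
      8 * (N : ℝ) * cqOf3 q := mul_le_mul_of_nonneg_left h1 (by positivity)
    _ ≤ 8 * (2 * (hOf q s : ℝ) * (T2 : ℝ)) * cqOf3 q :=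
      mul_le_mul_of_nonneg_right (by linarith) h5
    _ = _ := by ring

theorem pfacts3 {k q s n ρ B : ℕ} (hq : 1 ≤ q) (hn : (mkCst3 k q s).n0 ≤ n)
    (hnr : n ≤ ρ ^ (4 * q)) (hrn : ρ ≤ n)
    (hB : (mkCst3 k q s).C * ρ ^ 4 < Nat.size B) : PFacts3 (mkCst3 k q s) n ρ B := by
  have hn1 : 2 ^ bcOf q s ≤ n := hn
  have hn0 : 1 ≤ n := le_trans Nat.one_le_two_pow hn1
  have hρ : 1 ≤ ρ := by
    rcases Nat.eq_zero_or_pos ρ with h | h
    · rw [h, zero_pow (by omega)] at hnr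
      omega
    · exact h
  have hBc : bcOf q s < Nat.size n := Nat.lt_size.2 hn1
  have h2B : 2 ^ ((mkCst3 k q s).C * ρ ^ 4) ≤ B := Nat.lt_size.1 hB
  obtain ⟨hrho, hr4⟩ := r_facts hρ
  have hn2 : n ≤ 2 ^ (4 * q * ρ) := by
    calc n ≤ ρ ^ (4 * q) := hnr
      _ ≤ (2 ^ ρ) ^ (4 * q) := Nat.pow_le_pow_left Nat.lt_two_pow_self.le _
      _ = 2 ^ (4 * q * ρ) := by rw [← pow_mul, mul_comm]
  have hCdef : (mkCst3 k q s).C = 16 * csOf s * (4 * q + k) + 4 * q + 4 := rfl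
  have h2n : 2 * n < B := lt_of_lt_of_le (two_n_bound hρ hn2 (by rw [hCdef]; omega)) h2B
  obtain ⟨hh0, hsz, hbch, hhT, huT⟩ := hOf_facts hq hBc
  have hq1 : 1 ≤ q1Of q := by unfold q1Of; omega
  have hT2 : (Alg3.nums3 (mkCst3 k q s) n ρ B).T2 = Nat.size n / (2 * hOf q s) + 1 := by
    show Nat.size n / (16 * gOf s * q1Of q) + 1 = _
    congr 2
    unfold hOf
    ring
  have hnr' : n ≤ (Nat.sqrt ρ + 1) ^ (4 * q1Of q) := by
    calc n ≤ ρ ^ (4 * q) := hnr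
      _ ≤ ((Nat.sqrt ρ + 1) ^ 2) ^ (4 * q) := Nat.pow_le_pow_left hrho _
      _ = (Nat.sqrt ρ + 1) ^ (4 * q1Of q) := by
        unfold q1Of; rw [← pow_mul]; congr 1; ring
  refine ⟨h2n, by omega, by omega, hρ, hn0, hBc, ?_, ?_, ?_, ?_, hnr', ?_, ?_, hq1, ?_⟩
  · show 0 < csOf s * (Nat.sqrt ρ + 1) ^ 4
    unfold csOf
    positivity
  · exact (cert_bound (k := k) (CS := csOf s) (C := (mkCst3 k q s).C) hρ hn2 hr4
      (by rw [hCdef]; omega)).trans h2B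
  · rw [hT2]
    show 1 / ((Nat.sqrt ρ + 1 : ℕ) : ℝ) ≤
      (1 / 2 ^ (2 * gOf s)) ^ (Nat.size n / (2 * hOf q s) + 1)
    rw [div_pow, one_pow, ← pow_mul]
    refine one_div_le_one_div_of_le (by positivity) ?_
    exact_mod_cast two_pow_le_r hq1 hnr' (by omega) hhT
  · refine tau_bound (s := s) (r := Nat.sqrt ρ + 1) (n := n) (Nat.le_add_left _ _) ?_
    refine le_trans (Nat.pow_le_pow_right (by norm_num) ?_) hn1
    refine le_trans ?_ hsz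
    unfold hOf gOf q1Of
    nlinarith
  · show 96 * q1Of q ≤ bcOf q s
    refine le_trans ?_ hsz
    unfold hOf gOf
    nlinarith
  · rw [hT2]
    exact decay_T hq hbch huT
  · exact Nat.le_add_left _ _

/-- the choice of the natural parameters -/
theorem exists_params3 : ∃ C0 : ℝ, 0 < C0 ∧ ∀ c α δ : ℝ, 0 < c → c ≤ 1 → 0 < α → α ≤ 1 →
    δ ≤ (c / 2) ^ (C0 * (1 + Real.log (1 / α)) / α) →
    ∃ q s : ℕ, 1 ≤ q ∧ 1 / (q : ℝ) ≤ α ∧ 1 / 2 ^ s ≤ c ∧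
      δ ≤ 1 / 2 ^ (9 * s + 44 + 2 * bcOf q s) := by
  refine ⟨62000, by norm_num, fun c α δ hc hc1 hα hα1 hδ => ?_⟩
  set q := ⌈1 / α⌉₊ with hq
  set s := ⌈Real.logb 2 (1 / c)⌉₊ with hs
  have hα' : 1 ≤ 1 / α := by rw [le_div_iff₀ hα]; linarith
  have hc' : 1 ≤ 1 / c := by rw [le_div_iff₀ hc]; linarith
  have hq1 : 1 / α ≤ q := Nat.le_ceil _
  have hq2 : (q : ℝ) < 1 / α + 1 := Nat.ceil_lt_add_one (by linarith)
  have hqpos : 1 ≤ q := by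
    have : (1 : ℝ) ≤ q := hα'.trans hq1
    exact_mod_cast this
  have hqR : (1 : ℝ) ≤ q := by exact_mod_cast hqpos
  have hlog0 : 0 ≤ Real.logb 2 (1 / c) := Real.logb_nonneg (by norm_num) hc'
  have hs1 : Real.logb 2 (1 / c) ≤ s := Nat.le_ceil _
  have hs2 : (s : ℝ) < Real.logb 2 (1 / c) + 1 := Nat.ceil_lt_add_one hlog0
  set ℓ := Real.log (2 / c) with hℓ
  have hln2 : (1 / 2 : ℝ) ≤ Real.log 2 := by
    have := Real.log_two_gt_d9
    linarith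
  have hln2' : Real.log 2 ≤ 1 := by
    have := Real.log_two_lt_d9
    linarith
  have hln20 : (0 : ℝ) < Real.log 2 := by linarith
  have hℓ1 : Real.log 2 ≤ ℓ := by
    rw [hℓ, show (2 : ℝ) / c = 2 * (1 / c) by ring, Real.log_mul (by norm_num) (by positivity)]
    have := Real.log_nonneg hc'
    linarith
  have hone : 1 ≤ 2 * ℓ := by linarith
  have hℓ0 : 0 < ℓ := by linarith
  have hsℓ : (s : ℝ) ≤ 2 * ℓ := by
    have e1 : Real.logb 2 (1 / c) + 1 = ℓ / Real.log 2 := by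
      rw [hℓ, show (2 : ℝ) / c = 2 * (1 / c) by ring,
        Real.log_mul (by norm_num) (by positivity), Real.logb]
      field_simp
      ring
    have e2 : ℓ / Real.log 2 ≤ 2 * ℓ := by
      rw [div_le_iff₀ hln20]
      nlinarith
    linarith
  set m := Real.log (1 / α) with hm
  have hm0 : 0 ≤ m := Real.log_nonneg hα'
  have hq3 : (q : ℝ) ≤ 2 / α := by
    have : (2 : ℝ) / α = 1 / α + 1 / α := by ring
    rw [this]
    linarith
  have hcq : (cqOf3 q : ℝ) ≤ 5 * (1 + m) := by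
    have h1 : (2 : ℝ) ^ (Nat.log 2 (4 * q1Of q)) ≤ 8 * q := by
      have : 2 ^ (Nat.log 2 (4 * q1Of q)) ≤ 4 * q1Of q :=
        Nat.pow_log_le_self 2 (by unfold q1Of; omega)
      have h2 : 4 * q1Of q = 8 * q := by unfold q1Of; ring
      rw [h2] at this ⊢
      exact_mod_cast this
    have h2 : (2 : ℝ) ^ (Nat.log 2 (4 * q1Of q)) ≤ 16 * (1 / α) := by
      have : (8 : ℝ) * q ≤ 8 * (2 / α) := by linarith
      refine (h1.trans this).trans (le_of_eq ?_)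
      ring
    have h3 := Real.log_le_log (by positivity) h2
    rw [Real.log_pow, Real.log_mul (by norm_num) (by positivity), ← hm] at h3
    have h4 : Real.log 16 = 4 * Real.log 2 := by
      rw [show (16 : ℝ) = 2 ^ 4 by norm_num, Real.log_pow]
      norm_num
    rw [h4] at h3
    have h5 : ((Nat.log 2 (4 * q1Of q) : ℕ) : ℝ) ≤ 4 + 2 * m := by
      have h6 : (0 : ℝ) ≤ ((Nat.log 2 (4 * q1Of q) : ℕ) : ℝ) := Nat.cast_nonneg _
      by_contra hcon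
      push Not at hcon
      have h7 : (4 + 2 * m) * Real.log 2 < ((Nat.log 2 (4 * q1Of q) : ℕ) : ℝ) * Real.log 2 :=
        mul_lt_mul_of_pos_right hcon hln20
      nlinarith
    have h6 : (cqOf3 q : ℝ) = ((Nat.log 2 (4 * q1Of q) : ℕ) : ℝ) + 1 := by
      unfold cqOf3; push_cast; rfl
    rw [h6]
    linarith
  have hg : (gOf s : ℝ) ≤ 24 * ℓ := by
    unfold gOf
    push_cast
    linarith
  have hbc : (bcOf q s : ℝ) ≤ 30720 * (ℓ * ((1 + m) / α)) := by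
    have h1 : (bcOf q s : ℝ) = 64 * gOf s * (2 * q) * cqOf3 q := by
      unfold bcOf
      rw [show q1Of q = 2 * q from rfl]
      push_cast
      ring
    rw [h1]
    have h2 : (2 * (q : ℝ)) ≤ 4 / α := by
      have : (4 : ℝ) / α = 2 * (2 / α) := by ring
      linarith
    have h3 : (0 : ℝ) ≤ gOf s := Nat.cast_nonneg _
    have h4 : (0 : ℝ) ≤ cqOf3 q := Nat.cast_nonneg _
    calc 64 * (gOf s : ℝ) * (2 * q) * cqOf3 q ≤ 64 * (24 * ℓ) * (4 / α) * (5 * (1 + m)) := by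
          refine mul_le_mul (mul_le_mul (by linarith) h2 (by positivity) (by positivity)) hcq h4
            (by positivity)
      _ = _ := by field_simp; norm_num
  refine ⟨q, s, hqpos, ?_, ?_, ?_⟩
  · rw [div_le_iff₀ (by linarith)]
    rw [div_le_iff₀ hα] at hq1
    linarith
  · rw [div_le_iff₀ (by positivity)]
    have h1 : (1 / c : ℝ) ≤ 2 ^ s := by
      rw [← Real.rpow_natCast]
      have h2 : (2 : ℝ) ^ (Real.logb 2 (1 / c)) = 1 / c :=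
        Real.rpow_logb (by norm_num) (by norm_num) (by positivity)
      rw [← h2]
      exact Real.rpow_le_rpow_of_exponent_le (by norm_num) hs1
    rw [div_le_iff₀ hc] at h1
    linarith
  · refine hδ.trans ?_
    have hc2 : (0 : ℝ) < c / 2 := by positivity
    rw [Real.rpow_def_of_pos hc2]
    have h1 : Real.log (c / 2) = -ℓ := by
      rw [hℓ, ← Real.log_inv]
      congr 1
      field_simp
    rw [h1]
    set E := 9 * s + 44 + 2 * bcOf q s with hE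
    have h2 : (1 : ℝ) / 2 ^ E = Real.exp (-(E * Real.log 2)) := by
      rw [Real.exp_neg, ← Real.rpow_natCast, Real.rpow_def_of_pos (by norm_num), one_div]
      congr 2
      ring
    rw [h2]
    refine Real.exp_le_exp.2 ?_
    have h3 : (E : ℝ) ≤ 62000 * (ℓ * ((1 + m) / α)) := by
      rw [hE]
      push_cast
      have h4 : ℓ ≤ ℓ * ((1 + m) / α) := by
        have h5 : 1 ≤ (1 + m) / α := by
          rw [le_div_iff₀ hα]
          linarith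
        nlinarith
      linarith
    have h4 : (E : ℝ) * Real.log 2 ≤ E := by
      have : (0 : ℝ) ≤ E := Nat.cast_nonneg _
      nlinarith
    have h5 : -ℓ * (62000 * (1 + m) / α) = -(62000 * (ℓ * ((1 + m) / α))) := by
      field_simp
    rw [h5]
    linarith

end Vale.Agent.P325.V3
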