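import Vale.Agent.P325.V3.Defs3
import Mathlib.Analysis.SpecialFunctions.Pow.Real

/-!
# The partition process for pieces which are lists of constraints
-/

namespace Vale.Agent.P325.V3

open Finset Vale.Agent.P325

variable {V : Type*} {k : ℕ}

section
variable [DecidableEq V]

/-- constraints inside `S` -/
def insC (S : Finset V) (C : List (Con V k)) : List (Con V k) :=
  C.filter fun c => decide (c.1 ∈ S ∧ c.2.1 ∈ S)

/-- constraints outside `S` -/
def outC (S : Finset V) (C : List (Con V k)) : List (Con V k) :=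
  C.filter fun c => decide (c.1 ∉ S ∧ c.2.1 ∉ S)

/-- constraints cut by `S` -/
def cutC (S : Finset V) (C : List (Con V k)) : List (Con V k) :=
  C.filter fun c => decide (¬ (c.1 ∈ S ↔ c.2.1 ∈ S))

theorem perm_split (S : Finset V) (C : List (Con V k)) :
    (insC S C ++ (outC S C ++ cutC S C)).Perm C := by
  induction C with
  | nil => exact List.Perm.refl _
  | cons c C ih =>
    unfold insC outC cutC at *
    by_cases h1 : c.1 ∈ S <;> by_cases h2 : c.2.1 ∈ S
    · simp only [List.filter_cons, h1, h2, not_true, and_self, iff_self, decide_true,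
        decide_false, if_true, Bool.false_eq_true, if_false, List.cons_append] at ih ⊢
      exact ih.cons c
    · simp only [List.filter_cons, h1, h2, not_true, not_false_eq_true, and_false,
        and_true, iff_false, decide_true, decide_false, if_true, Bool.false_eq_true,
        if_false] at ih ⊢
      refine List.Perm.trans ?_ (ih.cons c)
      rw [← List.append_assoc, ← List.append_assoc]
      exact List.perm_middle
    · simp only [List.filter_cons, h1, h2, not_true, not_false_eq_true, and_false,
        and_true, false_iff, decide_true, decide_false, if_true, Bool.false_eq_true,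
        if_false] at ih ⊢
      refine List.Perm.trans ?_ (ih.cons c)
      rw [← List.append_assoc, ← List.append_assoc]
      exact List.perm_middle
    · simp only [List.filter_cons, h1, h2, not_true, not_false_eq_true,
        and_self, iff_self, decide_true, decide_false, if_true, Bool.false_eq_true,
        if_false] at ih ⊢
      refine List.Perm.trans ?_ (ih.cons c)
      exact List.perm_middle

theorem length_split (S : Finset V) (C : List (Con V k)) :
    (insC S C).length + ((outC S C).length + (cutC S C).length) = C.length := by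
  rw [← List.length_append, ← List.length_append]
  exact (perm_split S C).length_eq

theorem volE_base (S : Finset V) (C : List (Con V k)) :
    volE S (base C) = 2 * (insC S C).length + (cutC S C).length := by
  unfold volE base insC cutC
  rw [List.map_map]
  induction C with
  | nil => rfl
  | cons c C ih =>
    simp only [List.map_cons, List.sum_cons, ih, List.filter_cons, Function.comp]
    by_cases h1 : c.1 ∈ S <;> by_cases h2 : c.2.1 ∈ S <;> simp [h1, h2] <;> omega

theorem insE_base (S : Finset V) (C : List (Con V k)) :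
    insE S (base C) = (insC S C).length := by
  unfold insE base insC
  rw [List.countP_map, List.countP_eq_length_filter]
  rfl

/-- the parameters of the process -/
structure Par3 where
  L : ℕ
  r : ℕ
  Bc : ℕ
  T : ℕ

/-- good sets for pieces -/
def GoodC (P : Par3) (C : List (Con V k)) (S : Finset V) : Prop :=
  GoodE P.L P.r P.Bc (base C) S

/-- facts about a good set -/
theorem GoodC.facts {P : Par3} (hr : 1 ≤ P.r) {C : List (Con V k)} {S : Finset V}
    (h : GoodC P C S) : insC S C ≠ [] ∧ outC S C ≠ [] ∧ ∃ y : ℕ,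
      2 ^ y * (insC S C).length ≤ C.length ∧
      C.length ≤ (outC S C).length + 2 ^ exQ P.L P.Bc y * (insC S C).length := by
  obtain ⟨h1, h2, h3⟩ := h
  have hlen : (base C).length = C.length := by simp [base]
  rw [volE_base] at h1
  rw [volE_base, hlen] at h2 h3
  rw [insE_base] at h3
  have hs := length_split S C
  set i := (insC S C).length with hi
  set o := (outC S C).length with ho
  set c := (cutC S C).length with hc
  set m := C.length with hm
  set y := Nat.log 2 (2 * m / (2 * i + c)) with hy
  have hvol : 0 < 2 * i + c := h1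
  have hi0 : 0 < i := by
    rcases Nat.eq_zero_or_pos i with h0 | h0
    · rw [h0, mul_zero] at h3
      omega
    · exact h0
  have hy2 : 2 ≤ y := by
    refine le_trans ?_ h2
    have : Nat.log 2 4 ≤ Nat.log 2 (4 * P.r) := Nat.log_mono_right (by omega)
    have h4 : Nat.log 2 4 = 2 := by
      rw [show (4 : ℕ) = 2 ^ 2 by norm_num, Nat.log_pow (by norm_num)]
    omega
  have hne : 2 * m / (2 * i + c) ≠ 0 := by
    intro h0
    rw [hy, h0, Nat.log_zero_right] at hy2
    omega
  have h4 : 2 ^ y ≤ 2 * m / (2 * i + c) := Nat.pow_log_le_self 2 hne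
  have h5 : 2 ^ y * (2 * i + c) ≤ 2 * m :=
    (Nat.mul_le_mul_right _ h4).trans (Nat.div_mul_le_self _ _)
  refine ⟨?_, ?_, y, ?_, ?_⟩
  · intro h0
    rw [hi, h0] at hi0
    simp at hi0
  · intro h0
    have : o = 0 := by rw [ho, h0]; rfl
    have h6 : 4 ≤ 2 ^ y := by
      calc 4 = 2 ^ 2 := by norm_num
        _ ≤ 2 ^ y := Nat.pow_le_pow_right (by norm_num) hy2
    have h7 : 4 * (2 * i + c) ≤ 2 * m := (Nat.mul_le_mul_right _ h6).trans h5
    omega
  · have : 2 ^ y * (2 * i) ≤ 2 * m := le_trans (Nat.mul_le_mul_left _ (by omega)) h5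
    nlinarith
  · have h8 : (2 ^ exQ P.L P.Bc y + 1) * i = 2 ^ exQ P.L P.Bc y * i + i := by ring
    rw [h8] at h3
    omega

/-! ### The process -/

/-- states: pieces, constraints left, leaves -/
abbrev State3 (V : Type*) (k : ℕ) :=
  List (List (Con V k)) × List (Con V k) × List (List (Con V k))

/-- one step; `NG` = property of the leaves -/
inductive Step3 (P : Par3) (NG : List (Con V k) → Prop) : State3 V k → State3 V k → Prop
  | leaf (C : List (Con V k)) (st : List (List (Con V k))) (rest : List (Con V k))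
      (lv : List (List (Con V k))) (h : NG C) : Step3 P NG (C :: st, rest, lv) (st, rest, C :: lv)
  | split (C : List (Con V k)) (st : List (List (Con V k))) (rest : List (Con V k))
      (lv : List (List (Con V k))) (S : Finset V) (h : GoodC P C S) :
      Step3 P NG (C :: st, rest, lv) (insC S C :: outC S C :: st, cutC S C ++ rest, lv)

/-- states reached after `i` steps -/
inductive Reach3 (P : Par3) (NG : List (Con V k) → Prop) (C0 : List (Con V k)) :
    ℕ → State3 V k → Prop
  | zero : Reach3 P NG C0 0 ([C0], [], [])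
  | succ (i : ℕ) (z z' : State3 V k) (hr : Reach3 P NG C0 i z) (hs : Step3 P NG z z') :
      Reach3 P NG C0 (i + 1) z'

variable {P : Par3} {NG : List (Con V k) → Prop} {C0 : List (Con V k)}

/-- the leaves have the property `NG` -/
theorem Reach3.leaves {i : ℕ} {z : State3 V k} (h : Reach3 P NG C0 i z) :
    ∀ C ∈ z.2.2, NG C := by
  induction h with
  | zero => simp
  | succ i z z' _ hs ih =>
    cases hs with
    | leaf C st rest lv h =>
      intro D hD
      rcases List.mem_cons.1 hD with rfl | hD
      · exact h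
      · exact ih D hD
    | split C st rest lv S h => exact ih

/-- nothing is lost -/
theorem Reach3.perm {i : ℕ} {z : State3 V k} (h : Reach3 P NG C0 i z) :
    (z.1.flatten ++ (z.2.1 ++ z.2.2.flatten)).Perm C0 := by
  induction h with
  | zero => simp
  | succ i z z' _ hs ih =>
    cases hs with
    | leaf C st rest lv h =>
      refine List.Perm.trans ?_ ih
      simp only [List.flatten_cons]
      rw [List.append_assoc]
      -- st ++ (rest ++ (C ++ lv)) ~ C ++ (st ++ (rest ++ lv))
      have h1 : (rest ++ (C ++ lv.flatten)).Perm (C ++ (rest ++ lv.flatten)) :=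
        List.perm_append_comm_assoc _ _ _
      exact (h1.append_left st.flatten).trans (List.perm_append_comm_assoc _ _ _)
    | split C st rest lv S h =>
      refine List.Perm.trans ?_ ih
      simp only [List.flatten_cons, List.append_assoc]
      have h1 := perm_split S C
      -- ins ++ (out ++ (st ++ (cut ++ (rest ++ lv)))) ~ C ++ (st ++ (rest ++ lv))
      have h2 : (st.flatten ++ (cutC S C ++ (rest ++ lv.flatten))).Perm
          (cutC S C ++ (st.flatten ++ (rest ++ lv.flatten))) :=
        List.perm_append_comm_assoc _ _ _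
      have h3 := (h2.append_left (outC S C)).append_left (insC S C)
      refine h3.trans ?_
      have h4 := h1.append_right (st.flatten ++ (rest ++ lv.flatten))
      simp only [List.append_assoc] at h4
      exact h4

/-- the supports of two pieces are disjoint -/
def Disj (C D : List (Con V k)) : Prop :=
  ∀ c ∈ C, ∀ d ∈ D, c.1 ≠ d.1 ∧ c.1 ≠ d.2.1 ∧ c.2.1 ≠ d.1 ∧ c.2.1 ≠ d.2.1

omit [DecidableEq V] in
theorem Disj.symm {C D : List (Con V k)} (h : Disj C D) : Disj D C := fun d hd c hc => by
  obtain ⟨h1, h2, h3, h4⟩ := h c hc d hd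
  exact ⟨h1.symm, h3.symm, h2.symm, h4.symm⟩

omit [DecidableEq V] in
theorem Disj.mono {C C' D : List (Con V k)} (h : Disj C D) (hC : C' ⊆ C) : Disj C' D :=
  fun c hc d hd => h c (hC hc) d hd

theorem disj_split (S : Finset V) (C : List (Con V k)) : Disj (insC S C) (outC S C) := by
  intro c hc d hd
  unfold insC at hc
  unfold outC at hd
  rw [List.mem_filter, decide_eq_true_eq] at hc hd
  obtain ⟨_, h1, h2⟩ := hc
  obtain ⟨_, h3, h4⟩ := hd
  exact ⟨fun h => h3 (h ▸ h1), fun h => h4 (h ▸ h1), fun h => h3 (h ▸ h2), fun h => h4 (h ▸ h2)⟩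

/-- the supports are pairwise disjoint -/
theorem Reach3.disj {i : ℕ} {z : State3 V k} (h : Reach3 P NG C0 i z) :
    (z.1 ++ z.2.2).Pairwise Disj := by
  have hsym : Std.Symm (Disj (V := V) (k := k)) := ⟨fun _ _ h => h.symm⟩
  induction h with
  | zero => simp
  | succ i z z' _ hs ih =>
    cases hs with
    | leaf C st rest lv h =>
      simp only [List.cons_append] at ih ⊢
      exact (List.perm_middle.symm.pairwise_iff fun h => Disj.symm h).1 ih
    | split C st rest lv S h =>
      simp only [List.cons_append, List.pairwise_cons] at ih ⊢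
      obtain ⟨h1, h2⟩ := ih
      have hi : insC S C ⊆ C := List.filter_subset_self _
      have ho : outC S C ⊆ C := List.filter_subset_self _
      refine ⟨?_, ?_, h2⟩
      · intro D hD
        rcases List.mem_cons.1 hD with rfl | hD
        · exact disj_split S C
        · exact (h1 D hD).mono hi
      · intro D hD
        exact (h1 D hD).mono ho

/-- number of steps needed for a piece -/
def pot (C : List (Con V k)) : ℕ := max (2 * C.length - 1) 1

theorem Reach3.steps (hr : 1 ≤ P.r) {i : ℕ} {z : State3 V k} (h : Reach3 P NG C0 i z) :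
    i + (z.1.map pot).sum ≤ pot C0 := by
  induction h with
  | zero => simp
  | succ i z z' _ hs ih =>
    cases hs with
    | leaf C st rest lv h =>
      simp only [List.map_cons, List.sum_cons] at ih ⊢
      have : 1 ≤ pot C := le_max_right _ _
      omega
    | split C st rest lv S h =>
      obtain ⟨h1, h2, _⟩ := h.facts hr
      have h3 := length_split S C
      have h4 := List.length_pos_of_ne_nil h1
      have h5 := List.length_pos_of_ne_nil h2
      simp only [List.map_cons, List.sum_cons] at ih ⊢
      have h6 : pot C = 2 * C.length - 1 := by unfold pot; omega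
      have h7 : pot (insC S C) = 2 * (insC S C).length - 1 := by unfold pot; omega
      have h8 : pot (outC S C) = 2 * (outC S C).length - 1 := by unfold pot; omega
      omega

end

/-! ### The kept weight -/

section Kept

/-- the potential of a piece -/
noncomputable def phi3 (β : ℝ) (C : List (Con V k)) : ℝ := (C.length : ℝ) ^ (1 - β)

theorem phi_split {β : ℝ} (hβ0 : 0 ≤ β) {w i o e y : ℕ} (hi : 0 < i) (ho : 0 < o)
    (h1 : 2 ^ y * i ≤ w) (h2 : w ≤ o + 2 ^ e * i) (he : (e : ℝ) ≤ β * y) (how : o ≤ w) :
    (w : ℝ) ^ (1 - β) ≤ (i : ℝ) ^ (1 - β) + (o : ℝ) ^ (1 - β) := by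
  have hiR : (0 : ℝ) < i := by exact_mod_cast hi
  have hoR : (0 : ℝ) < o := by exact_mod_cast ho
  have hwR : (0 : ℝ) < w := lt_of_lt_of_le hoR (by exact_mod_cast how)
  have e1 : ∀ x : ℝ, 0 < x → x ^ (1 - β) = x * x ^ (-β) := fun x hx => by
    rw [show (1 - β) = 1 + -β by ring, Real.rpow_add hx, Real.rpow_one]
  rw [e1 _ hwR, e1 _ hiR, e1 _ hoR]
  have h3 : (w : ℝ) ^ (-β) ≤ (o : ℝ) ^ (-β) :=
    Real.rpow_le_rpow_of_nonpos hoR (by exact_mod_cast how) (by linarith)
  have h4 : (2 : ℝ) ^ (e : ℝ) * (w : ℝ) ^ (-β) ≤ (i : ℝ) ^ (-β) := by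
    have h5 : (2 : ℝ) ^ y * i ≤ w := by exact_mod_cast h1
    have h6 : (w : ℝ) ^ (-β) ≤ ((2 : ℝ) ^ y * i) ^ (-β) :=
      Real.rpow_le_rpow_of_nonpos (by positivity) h5 (by linarith)
    rw [Real.mul_rpow (by positivity) hiR.le] at h6
    have h7 : ((2 : ℝ) ^ y) ^ (-β) = (2 : ℝ) ^ (-(β * y)) := by
      rw [← Real.rpow_natCast, ← Real.rpow_mul (by norm_num)]
      congr 1; ring
    rw [h7] at h6
    have h8 : (2 : ℝ) ^ (e : ℝ) ≤ (2 : ℝ) ^ (β * y) :=
      Real.rpow_le_rpow_of_exponent_le (by norm_num) he
    calc (2 : ℝ) ^ (e : ℝ) * (w : ℝ) ^ (-β) ≤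
        (2 : ℝ) ^ (β * y) * ((2 : ℝ) ^ (-(β * y)) * (i : ℝ) ^ (-β)) :=
          mul_le_mul h8 h6 (by positivity) (by positivity)
      _ = (i : ℝ) ^ (-β) := by
        rw [← mul_assoc, ← Real.rpow_add (by norm_num)]
        simp
  have h9 : (w : ℝ) ≤ o + 2 ^ (e : ℝ) * i := by
    rw [Real.rpow_natCast]
    exact_mod_cast h2
  have h10 : (0 : ℝ) ≤ (w : ℝ) ^ (-β) := by positivity
  calc (w : ℝ) * (w : ℝ) ^ (-β) ≤ (o + 2 ^ (e : ℝ) * i) * (w : ℝ) ^ (-β) :=
        mul_le_mul_of_nonneg_right h9 h10
    _ = o * (w : ℝ) ^ (-β) + i * (2 ^ (e : ℝ) * (w : ℝ) ^ (-β)) := by ring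
    _ ≤ o * (o : ℝ) ^ (-β) + i * (i : ℝ) ^ (-β) :=
        add_le_add (mul_le_mul_of_nonneg_left h3 hoR.le) (mul_le_mul_of_nonneg_left h4 hiR.le)
    _ = _ := add_comm _ _

variable [DecidableEq V] {P : Par3} {NG : List (Con V k) → Prop} {C0 : List (Con V k)}

theorem exQ_le {L Bc y : ℕ} (hL : 0 < L) : (exQ L Bc y : ℝ) ≤ (Bc : ℝ) / L * y := by
  unfold exQ
  have hLR : (0 : ℝ) < L := by exact_mod_cast hL
  have h1 : (min (Bc * y / L) y : ℕ) ≤ Bc * y / L := min_le_left _ _
  have h2 : ((Bc * y / L : ℕ) : ℝ) ≤ (Bc * y : ℕ) / (L : ℝ) := Nat.cast_div_le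
  have h3 : ((min (Bc * y / L) y : ℕ) : ℝ) ≤ ((Bc * y / L : ℕ) : ℝ) := by exact_mod_cast h1
  refine (h3.trans h2).trans (le_of_eq ?_)
  push_cast
  ring

theorem Reach3.phi (hr : 1 ≤ P.r) (hL : 0 < P.L) {i : ℕ} {z : State3 V k}
    (h : Reach3 P NG C0 i z) : phi3 ((P.Bc : ℝ) / P.L) C0 ≤
      (z.1.map (phi3 ((P.Bc : ℝ) / P.L))).sum + (z.2.2.map (phi3 ((P.Bc : ℝ) / P.L))).sum := by
  have hLR : (0 : ℝ) < P.L := by exact_mod_cast hL
  have hβ0 : 0 ≤ (P.Bc : ℝ) / P.L := by positivity
  induction h with
  | zero => simp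
  | succ i z z' _ hs ih =>
    refine ih.trans ?_
    cases hs with
    | leaf C st rest lv h =>
      simp only [List.map_cons, List.sum_cons]
      linarith
    | split C st rest lv S h =>
      obtain ⟨h1, h2, y, h3, h4⟩ := h.facts hr
      have h5 := length_split S C
      have h6 := phi_split hβ0 (List.length_pos_of_ne_nil h1) (List.length_pos_of_ne_nil h2)
        h3 h4 (exQ_le hL) (by omega)
      simp only [List.map_cons, List.sum_cons]
      unfold phi3 at *
      linarith

/-- the kept weight of a layer -/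
theorem Reach3.kept (hr : 1 ≤ P.r) (hL : 0 < P.L) (hB : P.Bc < P.L) {i : ℕ}
    {rest : List (Con V k)} {lv : List (List (Con V k))}
    (h : Reach3 P NG C0 i ([], rest, lv)) (hC : C0.length ≤ 2 ^ P.L) :
    C0.length ≤ 2 ^ P.Bc * lv.flatten.length := by
  have hLR : (0 : ℝ) < P.L := by exact_mod_cast hL
  have hBR : (P.Bc : ℝ) < P.L := by exact_mod_cast hB
  set β := (P.Bc : ℝ) / P.L with hβ
  have hβ1 : β < 1 := by
    rw [hβ, div_lt_one hLR]
    exact hBR
  have hβ0 : 0 ≤ β := by positivity
  have h1 := h.phi hr hL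
  simp only [List.map_nil, List.sum_nil, zero_add] at h1
  rw [← hβ] at h1
  have h2 : (lv.map (phi3 β)).sum ≤ (lv.flatten.length : ℝ) := by
    rw [List.length_flatten, Nat.cast_list_sum, List.map_map]
    refine List.sum_le_sum fun C _ => ?_
    unfold phi3
    show (C.length : ℝ) ^ (1 - β) ≤ ((C.length : ℕ) : ℝ)
    rcases Nat.eq_zero_or_pos C.length with h0 | h0
    · rw [h0, Nat.cast_zero, Real.zero_rpow (by linarith)]
    · have h3 : (1 : ℝ) ≤ C.length := by exact_mod_cast h0
      calc (C.length : ℝ) ^ (1 - β) ≤ (C.length : ℝ) ^ (1 : ℝ) :=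
            Real.rpow_le_rpow_of_exponent_le h3 (by linarith)
        _ = _ := Real.rpow_one _
  rcases Nat.eq_zero_or_pos C0.length with h0 | h0
  · rw [h0]; exact Nat.zero_le _
  · have h3 : (0 : ℝ) < C0.length := by exact_mod_cast h0
    have h4 : (C0.length : ℝ) ^ β ≤ 2 ^ P.Bc := by
      calc (C0.length : ℝ) ^ β ≤ ((2 : ℝ) ^ P.L) ^ β :=
            Real.rpow_le_rpow h3.le (by exact_mod_cast hC) hβ0
        _ = (2 : ℝ) ^ (P.Bc : ℝ) := by
          rw [← Real.rpow_natCast 2 P.L, ← Real.rpow_mul (by norm_num), hβ]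
          congr 1
          field_simp
        _ = _ := Real.rpow_natCast _ _
    have h5 : (C0.length : ℝ) = phi3 β C0 * (C0.length : ℝ) ^ β := by
      unfold phi3
      rw [← Real.rpow_add h3]
      simp
    have h6 : 0 ≤ (lv.flatten.length : ℝ) := Nat.cast_nonneg _
    have h7 : (C0.length : ℝ) ≤ 2 ^ P.Bc * lv.flatten.length := by
      rw [h5]
      calc phi3 β C0 * (C0.length : ℝ) ^ β ≤ lv.flatten.length * 2 ^ P.Bc :=
            mul_le_mul (h1.trans h2) h4 (by positivity) h6
        _ = _ := mul_comm _ _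
    exact_mod_cast h7

end Kept

end Vale.Agent.P325.V3
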