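import Vale.Agent.P325.V3.Alg3
import Vale.Agent.P325.V3.Proc3
import Vale.Agent.P325.AlgSpec3

/-!
# The list functions compute the right things: walks, candidate sets, a layer
-/

namespace Vale.Agent.P325.V3

open Finset Vale.Agent.P325 Vale.Agent.P325.Alg Alg3

section Walk

variable {X : Type*} {N : ℕ} (e : X ≃ Fin N) [DecidableEq X]

theorem mv3_eq (E : List (X × X)) (h : X → ℕ) : mv3 N (edg e E) (enl e h) = enl e (mvN3 E h) := by
  unfold mv3
  rw [tab_eq e]
  refine enl_congr e fun x => ?_
  unfold mvN3 edg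
  rw [List.map_map]
  congr 1
  refine List.map_congr_left fun p _ => ?_
  simp only [Function.comp, mvE3, gt_enl, idx_inj]

theorem deg3_eq (E : List (X × X)) : deg3 N (edg e E) = enl e (degN3 E) := by
  unfold deg3
  rw [tab_eq e, mv3_eq]
  rfl

variable [Fintype X]

theorem QpL3_eq (E : List (X × X)) : QpL (enl e (degN3 E)) = QN3 E := by
  unfold QpL QN3
  rw [enl_map_prod]

theorem step3_eq (E : List (X × X)) (h : X → ℕ) :
    step3 N (edg e E) (enl e (degN3 E)) (QN3 E) (enl e h) = enl e (stepN3 E h) := by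
  unfold step3 scaleL
  rw [mv3_eq, tab_eq e]
  refine enl_congr e fun x => ?_
  rw [gt_enl, gt_enl]
  rfl

theorem iter3_eq (E : List (X × X)) (h : X → ℕ) (t : ℕ) :
    iter3 N (edg e E) (enl e (degN3 E)) (QN3 E) t (enl e h) = enl e ((stepN3 E)^[t] h) := by
  unfold iter3
  induction t with
  | zero => rfl
  | succ t ih => rw [Function.iterate_succ_apply', Function.iterate_succ_apply', ih, step3_eq]

theorem lev3_eq (E : List (X × X)) (v : X) (t : ℕ) :
    lev3 N (edg e E) (enl e (degN3 E)) (QN3 E) (idx e v) t = enl e (levN3 E v t) := by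
  unfold lev3 levOf
  have h1 : tab N (fun x => if x = idx e v then 1 else 0) =
      enl e fun x => if x = v then 1 else 0 := by
    rw [tab_eq e]
    exact enl_congr e fun x => by simp only [idx_inj]
  rw [h1, iter3_eq, step3_eq, tab_eq e]
  refine enl_congr e fun x => ?_
  rw [gt_enl, gt_enl]
  unfold levN3 heatN3
  rw [Function.iterate_succ_apply']

omit [Fintype X] in
/-- characteristic vector of a set -/
def chi (S : Finset X) (x : X) : ℕ := if x ∈ S then 1 else 0

theorem setL_eq (Y : X → ℕ) (y : X) : setL N (enl e Y) (idx e y) = enl e (chi (lset Y y)) := by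
  unfold setL
  rw [tab_eq e]
  refine enl_congr e fun x => ?_
  rw [gt_enl, gt_enl]
  unfold chi lset
  by_cases h : Y y ≤ Y x <;> simp [h]

end Walk

section Cons

variable {V : Type*} {k N : ℕ} (e : V ≃ Fin N) [DecidableEq V]

theorem insL_eq (S : Finset V) (C : List (Con V k)) :
    insL (enl e (chi S)) (conL e C) = conL e (insC S C) := by
  unfold insL insC conL
  rw [List.filter_map]
  congr 1
  refine List.filter_congr fun c _ => ?_
  simp only [Function.comp, gt_enl, chi]
  by_cases h1 : c.1 ∈ S <;> by_cases h2 : c.2.1 ∈ S <;> simp [h1, h2]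

theorem outL_eq (S : Finset V) (C : List (Con V k)) :
    outL (enl e (chi S)) (conL e C) = conL e (outC S C) := by
  unfold outL outC conL
  rw [List.filter_map]
  congr 1
  refine List.filter_congr fun c _ => ?_
  simp only [Function.comp, gt_enl, chi]
  by_cases h1 : c.1 ∈ S <;> by_cases h2 : c.2.1 ∈ S <;> simp [h1, h2]

theorem cutL_eq (S : Finset V) (C : List (Con V k)) :
    cutL (enl e (chi S)) (conL e C) = conL e (cutC S C) := by
  unfold cutL cutC conL
  rw [List.filter_map]
  congr 1
  refine List.filter_congr fun c _ => ?_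
  simp only [Function.comp, gt_enl, chi]
  by_cases h1 : c.1 ∈ S <;> by_cases h2 : c.2.1 ∈ S <;> simp [h1, h2]

theorem volL_eq (S : Finset V) (C : List (Con V k)) :
    volL (enl e (chi S)) (conL e C) = volE S (base C) := by
  unfold volL volE conL base
  rw [List.map_map, List.map_map]
  congr 1
  refine List.map_congr_left fun c _ => ?_
  simp only [Function.comp, gt_enl, chi]

omit [DecidableEq V] in
theorem length_conL (C : List (Con V k)) : (conL e C).length = C.length := by
  unfold conL
  rw [List.length_map]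

theorem goodN_iff (L r Bc m vol i : ℕ) : goodN L r Bc m vol i = true ↔ GoodN L r Bc m vol i := by
  unfold goodN GoodN
  simp only [Bool.and_eq_true, decide_eq_true_eq, lg_eq]
  unfold exP exQ
  tauto

theorem goodS_iff (P : Par3) (C : List (Con V k)) (S : Finset V) :
    goodS P.L P.r P.Bc (conL e C) (enl e (chi S)) = true ↔ GoodC P C S := by
  unfold goodS GoodC GoodE
  rw [goodN_iff, volL_eq, insL_eq, length_conL, length_conL, insE_base]
  simp [base]

variable [Fintype V]

theorem candL_eq (E : List (V × V)) (T : ℕ) (v : V) {t : ℕ} (ht : t < T) (y : V) :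
    candL N (edg e E) (enl e (degN3 E)) (QN3 E) T (idx e v, t, idx e y) =
      enl e (chi (lset (levN3 E v t) y)) := by
  unfold candL
  simp only
  rw [min_eq_left ht.le, lev3_eq, setL_eq]

omit [DecidableEq V] [Fintype V] in
theorem mem_tripL {T : ℕ} (v : V) {t : ℕ} (ht : t < T) (y : V) :
    (idx e v, t, idx e y) ∈ tripL N T := by
  unfold tripL
  rw [List.mem_flatMap]
  refine ⟨idx e v, List.mem_range.2 (idx_lt e v), ?_⟩
  rw [List.mem_flatMap]
  refine ⟨t, List.mem_range.2 ht, ?_⟩
  rw [List.mem_map]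
  exact ⟨idx e y, List.mem_range.2 (idx_lt e y), rfl⟩

theorem find3_none (P : Par3) (C : List (Con V k))
    (h : find3 N (edg e (base C)) (enl e (degN3 (base C))) (QN3 (base C)) P.L P.r P.Bc P.T
      (conL e C) = none) : NoGood P.L P.r P.Bc P.T (base C) := by
  intro v t ht y hg
  unfold find3 at h
  rw [List.find?_eq_none] at h
  refine h _ (mem_tripL e v ht y) ?_
  rw [candL_eq e _ _ v ht y]
  exact (goodS_iff e P C _).2 hg

theorem find3_some (P : Par3) (C : List (Con V k)) {p : ℕ × ℕ × ℕ}
    (h : find3 N (edg e (base C)) (enl e (degN3 (base C))) (QN3 (base C)) P.L P.r P.Bc P.T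
      (conL e C) = some p) : ∃ S : Finset V, GoodC P C S ∧
      candL N (edg e (base C)) (enl e (degN3 (base C))) (QN3 (base C)) P.T p =
        enl e (chi S) := by
  unfold find3 at h
  have h1 := List.mem_of_find?_eq_some h
  have h2 := List.find?_some h
  unfold tripL at h1
  rw [List.mem_flatMap] at h1
  obtain ⟨v, hv, h3⟩ := h1
  rw [List.mem_flatMap] at h3
  obtain ⟨t, ht, h4⟩ := h3
  rw [List.mem_map] at h4
  obtain ⟨y, hy, rfl⟩ := h4
  obtain ⟨x, rfl⟩ := exists_idx e (List.mem_range.1 hv)
  obtain ⟨z, rfl⟩ := exists_idx e (List.mem_range.1 hy)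
  rw [List.mem_range] at ht
  have h5 := candL_eq e (base C) P.T x ht z
  refine ⟨_, ?_, h5⟩
  rw [h5] at h2
  exact (goodS_iff e P C _).1 h2

/-- the parameters of the process -/
def par (P : Num3) : Par3 := ⟨P.L, P.r, P.Bc, 2 * P.T2⟩

/-- property of the leaves -/
def Leaf3 (P : Num3) (C : List (Con V k)) : Prop := NoGood P.L P.r P.Bc (2 * P.T2) (base C)

/-- value of a leaf -/
def leafV (P : Num3) (C : List (Con V k)) : ℕ := leaf3 k N P (conL e C)

/-- a state as numbers -/
def stN3 (P : Num3) (z : State3 V k) : St3 :=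
  (z.1.map (conL e), conL e z.2.1, (z.2.2.map (leafV e P)).sum)

theorem loop3_step (P : Num3) (z : State3 V k) (hz : z.1 ≠ []) :
    ∃ z', Step3 (par P) (Leaf3 P) z z' ∧ loop3 k N P (stN3 e P z) = stN3 e P z' := by
  obtain ⟨st, rest, lv⟩ := z
  cases st with
  | nil => exact absurd rfl hz
  | cons C st =>
    have h0 : loop3 k N P (stN3 e P (C :: st, rest, lv)) =
        treat3 k N P (conL e C) (st.map (conL e)) (conL e rest) (lv.map (leafV e P)).sum
          (enl e (degN3 (base C))) := by
      unfold loop3 stN3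
      simp only [List.map_cons]
      rw [baseL_eq, deg3_eq]
    rw [h0]
    unfold treat3
    rw [QpL3_eq, baseL_eq]
    rcases hf : find3 N (edg e (base C)) (enl e (degN3 (base C))) (QN3 (base C)) P.L P.r P.Bc
      (2 * P.T2) (conL e C) with _ | p
    · refine ⟨(st, rest, C :: lv), Step3.leaf C st rest lv (find3_none e (par P) C hf), ?_⟩
      unfold stN3
      simp only [List.map_cons, List.sum_cons]
      rw [add_comm (leafV e P C)]
      rfl
    · obtain ⟨S, hS, hS'⟩ := find3_some e (par P) C hf
      refine ⟨_, Step3.split C st rest lv S hS, ?_⟩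
      have hS'' : candL N (edg e (base C)) (enl e (degN3 (base C))) (QN3 (base C)) (2 * P.T2) p =
        enl e (chi S) := hS'
      simp only [hS'']
      unfold split3 stN3
      simp only [List.map_cons, insL_eq, outL_eq, cutL_eq]
      congr 2
      unfold conL
      rw [List.map_append]

omit [DecidableEq V] [Fintype V] in
theorem loop3_nil (P : Num3) (z : State3 V k) (hz : z.1 = []) :
    loop3 k N P (stN3 e P z) = stN3 e P z := by
  unfold loop3 stN3
  rw [hz]
  rfl

theorem loop3_reach (P : Num3) (C0 : List (Con V k)) (i : ℕ) : ∃ (z : State3 V k) (j : ℕ),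
    Reach3 (par P) (Leaf3 P) C0 j z ∧ (j = i ∨ z.1 = []) ∧
      (loop3 k N P)^[i] ([conL e C0], [], 0) = stN3 e P z := by
  induction i with
  | zero => exact ⟨_, 0, Reach3.zero, Or.inl rfl, rfl⟩
  | succ i ih =>
    obtain ⟨z, j, h1, h2, h3⟩ := ih
    rw [Function.iterate_succ_apply', h3]
    by_cases hz : z.1 = []
    · exact ⟨z, j, h1, Or.inr hz, loop3_nil e P z hz⟩
    · obtain ⟨z', h4, h5⟩ := loop3_step e P z hz
      refine ⟨z', j + 1, Reach3.succ j z z' h1 h4, Or.inl ?_, h5⟩
      rcases h2 with h2 | h2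
      · rw [h2]
      · exact absurd h2 hz

/-- a layer -/
theorem layer3_eq (P : Num3) (hr : 1 ≤ P.r) (C0 : List (Con V k)) (hB : 2 * C0.length < P.B)
    (hB1 : 1 < P.B) :
    ∃ (j : ℕ) (rest : List (Con V k)) (lv : List (List (Con V k))),
      Reach3 (par P) (Leaf3 P) C0 j ([], rest, lv) ∧
      layer3 k N P (conL e C0) = (conL e rest, (lv.map (leafV e P)).sum) := by
  obtain ⟨z, j, h1, h2, h3⟩ := loop3_reach e P C0 P.B
  have h4 : z.1 = [] := by
    rcases h2 with h2 | h2
    · have h5 := h1.steps hr
      have h6 : pot C0 ≤ max (2 * C0.length) 1 := max_le_max (Nat.sub_le _ _) le_rfl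
      omega
    · exact h2
  obtain ⟨st, rest, lv⟩ := z
  simp only at h4
  subst h4
  refine ⟨j, rest, lv, h1, ?_⟩
  unfold layer3
  rw [h3]
  rfl

/-- all layers -/
theorem run3_eq (P : Num3) (hr : 1 ≤ P.r) (C0 : List (Con V k)) (hB : 2 * C0.length < P.B)
    (hB1 : 1 < P.B) (T0 : ℕ) :
    ∃ (E : ℕ → List (Con V k)) (lv : ℕ → List (List (Con V k))), E 0 = C0 ∧
      (∀ t < T0, ∃ i, Reach3 (par P) (Leaf3 P) (E t) i ([], E (t + 1), lv t)) ∧
      (run3 k N P T0 (conL e C0) = true ↔
        ∃ t < T0, C0.length ≤ thr3 P * ((lv t).map (leafV e P)).sum) := by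
  have hstep : ∀ C : List (Con V k), C.length ≤ C0.length → ∃ (rest : List (Con V k))
      (lv : List (List (Con V k))), (∃ i, Reach3 (par P) (Leaf3 P) C i ([], rest, lv)) ∧
      rest.length ≤ C0.length ∧
      layer3 k N P (conL e C) = (conL e rest, (lv.map (leafV e P)).sum) := by
    intro C hC
    obtain ⟨j, rest, lv, h1, h2⟩ := layer3_eq e P hr C (by omega) hB1
    refine ⟨rest, lv, ⟨j, h1⟩, ?_, h2⟩
    have h3 := h1.perm.length_eq
    simp only [List.flatten_nil, List.nil_append, List.length_append] at h3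
    omega
  choose! F G h1 h2 h3 using hstep
  have hlen : ∀ t, (F^[t] C0).length ≤ C0.length := by
    intro t
    induction t with
    | zero => exact le_rfl
    | succ t ih => rw [Function.iterate_succ_apply']; exact h2 _ ih
  refine ⟨fun t => F^[t] C0, fun t => G (F^[t] C0), rfl, fun t _ => ?_, ?_⟩
  · obtain ⟨i, hi⟩ := h1 _ (hlen t)
    refine ⟨i, ?_⟩
    show Reach3 (par P) (Leaf3 P) (F^[t] C0) i ([], F^[t + 1] C0, G (F^[t] C0))
    rw [Function.iterate_succ_apply']
    exact hi
  · have key : ∀ T0, ∃ b : Bool, ((fun z : Cons × Bool => layT (conL e C0).length (thr3 P) z.2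
        (layer3 k N P z.1))^[T0] (conL e C0, false)) = (conL e (F^[T0] C0), b) ∧
        (b = true ↔ ∃ t < T0, C0.length ≤ thr3 P * ((G (F^[t] C0)).map (leafV e P)).sum) := by
      intro T0
      induction T0 with
      | zero => exact ⟨false, rfl, by simp⟩
      | succ T0 ih =>
        obtain ⟨b, h4, h5⟩ := ih
        rw [Function.iterate_succ_apply', h4]
        refine ⟨b || decide (C0.length ≤ thr3 P * ((G (F^[T0] C0)).map (leafV e P)).sum), ?_, ?_⟩
        · simp only
          rw [h3 _ (hlen T0), length_conL, Function.iterate_succ_apply']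
          rfl
        · rw [Bool.or_eq_true, decide_eq_true_eq, h5]
          constructor
          · rintro (⟨t, ht, h⟩ | h)
            · exact ⟨t, by omega, h⟩
            · exact ⟨T0, by omega, h⟩
          · rintro ⟨t, ht, h⟩
            rcases Nat.lt_succ_iff_lt_or_eq.1 ht with h6 | h6
            · exact Or.inl ⟨t, h6, h⟩
            · subst h6
              exact Or.inr h
    obtain ⟨b, h4, h5⟩ := key T0
    unfold run3
    rw [h4]
    exact h5

end Cons

end Vale.Agent.P325.V3
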