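import Vale.Agent.P325.V3.Defs3
import Vale.Agent.P325.Leaf
import Vale.Agent.P325.Lift

/-!
# The two-step form of a symmetric weight, and the form `form3`
-/

namespace Vale.Agent.P325.V3

open Finset Vale.Agent.P325

section Two

variable {X : Type*} [Fintype X] {M : X → X → ℝ}

/-- symmetric, nonnegative entries -/
structure Sym {X : Type*} (M : X → X → ℝ) : Prop where
  symm : ∀ x y, M x y = M y x
  nonneg : ∀ x y, 0 ≤ M x y

/-- the two-step form -/
noncomputable def two (M : X → X → ℝ) (x y : X) : ℝ := ∑ w, M x w * M w y / deg M w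

theorem Sym.deg_nonneg (hM : Sym M) (x : X) : 0 ≤ deg M x := sum_nonneg fun y _ => hM.nonneg x y

theorem Sym.tot_nonneg (hM : Sym M) : 0 ≤ tot M := sum_nonneg fun x _ => hM.deg_nonneg x

theorem Sym.eq_zero_of_deg (hM : Sym M) {x : X} (hx : deg M x = 0) (y : X) : M x y = 0 := by
  have := (sum_eq_zero_iff_of_nonneg fun y _ => hM.nonneg x y).1 hx
  exact this y (mem_univ y)

theorem Sym.deg_mul_walk (hM : Sym M) (h : X → ℝ) (x : X) :
    deg M x * walk M h x = ∑ y, M x y * h y := by
  unfold walk
  by_cases hx : deg M x = 0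
  · rw [hx, zero_mul]
    refine (sum_eq_zero fun y _ => ?_).symm
    rw [hM.eq_zero_of_deg hx y, zero_mul]
  · field_simp

theorem Sym.walk_nonneg (hM : Sym M) {h : X → ℝ} (hh : ∀ x, 0 ≤ h x) (x : X) :
    0 ≤ walk M h x :=
  div_nonneg (sum_nonneg fun y _ => mul_nonneg (hM.nonneg x y) (hh y)) (hM.deg_nonneg x)

/-- self-adjointness of the walk -/
theorem Sym.ip_walk (hM : Sym M) (h g : X → ℝ) : ip M (walk M h) g = ip M h (walk M g) := by
  have h1 : ∀ f g : X → ℝ, ip M (walk M f) g = ∑ x, ∑ y, M x y * (f y * g x) := by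
    intro f g
    unfold ip
    refine sum_congr rfl fun x _ => ?_
    rw [← mul_assoc, hM.deg_mul_walk, sum_mul]
    exact sum_congr rfl fun y _ => by ring
  rw [h1, ip_comm, h1, sum_comm]
  refine sum_congr rfl fun x _ => sum_congr rfl fun y _ => ?_
  rw [hM.symm]; ring

theorem Sym.deg_two (hM : Sym M) (x : X) : deg (two M) x = deg M x := by
  have h1 : ∀ w, ∑ y, M x w * M w y / deg M w = M x w := by
    intro w
    have e : ∀ y, M x w * M w y / deg M w = M x w / deg M w * M w y := fun y => by ring
    simp_rw [e]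
    rw [← mul_sum]
    change M x w / deg M w * deg M w = M x w
    by_cases hw : deg M w = 0
    · have h2 := hM.eq_zero_of_deg hw x
      rw [hM.symm] at h2
      rw [h2]; simp
    · field_simp
  unfold two
  rw [show deg (fun x y => ∑ w, M x w * M w y / deg M w) x =
    ∑ y, ∑ w, M x w * M w y / deg M w from rfl, sum_comm]
  exact sum_congr rfl fun w _ => h1 w

theorem Sym.tot_two (hM : Sym M) : tot (two M) = tot M :=
  sum_congr rfl fun x _ => hM.deg_two x

theorem Sym.nrm_two (hM : Sym M) (h : X → ℝ) : nrm (two M) h = nrm M h :=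
  sum_congr rfl fun x _ => by rw [hM.deg_two x]

theorem Sym.ip_two (hM : Sym M) (h g : X → ℝ) : ip (two M) h g = ip M h g :=
  sum_congr rfl fun x _ => by rw [hM.deg_two x]

theorem Sym.walk_two (hM : Sym M) (h : X → ℝ) : walk (two M) h = walk M (walk M h) := by
  funext x
  unfold walk
  rw [hM.deg_two]
  congr 1
  unfold two
  simp_rw [sum_mul]
  rw [sum_comm]
  refine sum_congr rfl fun w _ => ?_
  rw [mul_div_assoc', mul_sum, sum_div]
  exact sum_congr rfl fun y _ => by ring

theorem Sym.two_nonneg (hM : Sym M) (x y : X) : 0 ≤ two M x y :=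
  sum_nonneg fun w _ => div_nonneg (mul_nonneg (hM.nonneg _ _) (hM.nonneg _ _)) (hM.deg_nonneg w)

theorem Sym.two_symm (hM : Sym M) (x y : X) : two M x y = two M y x := by
  unfold two
  refine sum_congr rfl fun w _ => ?_
  rw [hM.symm x w, hM.symm w y, mul_comm]

theorem Sym.symTwo (hM : Sym M) : Sym (two M) := ⟨hM.two_symm, hM.two_nonneg⟩

theorem Sym.Q_two (hM : Sym M) (h : X → ℝ) : Q (two M) h h = nrm M (walk M h) := by
  have h1 : Q (two M) h h = ip (two M) (walk (two M) h) h := by
    unfold Q ip
    refine sum_congr rfl fun x _ => ?_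
    rw [← mul_assoc, hM.symTwo.deg_mul_walk, sum_mul]
    exact sum_congr rfl fun y _ => by ring
  rw [h1, hM.walk_two, hM.ip_two, hM.ip_walk, ip_self]

theorem Sym.nrm_nonneg (hM : Sym M) (h : X → ℝ) : 0 ≤ nrm M h :=
  sum_nonneg fun x _ => mul_nonneg (hM.deg_nonneg x) (sq_nonneg _)

theorem Sym.isForm_two (hM : Sym M) : IsForm (two M) where
  symm := hM.two_symm
  nonneg := hM.two_nonneg
  psd h := by rw [hM.Q_two]; exact hM.nrm_nonneg _

/-- the walk is a contraction -/
theorem Sym.nrm_walk_le (hM : Sym M) (h : X → ℝ) : nrm M (walk M h) ≤ nrm M h := by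
  rw [← hM.Q_two, ← hM.nrm_two]
  exact hM.isForm_two.Q_le_nrm h

theorem Sym.iter_two (hM : Sym M) (T : ℕ) : (walk (two M))^[T] = (walk M)^[2 * T] := by
  have h1 : walk (two M) = (walk M)^[2] := by
    funext h
    rw [hM.walk_two]
    rfl
  rw [h1, ← Function.iterate_mul]

theorem Sym.filt_two (hM : Sym M) (T S : ℕ) (h : X → ℝ) :
    filt (two M) T S h = filt M (2 * T) S h := by
  unfold filt
  rw [hM.iter_two]

variable [DecidableEq X]

theorem Sym.heat_two (hM : Sym M) (v : X) (T : ℕ) : heat (two M) v T = heat M v (2 * T) := by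
  unfold heat
  rw [hM.iter_two]

omit [DecidableEq X] in
theorem Sym.sum_deg_walk (hM : Sym M) (h : X → ℝ) :
    ∑ x, deg M x * walk M h x = ∑ x, deg M x * h x := by
  simp_rw [hM.deg_mul_walk]
  rw [sum_comm]
  refine sum_congr rfl fun x _ => ?_
  unfold deg
  rw [sum_mul]
  exact sum_congr rfl fun y _ => by rw [hM.symm]

theorem Sym.heat_nonneg (hM : Sym M) (v : X) (t : ℕ) (u : X) : 0 ≤ heat M v t u := by
  induction t generalizing u with
  | zero => simp only [heat_zero]; split_ifs <;> norm_num
  | succ t ih => rw [heat_succ]; exact hM.walk_nonneg ih u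

theorem Sym.sum_deg_heat (hM : Sym M) (v : X) (t : ℕ) :
    ∑ u, deg M u * heat M v t u = deg M v := by
  induction t with
  | zero => simp
  | succ t ih => rw [heat_succ, hM.sum_deg_walk, ih]

end Two

section Proj

variable {V : Type*} [Fintype V] {k : ℕ} {M : V → V → ℝ} {Mh : V × Fin k → V × Fin k → ℝ}

theorem proj_two (hproj : ∀ u i v, ∑ j, Mh (u, i) (v, j) = M u v) (u : V) (i : Fin k) (v : V) :
    ∑ j, two Mh (u, i) (v, j) = two M u v := by
  have hd : ∀ w l, deg Mh (w, l) = deg M w := by
    intro w l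
    unfold deg
    rw [Fintype.sum_prod_type]
    exact sum_congr rfl fun v _ => hproj w l v
  unfold two
  rw [sum_comm, Fintype.sum_prod_type]
  refine sum_congr rfl fun w _ => ?_
  have h1 : ∀ l, ∑ j, Mh (u, i) (w, l) * Mh (w, l) (v, j) / deg Mh (w, l) =
      Mh (u, i) (w, l) * (M w v / deg M w) := by
    intro l
    rw [hd, ← sum_div, ← mul_sum, hproj]
    ring
  simp_rw [h1]
  rw [← sum_mul, hproj]
  ring

end Proj

section Form3

variable {X : Type*} [DecidableEq X]

theorem sym_form3 (E : List (X × X)) : Sym (form3 E) where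
  symm x y := by
    unfold form3
    congr 1
    refine List.map_congr_left fun e _ => ?_
    rw [add_comm]
    congr 1
    · exact if_congr and_comm rfl rfl
    · exact if_congr and_comm rfl rfl
  nonneg x y := by
    unfold form3
    refine List.sum_nonneg fun z hz => ?_
    rw [List.mem_map] at hz
    obtain ⟨e, _, rfl⟩ := hz
    positivity

variable [Fintype X]

/-- the weighted sum of a function over the neighbours -/
theorem sum_form3_mul (E : List (X × X)) (h : X → ℝ) (x : X) :
    ∑ y, form3 E x y * h y =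
      (E.map fun e => (if x = e.1 then h e.2 else 0) + (if x = e.2 then h e.1 else 0)).sum := by
  unfold form3
  have h1 : ∀ y, (E.map fun e => ((if x = e.1 ∧ y = e.2 then 1 else 0) +
      (if x = e.2 ∧ y = e.1 then 1 else 0) : ℝ)).sum * h y =
      (E.map fun e => ((if x = e.1 ∧ y = e.2 then 1 else 0) +
      (if x = e.2 ∧ y = e.1 then 1 else 0) : ℝ) * h y).sum := by
    intro y
    rw [← List.sum_map_mul_right]
  simp_rw [h1]
  rw [sum_list_map_comm]
  congr 1
  refine List.map_congr_left fun e _ => ?_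
  simp_rw [add_mul]
  rw [sum_add_distrib]
  congr 1
  · by_cases hx : x = e.1
    · simp [hx]
    · simp [hx]
  · by_cases hx : x = e.2
    · simp [hx]
    · simp [hx]

theorem deg_form3 (E : List (X × X)) (x : X) :
    deg (form3 E) x =
      (E.map fun e => ((if x = e.1 then 1 else 0) + (if x = e.2 then 1 else 0) : ℝ)).sum := by
  have := sum_form3_mul E (fun _ => 1) x
  simpa [deg] using this

theorem sum_deg_form3 (E : List (X × X)) (h : X → ℝ) :
    ∑ x, deg (form3 E) x * h x = (E.map fun e => h e.1 + h e.2).sum := by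
  have h1 : ∀ x, deg (form3 E) x * h x =
      (E.map fun e => ((if x = e.1 then 1 else 0) + (if x = e.2 then 1 else 0) : ℝ) * h x).sum := by
    intro x
    rw [deg_form3, ← List.sum_map_mul_right]
  simp_rw [h1]
  rw [sum_list_map_comm]
  congr 1
  refine List.map_congr_left fun e _ => ?_
  simp_rw [add_mul]
  rw [sum_add_distrib]
  simp

theorem tot_form3 (E : List (X × X)) : tot (form3 E) = 2 * E.length := by
  have h1 := sum_deg_form3 E (fun _ => 1)
  simp only [mul_one] at h1
  unfold tot
  rw [h1]
  simp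
  ring

theorem degN3_cast (E : List (X × X)) (x : X) : (degN3 E x : ℝ) = deg (form3 E) x := by
  rw [deg_form3]
  unfold degN3 mvN3
  rw [Nat.cast_list_sum, List.map_map]
  congr 1
  refine List.map_congr_left fun e _ => ?_
  simp only [Function.comp]
  push_cast
  rfl

end Form3

section Lift3

variable {V : Type*} [DecidableEq V] {k : ℕ}

theorem proj_form3 (C : List (Con V k)) (u : V) (i : Fin k) (v : V) :
    ∑ j, form3 (lift C) (u, i) (v, j) = form3 (base C) u v := by
  unfold form3
  rw [sum_list_map_comm, sum_map_lift]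
  unfold base
  rw [List.map_map]
  congr 1
  refine List.map_congr_left fun c _ => ?_
  simp only [Function.comp]
  have h1 : ∀ l : Fin k, ∑ j : Fin k,
      ((if (u, i) = (c.1, l) ∧ (v, j) = (c.2.1, c.2.2 l) then 1 else 0) +
        (if (u, i) = (c.2.1, c.2.2 l) ∧ (v, j) = (c.1, l) then 1 else 0) : ℝ) =
      (if u = c.1 ∧ v = c.2.1 then (if i = l then 1 else 0) else 0) +
        (if u = c.2.1 ∧ v = c.1 then (if i = c.2.2 l then 1 else 0) else 0) := by
    intro l
    rw [sum_add_distrib]
    congr 1
    · by_cases h : u = c.1 ∧ v = c.2.1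
      · by_cases h' : i = l
        · simp [h, h']
        · simp [h, h']
      · rw [if_neg h]
        refine sum_eq_zero fun j _ => if_neg fun h' => h ⟨?_, ?_⟩
        · exact (Prod.mk.inj h'.1).1
        · exact (Prod.mk.inj h'.2).1
    · by_cases h : u = c.2.1 ∧ v = c.1
      · by_cases h' : i = c.2.2 l
        · simp [h, h']
        · simp [h, h']
      · rw [if_neg h]
        refine sum_eq_zero fun j _ => if_neg fun h' => h ⟨?_, ?_⟩
        · exact (Prod.mk.inj h'.1).1
        · exact (Prod.mk.inj h'.2).1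
  simp_rw [h1]
  rw [sum_add_distrib]
  congr 1
  · by_cases h : u = c.1 ∧ v = c.2.1 <;> simp [h]
  · by_cases h : u = c.2.1 ∧ v = c.1
    · simp only [h, and_self, if_true]
      have h0 : ∀ l, (i = c.2.2 l) = (c.2.2.symm i = l) := fun l =>
        propext (Equiv.symm_apply_eq c.2.2).symm
      simp [h0]
    · simp [h]

end Lift3

end Vale.Agent.P325.V3
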